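import Vale.Agent.P054.Lin

/-!
Collinear sets, directions, heavy lines.
-/

namespace Vale.Agent.P054

open Finset Module
open scoped Classical

section

variable {F : Type*} [AddCommGroup F] [Module ℝ F]

theorem Col.mono {T T' : Finset F} (h : Col T) (hs : T' ⊆ T) : Col T' := by
  obtain ⟨p, v, h⟩ := h
  exact ⟨p, v, fun q hq => h q (hs hq)⟩

theorem Col.copl {T : Finset F} (h : Col T) : Copl T := by
  obtain ⟨p, v, h⟩ := h
  refine ⟨p, v, 0, fun q hq => ?_⟩
  obtain ⟨r, hr⟩ := h q hq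
  exact ⟨r, 0, by rw [hr]; simp⟩

theorem col_ln (Y : Finset F) (p q : F) : Col (ln Y p q) := by
  refine ⟨p, q - p, fun y hy => ?_⟩
  obtain ⟨r, hr⟩ := Submodule.mem_span_singleton.1 (mem_ln.1 hy).2
  exact ⟨r, by rw [hr]; abel⟩

theorem ln_subset (Y : Finset F) (p q : F) : ln Y p q ⊆ Y := filter_subset _ _

theorem Col.subset_ln {T Y : Finset F} (h : Col T) (hs : T ⊆ Y) {p q : F} (hp : p ∈ T)
    (hq : q ∈ T) (hne : p ≠ q) : T ⊆ ln Y p q := by
  obtain ⟨a, v, h⟩ := h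
  intro y hy
  obtain ⟨r, hr⟩ := h p hp
  obtain ⟨s, hs'⟩ := h q hq
  obtain ⟨t, ht⟩ := h y hy
  have hrs : s - r ≠ 0 := by
    intro h0
    apply hne
    rw [hr, hs', sub_eq_zero.1 h0]
  refine mem_ln.2 ⟨hs hy, Submodule.mem_span_singleton.2 ⟨(t - r) / (s - r), ?_⟩⟩
  have e1 : q - p = (s - r) • v := by rw [hr, hs', sub_smul]; abel
  have e2 : y - p = (t - r) • v := by rw [hr, ht, sub_smul]; abel
  rw [e1, e2, smul_smul, div_mul_cancel₀ _ hrs]

theorem ln_eq {Y : Finset F} {p q a b : F} (ha : a ∈ ln Y p q) (hb : b ∈ ln Y p q)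
    (hne : a ≠ b) : ln Y a b = ln Y p q := by
  apply Subset.antisymm
  · intro y hy
    obtain ⟨hyY, hy⟩ := mem_ln.1 hy
    refine mem_ln.2 ⟨hyY, ?_⟩
    have h1 := (mem_ln.1 ha).2
    have h2 := (mem_ln.1 hb).2
    have h3 : b - a ∈ Submodule.span ℝ {q - p} := by
      have := Submodule.sub_mem _ h2 h1
      rwa [sub_sub_sub_cancel_right] at this
    have h4 : y - a ∈ Submodule.span ℝ {q - p} :=
      (Submodule.span_singleton_le_iff_mem _ _).2 h3 hy
    have := Submodule.add_mem _ h4 h1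
    rwa [sub_add_sub_cancel] at this
  · exact (col_ln Y p q).subset_ln (ln_subset Y p q) ha hb hne

theorem col_of_card_le_two {T : Finset F} (h : T.card ≤ 2) : Col T := by
  rcases T.eq_empty_or_nonempty with rfl | ⟨a, ha⟩
  · exact ⟨0, 0, fun q hq => absurd hq (notMem_empty q)⟩
  · have h1 : (T.erase a).card ≤ 1 := by rw [card_erase_of_mem ha]; omega
    obtain ⟨b, hb⟩ := card_le_one_iff_subset_singleton.1 h1
    refine ⟨a, b - a, fun q hq => ?_⟩
    by_cases hqa : q = a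
    · exact ⟨0, by rw [hqa]; simp⟩
    · have := mem_singleton.1 (hb (mem_erase.2 ⟨hqa, hq⟩))
      exact ⟨1, by rw [this]; simp⟩

theorem col_of_span {T : Finset F} {p v : F} (h : ∀ q ∈ T, q - p ∈ Submodule.span ℝ {v}) :
    Col T := by
  refine ⟨p, v, fun q hq => ?_⟩
  obtain ⟨r, hr⟩ := Submodule.mem_span_singleton.1 (h q hq)
  exact ⟨r, by rw [hr]; abel⟩

/-- The image of a collinear set under an affine map. -/
theorem Col.image {G : Type*} [AddCommGroup G] [Module ℝ G] [DecidableEq G] {T : Finset F}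
    (h : Col T) (g : F → G) (φ : F →ₗ[ℝ] G) (hg : ∀ p q, g p - g q = φ (p - q)) :
    Col (T.image g) := by
  obtain ⟨p, v, h⟩ := h
  refine ⟨g p, φ v, fun y hy => ?_⟩
  obtain ⟨q, hq, rfl⟩ := mem_image.1 hy
  obtain ⟨r, hr⟩ := h q hq
  refine ⟨r, ?_⟩
  have := hg q p
  rw [show q - p = r • v by rw [hr]; abel, map_smul] at this
  rw [← this]; abel

theorem ND.le_card {ζ : ℝ} {Y : Finset F} (h : ND ζ Y) (hY : Y.Nonempty) : ζ ≤ Y.card := by
  obtain ⟨y, hy⟩ := hY
  have := h {y} (singleton_subset_iff.2 hy) (col_of_card_le_two (by simp))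
  simpa using this

variable [DecidableEq F]

/-- A set that is not collinear has three points that are not collinear. -/
theorem exists_not_col {Y : Finset F} (h : ¬ Col Y) :
    ∃ p ∈ Y, ∃ q ∈ Y, ∃ r ∈ Y, ¬ Col ({p, q, r} : Finset F) := by
  by_contra hcon
  push Not at hcon
  apply h
  by_cases h2 : Y.card ≤ 2
  · exact col_of_card_le_two h2
  · obtain ⟨p, hp, q, hq, hne⟩ := one_lt_card.1 (show 1 < Y.card by omega)
    refine (col_ln Y p q).mono fun r hr => ?_
    have hs : ({p, q, r} : Finset F) ⊆ Y := by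
      intro x hx
      simp only [mem_insert, mem_singleton] at hx
      rcases hx with rfl | rfl | rfl <;> assumption
    exact (hcon p hp q hq r hr).subset_ln hs (by simp) (by simp) hne (by simp)

theorem mem_rich {Y T : Finset F} {c : ℝ} :
    T ∈ rich Y c ↔ (∃ p ∈ Y, ∃ q ∈ Y, p ≠ q ∧ T = ln Y p q) ∧ c ≤ (T.card : ℝ) := by
  unfold rich
  rw [mem_filter, mem_image]
  constructor
  · rintro ⟨⟨q, hq, rfl⟩, h⟩
    rw [mem_offDiag] at hq
    exact ⟨⟨q.1, hq.1, q.2, hq.2.1, hq.2.2, rfl⟩, h⟩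
  · rintro ⟨⟨p, hp, q, hq, hne, rfl⟩, h⟩
    exact ⟨⟨(p, q), mem_offDiag.2 ⟨hp, hq, hne⟩, rfl⟩, h⟩

theorem rich_inter {Y T T' : Finset F} {c : ℝ} (h : T ∈ rich Y c) (h' : T' ∈ rich Y c)
    (hne : T ≠ T') : (T ∩ T').card ≤ 1 := by
  by_contra hcon
  obtain ⟨a, ha, b, hb, hab⟩ := one_lt_card.1 (not_le.1 hcon)
  obtain ⟨⟨p, -, q, -, -, rfl⟩, -⟩ := mem_rich.1 h
  obtain ⟨⟨p', -, q', -, -, rfl⟩, -⟩ := mem_rich.1 h'
  rw [mem_inter] at ha hb
  exact hne ((ln_eq ha.1 hb.1 hab).symm.trans (ln_eq ha.2 hb.2 hab))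

theorem heavy_sum {Y : Finset F} {c : ℝ} (hc : 0 < c) (h : 4 * (Y.card : ℝ) ≤ c ^ 2) :
    ∑ T ∈ rich Y c, T.card ≤ 2 * Y.card := by
  refine inclExcl (rich Y c) (fun T => T) Y (c := 1) hc zero_le_one ?_ ?_ ?_ (by linarith)
  · intro T hT
    obtain ⟨⟨p, -, q, -, -, rfl⟩, -⟩ := mem_rich.1 hT
    exact ln_subset Y p q
  · intro T hT
    exact (mem_rich.1 hT).2
  · intro T hT T' hT' hne
    exact_mod_cast rich_inter hT hT' hne

theorem heavy_card {Y : Finset F} {c : ℝ} (hc : 0 < c) (h : 4 * (Y.card : ℝ) ≤ c ^ 2) :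
    ((rich Y c).card : ℝ) * c ≤ 2 * Y.card := by
  have h1 : ((∑ T ∈ rich Y c, T.card : ℕ) : ℝ) ≤ ((2 * Y.card : ℕ) : ℝ) :=
    Nat.cast_le.2 (heavy_sum hc h)
  push_cast at h1
  refine le_trans ?_ h1
  rw [← nsmul_eq_mul, ← sum_const]
  exact sum_le_sum fun T hT => (mem_rich.1 hT).2

theorem dirs_mono {D Y : Finset F} (h : D ⊆ Y) (p : F) : dirs D p ≤ dirs Y p := by
  exact card_le_card (image_subset_image (erase_subset_erase p h))

theorem dirs_le_card (Y : Finset F) (p : F) : dirs Y p ≤ Y.card := by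
  exact card_image_le.trans (card_le_card (erase_subset p Y))

/-- A point off a line sees the points of the line in different directions. -/
theorem card_ln_le_dirs {Y : Finset F} {p q v : F} (hv : v ∈ Y) (h : v ∉ ln Y p q) :
    (ln Y p q).card ≤ dirs Y v := by
  unfold dirs
  have hv' : v - p ∉ Submodule.span ℝ {q - p} := fun h' => h (mem_ln.2 ⟨hv, h'⟩)
  refine card_le_card_of_injOn (fun y => Submodule.span ℝ {y - v}) ?_ ?_
  · intro y hy
    have hy' := mem_ln.1 (mem_coe.1 hy)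
    refine mem_coe.2 (mem_image.2 ⟨y, mem_erase.2 ⟨?_, hy'.1⟩, rfl⟩)
    rintro rfl
    exact hv' hy'.2
  · intro y hy y' hy' he
    by_contra hne
    have h1 : y' - v ∈ Submodule.span ℝ {y - v} := by
      have he' : Submodule.span ℝ {y - v} = Submodule.span ℝ {y' - v} := he
      rw [he']
      exact Submodule.mem_span_singleton_self _
    have hcol : Col ({v, y, y'} : Finset F) := by
      refine col_of_span (p := v) (v := y - v) fun x hx => ?_
      simp only [mem_insert, mem_singleton] at hx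
      rcases hx with rfl | rfl | rfl
      · rw [sub_self]; exact Submodule.zero_mem _
      · exact Submodule.mem_span_singleton_self _
      · exact h1
    have hs : ({v, y, y'} : Finset F) ⊆ Y := by
      intro x hx
      simp only [mem_insert, mem_singleton] at hx
      rcases hx with rfl | rfl | rfl
      · exact hv
      · exact ln_subset Y p q (mem_coe.1 hy)
      · exact ln_subset Y p q (mem_coe.1 hy')
    have h2 := hcol.subset_ln hs (p := y) (q := y') (by simp) (by simp) hne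
      (show v ∈ ({v, y, y'} : Finset F) by simp)
    rw [ln_eq (mem_coe.1 hy) (mem_coe.1 hy') hne] at h2
    exact h h2

theorem card_le_dirs_mul {Y : Finset F} {k : ℝ} (h : ∀ T ⊆ Y, Col T → (T.card : ℝ) ≤ k) {p : F}
    (hp : p ∈ Y) : (Y.card : ℝ) - 1 ≤ dirs Y p * k := by
  have h1 : (Y.erase p).card = ∑ d ∈ (Y.erase p).image fun q => Submodule.span ℝ {q - p},
      ((Y.erase p).filter fun q => Submodule.span ℝ {q - p} = d).card :=
    card_eq_sum_card_image _ _
  have h2 : ((Y.erase p).card : ℝ) = (Y.card : ℝ) - 1 := by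
    rw [card_erase_of_mem hp, Nat.cast_sub (card_pos.2 ⟨p, hp⟩)]; simp
  rw [← h2, h1]
  push_cast
  unfold dirs
  rw [← nsmul_eq_mul, ← sum_const]
  refine sum_le_sum fun d hd => h _ ((filter_subset _ _).trans (erase_subset _ _)) ?_
  obtain ⟨q, -, rfl⟩ := mem_image.1 hd
  refine col_of_span (p := p) (v := q - p) fun y hy => ?_
  rw [← (mem_filter.1 hy).2]
  exact Submodule.mem_span_singleton_self _

theorem weakBeck {D : Finset F} {e : ℝ} (he : 2 ≤ e) (hD : e ^ 2 + 1 ≤ D.card)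
    (h : ∀ T ⊆ D, Col T → 2 * T.card ≤ D.card) :
    e * D.card ≤ 2 * ∑ p ∈ D, (dirs D p : ℝ) := by
  by_cases hc : ∀ T ⊆ D, Col T → (T.card : ℝ) ≤ e
  · have h1 : ∀ p ∈ D, e ≤ (dirs D p : ℝ) := by
      intro p hp
      have := card_le_dirs_mul hc hp
      nlinarith
    have h2 : ∑ _p ∈ D, e ≤ ∑ p ∈ D, (dirs D p : ℝ) := sum_le_sum h1
    rw [sum_const, nsmul_eq_mul] at h2
    have h3 : (0 : ℝ) ≤ D.card * e := by positivity
    linarith
  · push Not at hc
    obtain ⟨T, hT, hcol, hlt⟩ := hc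
    have h2 : 1 < T.card := by
      have : (1 : ℝ) < T.card := by linarith
      exact_mod_cast this
    obtain ⟨p, hp, q, hq, hne⟩ := one_lt_card.1 h2
    have hsub := hcol.subset_ln hT hp hq hne
    have h3 : e ≤ ((ln D p q).card : ℝ) := hlt.le.trans (Nat.cast_le.2 (card_le_card hsub))
    have h4 := h _ (ln_subset D p q) (col_ln D p q)
    have h5 : ∑ _v ∈ D \ ln D p q, e ≤ ∑ v ∈ D \ ln D p q, (dirs D v : ℝ) := by
      refine sum_le_sum fun v hv => h3.trans ?_
      rw [mem_sdiff] at hv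
      exact Nat.cast_le.2 (card_ln_le_dirs hv.1 hv.2)
    have h6 : ∑ v ∈ D \ ln D p q, (dirs D v : ℝ) ≤ ∑ v ∈ D, (dirs D v : ℝ) :=
      sum_le_sum_of_subset_of_nonneg sdiff_subset fun _ _ _ => Nat.cast_nonneg _
    rw [sum_const, nsmul_eq_mul] at h5
    have h7 : D.card ≤ 2 * (D \ ln D p q).card := by
      have := card_sdiff_add_card_eq_card (ln_subset D p q)
      omega
    have h8 : (D.card : ℝ) ≤ 2 * ((D \ ln D p q).card : ℝ) := by exact_mod_cast h7
    nlinarith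

/-- Few rich lines pass through a point. -/
theorem richThru {Y : Finset F} {p : F} (hp : p ∈ Y) (c : ℝ) :
    ((((Y.erase p).filter fun q => c ≤ ((ln Y p q).card : ℝ)).image
      fun q => Submodule.span ℝ {q - p}).card : ℝ) * (c - 1) ≤ Y.card := by
  set S := ((Y.erase p).filter fun q => c ≤ ((ln Y p q).card : ℝ)).image
      fun q => Submodule.span ℝ {q - p} with hS
  have h1 : ∑ d ∈ S, ((Y.erase p).filter fun q => Submodule.span ℝ {q - p} = d).card
      ≤ (Y.erase p).card := by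
    rw [← card_biUnion]
    · exact card_le_card (biUnion_subset.2 fun d _ => filter_subset _ _)
    · intro d _ d' _ hne
      refine disjoint_left.2 fun x hx hx' => hne ?_
      exact (mem_filter.1 hx).2.symm.trans (mem_filter.1 hx').2
  have h2 : ((∑ d ∈ S, ((Y.erase p).filter fun q => Submodule.span ℝ {q - p} = d).card : ℕ) : ℝ)
      ≤ Y.card := Nat.cast_le.2 (h1.trans (card_le_card (erase_subset _ _)))
  push_cast at h2
  refine le_trans ?_ h2
  rw [← nsmul_eq_mul, ← sum_const]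
  refine sum_le_sum fun d hd => ?_
  obtain ⟨q, hq, rfl⟩ := mem_image.1 hd
  obtain ⟨hq1, hq2⟩ := mem_filter.1 hq
  have hpl : p ∈ ln Y p q := mem_ln.2 ⟨hp, by rw [sub_self]; exact Submodule.zero_mem _⟩
  have h3 : (ln Y p q).erase p ⊆ (Y.erase p).filter
      fun y => Submodule.span ℝ {y - p} = Submodule.span ℝ {q - p} := by
    intro y hy
    obtain ⟨hyp, hy⟩ := mem_erase.1 hy
    obtain ⟨hyY, hy⟩ := mem_ln.1 hy
    refine mem_filter.2 ⟨mem_erase.2 ⟨hyp, hyY⟩, ?_⟩
    obtain ⟨r, hr⟩ := Submodule.mem_span_singleton.1 hy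
    have hr0 : r ≠ 0 := by
      rintro rfl
      rw [zero_smul] at hr
      exact hyp (sub_eq_zero.1 hr.symm)
    rw [← hr]
    exact Submodule.span_singleton_smul_eq (IsUnit.mk0 r hr0) _
  have h4 := card_le_card h3
  rw [card_erase_of_mem hpl] at h4
  have h5 : (ln Y p q).card ≤ ((Y.erase p).filter
      fun y => Submodule.span ℝ {y - p} = Submodule.span ℝ {q - p}).card + 1 := by omega
  have h6 : ((ln Y p q).card : ℝ) ≤ (((Y.erase p).filter
      fun y => Submodule.span ℝ {y - p} = Submodule.span ℝ {q - p}).card : ℝ) + 1 := by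
    exact_mod_cast h5
  linarith

end

/-- A line meets a sphere in at most two points. -/
theorem sphere {T : Finset V3} (h : Col T) (p : V3) (r : ℝ)
    (hr : ∀ q ∈ T, (q - p) ⬝ᵥ (q - p) = r) : T.card ≤ 2 := by
  by_contra hcon
  obtain ⟨x, hx, y, hy, z, hz, hxy, hxz, hyz⟩ := two_lt_card.1 (not_le.1 hcon)
  obtain ⟨a, v, h⟩ := h
  obtain ⟨s, hs⟩ := h x hx
  obtain ⟨t, ht⟩ := h y hy
  obtain ⟨u, hu⟩ := h z hz
  have e : ∀ w : ℝ, (a + w • v - p) ⬝ᵥ (a + w • v - p)
      = (a - p) ⬝ᵥ (a - p) + 2 * w * ((a - p) ⬝ᵥ v) + w ^ 2 * (v ⬝ᵥ v) := by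
    intro w
    simp only [dotProduct, Fin.sum_univ_three, Pi.add_apply, Pi.sub_apply, Pi.smul_apply,
      smul_eq_mul]
    ring
  have h1 := hr x hx
  have h2 := hr y hy
  have h3 := hr z hz
  rw [hs, e] at h1
  rw [ht, e] at h2
  rw [hu, e] at h3
  have hst : s - t ≠ 0 := fun h0 => hxy (by rw [hs, ht, sub_eq_zero.1 h0])
  have hsu : s - u ≠ 0 := fun h0 => hxz (by rw [hs, hu, sub_eq_zero.1 h0])
  have htu : t - u ≠ 0 := fun h0 => hyz (by rw [ht, hu, sub_eq_zero.1 h0])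
  have k1 : 2 * ((a - p) ⬝ᵥ v) + (s + t) * (v ⬝ᵥ v) = 0 := by
    apply mul_left_cancel₀ hst
    linear_combination h1 - h2
  have k2 : 2 * ((a - p) ⬝ᵥ v) + (s + u) * (v ⬝ᵥ v) = 0 := by
    apply mul_left_cancel₀ hsu
    linear_combination h1 - h3
  have k3 : v ⬝ᵥ v = 0 := by
    apply mul_left_cancel₀ htu
    linear_combination k1 - k2
  have hv : v = 0 := dotProduct_self_eq_zero.1 k3
  apply hxy
  rw [hs, ht, hv, smul_zero, smul_zero]

/-- Edges whose second end has its second coordinate on a heavy line. Hint: the edge `(w, v)` is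
determined by `w`, `v.1`, the heavy line and one of two points. -/
theorem heavyEdge (A B : Finset V3) {m c : ℝ} (hA : (A.card : ℝ) ≤ m) (hB : (B.card : ℝ) ≤ m)
    (hc : 0 < c) (h : 4 * m ≤ c ^ 2) :
    ((((A ×ˢ B) ×ˢ (A ×ˢ B)).filter fun q : V6 × V6 => Bf (q.2 - q.1) (q.2 - q.1) = 0 ∧
      ∃ T ∈ rich B c, q.2.2 ∈ T).card : ℝ) ≤ 4 * m ^ 4 / c := by
  have hm : 0 ≤ m := (Nat.cast_nonneg _).trans hA
  have hR := heavy_card hc (show 4 * (B.card : ℝ) ≤ c ^ 2 by linarith)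
  have h1 : (((A ×ˢ B) ×ˢ (A ×ˢ B)).filter fun q : V6 × V6 => Bf (q.2 - q.1) (q.2 - q.1) = 0 ∧
      ∃ T ∈ rich B c, q.2.2 ∈ T) ⊆ ((A ×ˢ B) ×ˢ A ×ˢ rich B c).biUnion fun z =>
        (z.2.2.filter fun y => (y - z.1.2) ⬝ᵥ (y - z.1.2)
          = (z.2.1 - z.1.1) ⬝ᵥ (z.2.1 - z.1.1)).image fun y => (z.1, (z.2.1, y)) := by
    intro q hq
    obtain ⟨hq, hb, T, hT, hqT⟩ := mem_filter.1 hq
    obtain ⟨hq1, hq2⟩ := mem_product.1 hq
    refine mem_biUnion.2 ⟨(q.1, q.2.1, T),
      mem_product.2 ⟨hq1, mem_product.2 ⟨(mem_product.1 hq2).1, hT⟩⟩, ?_⟩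
    refine mem_image.2 ⟨q.2.2, mem_filter.2 ⟨hqT, ?_⟩, rfl⟩
    exact (sub_eq_zero.1 hb).symm
  have h2 := (card_le_card h1).trans (card_biUnion_le_card_mul _ _ 2 (by
    intro z hz
    refine card_image_le.trans ?_
    have hT := (mem_product.1 (mem_product.1 hz).2).2
    obtain ⟨⟨p, -, q, -, -, hT⟩, -⟩ := mem_rich.1 hT
    refine sphere (((hT ▸ col_ln B p q : Col z.2.2)).mono (filter_subset _ _)) z.1.2 _
      fun y hy => (mem_filter.1 hy).2))
  rw [card_product, card_product, card_product] at h2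
  have h3 : ((A.card * B.card * (A.card * (rich B c).card) * 2 : ℕ) : ℝ) ≤ 4 * m ^ 4 / c := by
    push_cast
    rw [le_div_iff₀ hc]
    have k1 : (A.card : ℝ) * B.card * A.card ≤ m * m * m := by gcongr
    have k2 : ((rich B c).card : ℝ) * c ≤ 2 * m := by linarith
    have k3 : (A.card : ℝ) * B.card * A.card * (((rich B c).card : ℝ) * c)
        ≤ m * m * m * (2 * m) := by gcongr
    nlinarith
  exact (Nat.cast_le.2 h2).trans h3

end Vale.Agent.P054
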