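import Vale.Agent.P054.ST
import Vale.Agent.P054.Aff

/-!
The theorem of Beck.
-/

namespace Vale.Agent.P054

open Finset Module
open scoped Classical

variable {F : Type*} [AddCommGroup F] [Module ℝ F] [FiniteDimensional ℝ F] [DecidableEq F]

omit [FiniteDimensional ℝ F] [DecidableEq F] in
theorem beck_mem {p q y : F} :
    ((1 : ℝ), y) ∈ Submodule.span ℝ ({((1 : ℝ), p), ((1 : ℝ), q)} : Set (ℝ × F)) ↔
      y - p ∈ Submodule.span ℝ {q - p} := by
  rw [Submodule.mem_span_pair, Submodule.mem_span_singleton]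
  constructor
  · rintro ⟨a, b, h⟩
    have h1 : a + b = 1 := by simpa using congrArg Prod.fst h
    have h2 : a • p + b • q = y := by simpa using congrArg Prod.snd h
    refine ⟨b, ?_⟩
    rw [← h2, show a = 1 - b by linarith, sub_smul, one_smul, smul_sub]
    abel
  · rintro ⟨b, h⟩
    refine ⟨1 - b, b, Prod.ext (by simp) ?_⟩
    show (1 - b) • p + b • q = y
    rw [← sub_add_cancel y p, ← h, sub_smul, one_smul, smul_sub]
    abel

omit [FiniteDimensional ℝ F] [DecidableEq F] in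
theorem beck_inj : Function.Injective
    fun p : F => Submodule.span ℝ ({((1 : ℝ), p)} : Set (ℝ × F)) := by
  intro p q h
  have h' : Submodule.span ℝ ({((1 : ℝ), p)} : Set (ℝ × F))
      = Submodule.span ℝ ({((1 : ℝ), q)} : Set (ℝ × F)) := h
  have h1 : ((1 : ℝ), p) ∈ Submodule.span ℝ ({((1 : ℝ), q)} : Set (ℝ × F)) := by
    rw [← h']; exact Submodule.mem_span_singleton_self _
  obtain ⟨r, hr⟩ := Submodule.mem_span_singleton.1 h1
  have h2 : r = 1 := by simpa using congrArg Prod.fst hr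
  rw [h2, one_smul] at hr
  exact (congrArg Prod.snd hr).symm

omit [DecidableEq F] in
theorem beck_one (p : F) :
    finrank ℝ (Submodule.span ℝ ({((1 : ℝ), p)} : Set (ℝ × F))) = 1 :=
  finrank_span_singleton fun h => one_ne_zero (congrArg Prod.fst h)

omit [DecidableEq F] in
theorem beck_two {p q : F} (h : p ≠ q) :
    finrank ℝ (Submodule.span ℝ ({((1 : ℝ), p), ((1 : ℝ), q)} : Set (ℝ × F))) = 2 := by
  rw [Submodule.span_insert]
  exact sup_two (beck_one p) (beck_one q) fun h' => h (beck_inj h')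

/-- Hint: homogenise, `p ↦ span {(1, p)}` in `ℝ × F`, and use `richSqK` with `K = ⊥`. -/
theorem richSqA (Y : Finset F) {κ M : ℝ} (hκ : 2 ≤ κ) (hM : 0 ≤ M)
    (h : ∀ T ⊆ Y, Col T → (T.card : ℝ) ≤ M) :
    ∑ T ∈ rich Y κ, (T.card : ℝ) ^ 2 ≤ 10 ^ 10 * ((Y.card : ℝ) ^ 2 / κ + Y.card * M) := by
  have hex : ∀ T : Finset F, ∃ l : Submodule ℝ (ℝ × F), T ∈ rich Y κ → finrank ℝ l = 2 ∧
      ∀ y ∈ Y, (Submodule.span ℝ ({((1 : ℝ), y)} : Set (ℝ × F)) ≤ l ↔ y ∈ T) := by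
    intro T
    by_cases hT : T ∈ rich Y κ
    · obtain ⟨⟨p, -, q, -, hne, rfl⟩, -⟩ := mem_rich.1 hT
      refine ⟨Submodule.span ℝ ({((1 : ℝ), p), ((1 : ℝ), q)} : Set (ℝ × F)),
        fun _ => ⟨beck_two hne, fun y hy => ?_⟩⟩
      rw [Submodule.span_singleton_le_iff_mem, beck_mem, mem_ln]
      exact ⟨fun h => ⟨hy, h⟩, fun h => h.2⟩
    · exact ⟨⊥, fun h => absurd h hT⟩
  choose l hl using hex
  have hsub : ∀ T ∈ rich Y κ, T ⊆ Y ∧ Col T := by
    intro T hT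
    obtain ⟨⟨p, -, q, -, -, rfl⟩, -⟩ := mem_rich.1 hT
    exact ⟨ln_subset Y p q, col_ln Y p q⟩
  have hinj : Set.InjOn l (rich Y κ) := by
    intro T hT T' hT' he
    have hT := mem_coe.1 hT
    have hT' := mem_coe.1 hT'
    ext y
    constructor
    · intro hy
      have hyY := (hsub T hT).1 hy
      rw [← (hl T' hT').2 y hyY, ← he]
      exact ((hl T hT).2 y hyY).2 hy
    · intro hy
      have hyY := (hsub T' hT').1 hy
      rw [← (hl T hT).2 y hyY, he]
      exact ((hl T' hT').2 y hyY).2 hy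
  set P := Y.image fun p : F => Submodule.span ℝ ({((1 : ℝ), p)} : Set (ℝ × F)) with hP
  have hPc : P.card = Y.card := card_image_of_injective _ beck_inj
  have hin : ∀ T ∈ rich Y κ, inpl P (l T) = T.card := by
    intro T hT
    unfold inpl
    rw [hP, filter_image, card_image_of_injective _ beck_inj]
    congr 1
    ext y
    rw [mem_filter]
    exact ⟨fun h => ((hl T hT).2 y h.1).1 h.2,
      fun h => ⟨(hsub T hT).1 h, ((hl T hT).2 y ((hsub T hT).1 h)).2 h⟩⟩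
  have key := richSqK (⊥ : Submodule ℝ (ℝ × F)) (a := 0) (finrank_bot ℝ _) P
    ((rich Y κ).image l) (by
      intro x hx
      obtain ⟨p, -, rfl⟩ := mem_image.1 hx
      exact beck_one p) (by
      intro x hx
      obtain ⟨T, hT, rfl⟩ := mem_image.1 hx
      exact (hl T hT).1) (fun _ _ => bot_le) (fun _ _ => bot_le) hκ hM (by
      intro x hx
      obtain ⟨T, hT, rfl⟩ := mem_image.1 hx
      rw [hin T hT]
      exact ⟨(mem_rich.1 hT).2, h T (hsub T hT).1 (hsub T hT).2⟩)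
  rw [sum_image hinj, hPc] at key
  refine le_trans (le_of_eq (sum_congr rfl fun T hT => ?_)) key
  rw [hin T hT]

omit [FiniteDimensional ℝ F] in
theorem beck_poor (Y : Finset F) (p : F) (k : ℕ) :
    ((Y.erase p).filter fun q => ¬ (k : ℝ) ≤ ((ln Y p q).card : ℝ)).card ≤ k * dirs Y p := by
  unfold dirs
  refine card_le_mul_card_image_of_maps_to (f := fun q => Submodule.span ℝ {q - p})
    (fun a ha => mem_image.2 ⟨a, (mem_filter.1 ha).1, rfl⟩) k fun d _ => ?_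
  rcases (((Y.erase p).filter fun q => ¬ (k : ℝ) ≤ ((ln Y p q).card : ℝ)).filter
    fun q => Submodule.span ℝ {q - p} = d).eq_empty_or_nonempty with h0 | ⟨q, hq⟩
  · rw [h0]; exact Nat.zero_le _
  · obtain ⟨hq1, hq2⟩ := mem_filter.1 hq
    have h1 : (ln Y p q).card < k := by
      have := not_le.1 (mem_filter.1 hq1).2
      exact_mod_cast this
    refine le_trans (card_le_card fun y hy => ?_) h1.le
    obtain ⟨hy1, hy2⟩ := mem_filter.1 hy
    refine mem_ln.2 ⟨(mem_erase.1 (mem_filter.1 hy1).1).2, ?_⟩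
    rw [hq2, ← hy2]
    exact Submodule.mem_span_singleton_self _

omit [FiniteDimensional ℝ F] in
theorem beck_pairs (Y : Finset F) (k : ℝ) :
    ∑ p ∈ Y, ((Y.erase p).filter fun q => k ≤ ((ln Y p q).card : ℝ)).card
      ≤ ∑ T ∈ rich Y k, T.card * T.card := by
  refine le_trans ?_ (card_le_sum_classes
    ((Y ×ˢ Y).filter fun q => q.2 ≠ q.1 ∧ k ≤ ((ln Y q.1 q.2).card : ℝ))
    (fun q => ln Y q.1 q.2) (rich Y k) (fun T => T) (fun T => T) ?_)
  · rw [card_filter, sum_product]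
    refine sum_le_sum fun p _ => ?_
    rw [← card_filter]
    refine card_le_card fun q hq => ?_
    obtain ⟨hq1, hq2⟩ := mem_filter.1 hq
    exact mem_filter.2 ⟨(mem_erase.1 hq1).2, (mem_erase.1 hq1).1, hq2⟩
  · intro q hq
    obtain ⟨hq1, hq2, hq3⟩ := mem_filter.1 hq
    obtain ⟨h1, h2⟩ := mem_product.1 hq1
    refine ⟨mem_rich.2 ⟨⟨q.1, h1, q.2, h2, hq2.symm, rfl⟩, hq3⟩, mem_ln.2 ⟨h1, ?_⟩,
      mem_ln.2 ⟨h2, Submodule.mem_span_singleton_self _⟩⟩
    rw [sub_self]; exact Submodule.zero_mem _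

/-- Hint: `κ = 8 · 10 ^ 10`; at most `n² / 4` ordered pairs lie on `κ`-rich lines, so at least
`n / 4` points have at least `n / 4` partners on poor lines. -/
theorem beck {Y : Finset F} {ζ : ℝ} (hζ : 10 ^ 12 ≤ ζ) (h : ND ζ Y) :
    Y.card ≤ 4 * (Y.filter fun p => (Y.card : ℝ) ≤ 10 ^ 12 * dirs Y p).card := by
  rcases Y.eq_empty_or_nonempty with rfl | hY
  · simp
  have hn : (10 : ℝ) ^ 12 ≤ Y.card := hζ.trans (h.le_card hY)
  have hζ0 : 0 < ζ := by linarith [show (0 : ℝ) < 10 ^ 12 by norm_num]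
  have h1 := richSqA Y (κ := ((8 * 10 ^ 10 : ℕ) : ℝ)) (M := Y.card / 10 ^ 12) (by norm_num)
    (by positivity) (by
      intro T hT hc
      rw [le_div_iff₀ (by norm_num)]
      have := h T hT hc
      have h0 : (0 : ℝ) ≤ T.card := Nat.cast_nonneg _
      nlinarith)
  have h2 : ((∑ p ∈ Y, ((Y.erase p).filter fun q =>
      ((8 * 10 ^ 10 : ℕ) : ℝ) ≤ ((ln Y p q).card : ℝ)).card : ℕ) : ℝ)
      ≤ ((∑ T ∈ rich Y ((8 * 10 ^ 10 : ℕ) : ℝ), T.card * T.card : ℕ) : ℝ) :=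
    Nat.cast_le.2 (beck_pairs Y _)
  rw [Nat.cast_sum, Nat.cast_sum] at h2
  have h3 : ∑ T ∈ rich Y ((8 * 10 ^ 10 : ℕ) : ℝ), ((T.card * T.card : ℕ) : ℝ)
      = ∑ T ∈ rich Y ((8 * 10 ^ 10 : ℕ) : ℝ), (T.card : ℝ) ^ 2 :=
    sum_congr rfl fun T _ => by push_cast; ring
  rw [h3] at h2
  have h4 : ∀ p ∈ Y.filter fun p => ¬ (Y.card : ℝ) ≤ 10 ^ 12 * dirs Y p,
      (Y.card : ℝ) / 2 ≤ (((Y.erase p).filter fun q =>
        ((8 * 10 ^ 10 : ℕ) : ℝ) ≤ ((ln Y p q).card : ℝ)).card : ℝ) := by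
    intro p hp
    obtain ⟨hp1, hp2⟩ := mem_filter.1 hp
    have k1 := beck_poor Y p (8 * 10 ^ 10)
    have k2 := card_filter_add_card_filter_not (s := Y.erase p)
      fun q => ((8 * 10 ^ 10 : ℕ) : ℝ) ≤ ((ln Y p q).card : ℝ)
    have k3 := card_erase_add_one hp1
    have k4 : Y.card ≤ ((Y.erase p).filter fun q =>
        ((8 * 10 ^ 10 : ℕ) : ℝ) ≤ ((ln Y p q).card : ℝ)).card + 8 * 10 ^ 10 * dirs Y p + 1 := by
      omega
    have k5 : (Y.card : ℝ) ≤ (((Y.erase p).filter fun q =>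
        ((8 * 10 ^ 10 : ℕ) : ℝ) ≤ ((ln Y p q).card : ℝ)).card : ℝ)
        + 8 * 10 ^ 10 * (dirs Y p : ℝ) + 1 := by exact_mod_cast k4
    have k6 := not_le.1 hp2
    have aux : ∀ n a d : ℝ, 10 ^ 12 ≤ n → n ≤ a + 8 * 10 ^ 10 * d + 1 → 10 ^ 12 * d < n →
        n / 2 ≤ a := by
      intro n a d e1 e2 e3
      linarith
    exact aux _ _ _ hn k5 k6
  have h5 := sum_le_sum h4
  rw [sum_const, nsmul_eq_mul] at h5
  have h6 := h5.trans (sum_le_sum_of_subset_of_nonneg (filter_subset _ Y)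
    fun _ _ _ => Nat.cast_nonneg _)
  have h7 := (h6.trans h2).trans h1
  have h8 := card_filter_add_card_filter_not (s := Y)
    fun p => (Y.card : ℝ) ≤ 10 ^ 12 * dirs Y p
  have h9 : ((Y.filter fun p => (Y.card : ℝ) ≤ 10 ^ 12 * dirs Y p).card : ℝ)
      + ((Y.filter fun p => ¬ (Y.card : ℝ) ≤ 10 ^ 12 * dirs Y p).card : ℝ) = Y.card := by
    exact_mod_cast h8
  have hpos : (0 : ℝ) < Y.card := by linarith [show (0 : ℝ) < 10 ^ 12 by norm_num]
  have h10 : ((Y.filter fun p => ¬ (Y.card : ℝ) ≤ 10 ^ 12 * dirs Y p).card : ℝ)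
      ≤ Y.card / 2 := by
    apply le_of_mul_le_mul_right _ hpos
    push_cast at h7
    nlinarith
  have h11 : (Y.card : ℝ)
      ≤ 4 * ((Y.filter fun p => (Y.card : ℝ) ≤ 10 ^ 12 * dirs Y p).card : ℝ) := by
    have aux : ∀ n a b : ℝ, 0 < n → a + b = n → b ≤ n / 2 → n ≤ 4 * a := by
      intro n a b e1 e2 e3
      linarith
    exact aux _ _ _ hpos h9 h10
  exact_mod_cast h11

end Vale.Agent.P054
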