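import Vale.Agent.P054.BezA

/-!
Zeros on lines, factors of forms, Bezout for lines.
-/

namespace Vale.Agent.P054

open Finset Module
open scoped Classical

theorem eval_smul_homog {n D : ℕ} {f : MvPolynomial (Fin n) ℝ} (hf : f.IsHomogeneous D) (c : ℝ)
    (y : Fin n → ℝ) : MvPolynomial.eval (c • y) f = c ^ D * MvPolynomial.eval y f := by
  rw [← beza_G_eval, beza_G_homog hf, Polynomial.map_monomial, Polynomial.eval_monomial, mul_comm]

theorem van_of_eval {n D : ℕ} {f : MvPolynomial (Fin n) ℝ} (hf : f.IsHomogeneous D)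
    {p : Submodule ℝ (Fin n → ℝ)} (hp : finrank ℝ p = 1) {y : Fin n → ℝ} (hy : y ∈ p)
    (h0 : y ≠ 0) (h : MvPolynomial.eval y f = 0) : van f p := by
  intro z hz
  obtain ⟨c, rfl⟩ := Submodule.mem_span_singleton.1
    (pt_le_of_mem hp hy h0 (Submodule.mem_span_singleton_self y) hz)
  rw [eval_smul_homog hf, h, mul_zero]

/-- A form of degree `D` not vanishing on a line has at most `D` zeros on it. Hint: take `a ∈ l`
with `f a ≠ 0` and `b` completing a basis; zeros are `t a + b`; the polynomial in `t` has degree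
at most `D` and is nonzero. -/
theorem zeros_le {n D : ℕ} {f : MvPolynomial (Fin n) ℝ} (hf : f.IsHomogeneous D)
    {l : Submodule ℝ (Fin n → ℝ)} (hl : finrank ℝ l = 2) (hv : ¬ van f l)
    (P : Finset (Submodule ℝ (Fin n → ℝ))) (hP : Dim 1 P) (h : ∀ p ∈ P, p ≤ l ∧ van f p) :
    P.card ≤ D := by
  rcases P.eq_empty_or_nonempty with rfl | ⟨p₀, hp₀⟩
  · simp
  obtain ⟨a, ha, hfa⟩ : ∃ a ∈ l, MvPolynomial.eval a f ≠ 0 := by
    by_contra h1
    push Not at h1
    exact hv h1
  have ha0 : a ≠ 0 := by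
    rintro rfl
    exact hfa ((h p₀ hp₀).2 0 (zero_mem _))
  have h1 : finrank ℝ (Submodule.span ℝ {a}) = 1 := finrank_span_singleton ha0
  obtain ⟨b, hb, hba⟩ : ∃ b ∈ l, b ∉ Submodule.span ℝ {a} := by
    by_contra h2
    push Not at h2
    have := Submodule.finrank_mono (show l ≤ Submodule.span ℝ {a} from h2)
    omega
  have hb0 : b ≠ 0 := by
    rintro rfl
    exact hba (zero_mem _)
  have h2 := sup_eq_of_two h1 (finrank_span_singleton hb0) hl
    (fun e => hba (e ▸ Submodule.mem_span_singleton_self b))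
    ((Submodule.span_singleton_le_iff_mem _ _).2 ha) ((Submodule.span_singleton_le_iff_mem _ _).2 hb)
  obtain ⟨h3, h4⟩ := beza_L_deg b a hf
  have h5 : bezaL b a f ≠ 0 := fun e => hfa (by simpa [e] using h4.symm)
  have h6 : P ⊆ (bezaL b a f).roots.toFinset.image fun t => Submodule.span ℝ {b + t • a} := by
    intro p hp
    obtain ⟨z, hz, hz0⟩ := exists_vec (hP p hp)
    have h7 := (h p hp).1 hz
    rw [← h2, Submodule.mem_sup] at h7
    obtain ⟨_, h8, _, h9, rfl⟩ := h7
    obtain ⟨α, rfl⟩ := Submodule.mem_span_singleton.1 h8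
    obtain ⟨β, rfl⟩ := Submodule.mem_span_singleton.1 h9
    have hβ : β ≠ 0 := by
      rintro rfl
      rw [zero_smul, add_zero] at hz hz0
      have hα : α ≠ 0 := fun e => hz0 (by rw [e, zero_smul])
      exact hfa ((h p hp).2 a ((p.smul_mem_iff hα).1 hz))
    have e : b + (α / β) • a = β⁻¹ • (α • a + β • b) := by
      rw [smul_add, smul_smul, smul_smul, inv_mul_cancel₀ hβ, one_smul, add_comm, div_eq_inv_mul]
    have h10 : b + (α / β) • a ∈ p := e ▸ p.smul_mem _ hz
    refine mem_image.2 ⟨α / β, ?_, ?_⟩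
    · rw [Multiset.mem_toFinset, Polynomial.mem_roots h5, Polynomial.IsRoot.def, beza_L_eval]
      exact (h p hp).2 _ h10
    · refine Submodule.eq_of_le_of_finrank_eq ((Submodule.span_singleton_le_iff_mem _ _).2 h10) ?_
      rw [hP p hp, finrank_span_singleton (e ▸ smul_ne_zero (inv_ne_zero hβ) hz0)]
  exact (card_le_card h6).trans (card_image_le.trans ((Multiset.toFinset_card_le _).trans
    ((Polynomial.card_roots' _).trans h3)))

/-- Factors of forms are forms. -/
theorem factor_homog {n D : ℕ} {f g : MvPolynomial (Fin n) ℝ} (hf : f.IsHomogeneous D)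
    (h0 : f ≠ 0) (hg : g ∣ f) : ∃ a ≤ D, g.IsHomogeneous a := by
  obtain ⟨u, rfl⟩ := hg
  have h1 := beza_G_homog hf
  have hne : bezaG n (g * u) ≠ 0 := by
    rw [h1]
    exact fun e => h0 (Polynomial.monomial_eq_zero_iff _ _ |>.1 e)
  have h2 := congrArg Polynomial.natDegree h1
  have h3 := congrArg Polynomial.natTrailingDegree h1
  rw [map_mul] at hne h2 h3
  rw [Polynomial.natDegree_mul (left_ne_zero_of_mul hne) (right_ne_zero_of_mul hne),
    Polynomial.natDegree_monomial, if_neg h0] at h2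
  rw [Polynomial.natTrailingDegree_mul (left_ne_zero_of_mul hne) (right_ne_zero_of_mul hne),
    Polynomial.natTrailingDegree_monomial h0] at h3
  have h4 := Polynomial.natTrailingDegree_le_natDegree (bezaG n g)
  have h5 := Polynomial.natTrailingDegree_le_natDegree (bezaG n u)
  refine ⟨(bezaG n g).natDegree, by omega, beza_homog_of fun k hk => ?_⟩
  rw [← beza_G_coeff]
  rcases lt_or_gt_of_ne hk with h6 | h6
  · exact Polynomial.coeff_eq_zero_of_lt_natTrailingDegree (by omega)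
  · exact Polynomial.coeff_eq_zero_of_natDegree_lt h6

theorem bez_pos {n a : ℕ} {f : MvPolynomial (Fin n) ℝ} (hf : Irreducible f)
    (h : f.IsHomogeneous a) : a ≠ 0 := by
  rintro rfl
  have h1 := MvPolynomial.totalDegree_eq_zero_iff_eq_C.1
    ((MvPolynomial.totalDegree_zero_iff_isHomogeneous _).2 h)
  refine hf.not_isUnit (h1 ▸ IsUnit.map MvPolynomial.C (Ne.isUnit fun e => hf.ne_zero ?_))
  rw [h1, e, map_zero]

theorem exists_factors {n D : ℕ} {f : MvPolynomial (Fin n) ℝ} (hf : f.IsHomogeneous D)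
    (h0 : f ≠ 0) : ∃ T : Finset (MvPolynomial (Fin n) ℝ), T.card ≤ D ∧ (∀ g ∈ T, IrrH D g) ∧
      ∀ z, MvPolynomial.eval z f = 0 → ∃ g ∈ T, MvPolynomial.eval z g = 0 := by
  induction f using WfDvdMonoid.induction_on_irreducible generalizing D with
  | zero => exact absurd rfl h0
  | unit u hu => exact ⟨∅, by simp, by simp, fun z hz => absurd hz (hu.map _).ne_zero⟩
  | mul a i ha hi ih =>
    obtain ⟨di, hdi, h1⟩ := factor_homog hf h0 (dvd_mul_right i a)
    obtain ⟨da, hda, h2⟩ := factor_homog hf h0 (dvd_mul_left a i)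
    have h3 := (h1.mul h2).inj_right hf h0
    have h4 := bez_pos hi h1
    obtain ⟨T, hT, h5, h6⟩ := ih h2 ha
    refine ⟨insert i T, (card_insert_le _ _).trans (by omega), fun g hg => ?_, fun z hz => ?_⟩
    · rcases mem_insert.1 hg with rfl | hg
      · exact ⟨hi, di, hdi, h1⟩
      · obtain ⟨h7, c, hc, h8⟩ := h5 g hg
        exact ⟨h7, c, hc.trans hda, h8⟩
    · rw [map_mul, mul_eq_zero] at hz
      rcases hz with hz | hz
      · exact ⟨i, mem_insert_self _ _, hz⟩
      · obtain ⟨g, hg, h7⟩ := h6 z hz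
        exact ⟨g, mem_insert_of_mem hg, h7⟩

/-- The linear form of a functional. -/
noncomputable def lf {n : ℕ} (φ : (Fin n → ℝ) →ₗ[ℝ] ℝ) : MvPolynomial (Fin n) ℝ :=
  ∑ i, MvPolynomial.C (φ (Pi.single i 1)) * MvPolynomial.X i

theorem eval_lf {n : ℕ} (φ : (Fin n → ℝ) →ₗ[ℝ] ℝ) (z : Fin n → ℝ) :
    MvPolynomial.eval z (lf φ) = φ z := by
  conv_rhs => rw [← Finset.univ_sum_single z, map_sum]
  rw [lf, map_sum]
  refine sum_congr rfl fun i _ => ?_
  rw [map_mul, MvPolynomial.eval_C, MvPolynomial.eval_X, mul_comm, ← smul_eq_mul, ← map_smul,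
    ← Pi.single_smul, smul_eq_mul, mul_one]

theorem lf_homog {n : ℕ} (φ : (Fin n → ℝ) →ₗ[ℝ] ℝ) : (lf φ).IsHomogeneous 1 := by
  exact MvPolynomial.IsHomogeneous.sum _ _ _ fun i _ => MvPolynomial.isHomogeneous_C_mul_X _ _

theorem bez_lf_ne {n : ℕ} {φ : (Fin n → ℝ) →ₗ[ℝ] ℝ} (h : φ ≠ 0) : lf φ ≠ 0 := fun e =>
  h (LinearMap.ext fun z => by rw [← eval_lf, e, map_zero, LinearMap.zero_apply])

theorem bez_gen {n : ℕ} {f : MvPolynomial (Fin n) ℝ} (hf : f ≠ 0)
    (U : Finset (Submodule ℝ (Fin n → ℝ))) (hU : ∀ u ∈ U, finrank ℝ u < n) :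
    ∃ p, MvPolynomial.eval p f ≠ 0 ∧ ∀ u ∈ U, p ∉ u := by
  have h1 : ∀ u ∈ U, ∃ φ : (Fin n → ℝ) →ₗ[ℝ] ℝ, φ ≠ 0 ∧ u ≤ LinearMap.ker φ := fun u hu =>
    u.exists_le_ker_of_lt_top (lt_top_iff_ne_top.2 fun e => by
      have := hU u hu
      rw [e, finrank_top, Module.finrank_fin_fun] at this
      omega)
  choose! φ h2 h3 using h1
  have h4 : f * ∏ u ∈ U, lf (φ u) ≠ 0 :=
    mul_ne_zero hf (prod_ne_zero_iff.2 fun u hu => bez_lf_ne (h2 u hu))
  obtain ⟨p, hp⟩ : ∃ p, MvPolynomial.eval p (f * ∏ u ∈ U, lf (φ u)) ≠ 0 := by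
    by_contra h5
    push Not at h5
    exact h4 (MvPolynomial.funext fun z => by rw [h5, map_zero])
  rw [map_mul, map_prod, mul_ne_zero_iff, prod_ne_zero_iff] at hp
  exact ⟨p, hp.1, fun u hu h5 => hp.2 u hu (by rw [eval_lf]; exact h3 u hu h5)⟩

theorem bez_planes {d : ℕ} {R : MvPolynomial (Fin 4) ℝ} (hR : R.IsHomogeneous d) (h0 : R ≠ 0)
    (T : Finset Sub) (hT : Dim 3 T) (h : ∀ p ∈ T, van R p) : T.card ≤ d := by
  obtain ⟨y, hy, hy'⟩ := bez_gen h0 {⊥} (by simp)
  have hy0 : y ≠ 0 := by simpa using hy'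
  have h1 : finrank ℝ (Submodule.span ℝ {y}) = 1 := finrank_span_singleton hy0
  obtain ⟨z, -, hz⟩ := bez_gen (f := (1 : MvPolynomial (Fin 4) ℝ)) one_ne_zero
    (insert (Submodule.span ℝ {y})
      (T.offDiag.image fun q => Submodule.span ℝ {y} ⊔ (q.1 ⊓ q.2))) (by
      intro u hu
      rcases mem_insert.1 hu with rfl | hu
      · omega
      · obtain ⟨q, hq, rfl⟩ := mem_image.1 hu
        obtain ⟨h2, h3, h4⟩ := mem_offDiag.1 hq
        refine (Submodule.finrank_add_le_finrank_add_finrank _ _).trans_lt ?_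
        rw [h1, inf_planes (hT _ h2) (hT _ h3) h4]
        omega)
  have hz1 := hz _ (mem_insert_self _ _)
  have hz0 : z ≠ 0 := by
    rintro rfl
    exact hz1 (zero_mem _)
  have h2 := sup_two h1 (finrank_span_singleton hz0)
    fun e => hz1 (e ▸ Submodule.mem_span_singleton_self z)
  set m := Submodule.span ℝ {y} ⊔ Submodule.span ℝ {z} with hm
  have hym : y ∈ m := Submodule.mem_sup_left (Submodule.mem_span_singleton_self y)
  have h3 : ∀ p ∈ T, finrank ℝ ↥(m ⊓ p) = 1 := by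
    intro p hp
    have h4 := Submodule.finrank_sup_add_finrank_inf_eq m p
    have h5 := Submodule.finrank_le (m ⊔ p)
    have h6 : m ⊓ p < m := lt_of_le_of_ne inf_le_left fun e => hy (h p hp y (e.ge hym).2)
    have h7 := Submodule.finrank_lt_finrank_of_lt h6
    rw [Module.finrank_fin_fun] at h5
    rw [hT p hp] at h4
    omega
  rw [← card_image_of_injOn (f := fun p => m ⊓ p) fun p hp p' hp' e => ?_]
  · refine zeros_le hR h2 (fun e => hy (e y hym)) _ (fun u hu => ?_) fun u hu => ?_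
    · obtain ⟨p, hp, rfl⟩ := mem_image.1 hu
      exact h3 p hp
    · obtain ⟨p, hp, rfl⟩ := mem_image.1 hu
      exact ⟨inf_le_left, fun w hw => h p hp w hw.2⟩
  · by_contra hne
    obtain ⟨w, hw, hw0⟩ := exists_vec (h3 p hp)
    have hw' : w ∈ p ⊓ p' := ⟨hw.2, ((show m ⊓ p = m ⊓ p' from e) ▸ hw : w ∈ m ⊓ p').2⟩
    obtain ⟨_, h8, _, h9, rfl⟩ := Submodule.mem_sup.1 hw.1
    obtain ⟨α, rfl⟩ := Submodule.mem_span_singleton.1 h8
    obtain ⟨β, rfl⟩ := Submodule.mem_span_singleton.1 h9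
    have hβ : β ≠ 0 := by
      rintro rfl
      rw [zero_smul, add_zero] at hw' hw0
      have hα : α ≠ 0 := fun e => hw0 (by rw [e, zero_smul])
      exact hy (h p hp y ((p.smul_mem_iff hα).1 hw'.1))
    refine hz _ (mem_insert_of_mem (mem_image.2 ⟨(p, p'), mem_offDiag.2 ⟨hp, hp', hne⟩, rfl⟩))
      ((Submodule.smul_mem_iff _ hβ).1 ?_)
    rw [← add_sub_cancel_left (α • y) (β • z)]
    exact sub_mem (Submodule.mem_sup_right hw') (Submodule.mem_sup_left h8)

theorem bez_main {a b : ℕ} {f g : MvPolynomial (Fin 4) ℝ} (hf : Irreducible f) (hfg : ¬ f ∣ g)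
    (hfa : f.IsHomogeneous a) (hgb : g.IsHomogeneous b) (S : Finset Sub) (hS : Dim 2 S)
    (h : ∀ l ∈ S, van f l ∧ van g l) : S.card ≤ a * b := by
  have hg : g ≠ 0 := fun e => hfg (e ▸ dvd_zero f)
  have ha := bez_pos hf hfa
  obtain ⟨p, hp, hU⟩ := bez_gen (mul_ne_zero hf.ne_zero hg)
    (S ∪ ((S ×ˢ S).image fun q => q.1 ⊔ q.2).filter fun u => finrank ℝ u < 4) (by
      intro u hu
      rcases mem_union.1 hu with hu | hu
      · rw [hS u hu]
        omega
      · exact (mem_filter.1 hu).2)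
  rw [map_mul, mul_ne_zero_iff] at hp
  have hdeg : ∀ {R : Type} [CommRing R] [Algebra ℝ R] [Nontrivial R] (y : Fin 4 → R),
      (bezaL y p f).natDegree = a ∧ (bezaL y p g).natDegree = b := fun y =>
    ⟨Polynomial.natDegree_eq_of_le_of_coeff_ne_zero (beza_L_deg y p hfa).1 (by
      rw [(beza_L_deg y p hfa).2]
      exact (map_ne_zero _).2 hp.1),
    Polynomial.natDegree_eq_of_le_of_coeff_ne_zero (beza_L_deg y p hgb).1 (by
      rw [(beza_L_deg y p hgb).2]
      exact (map_ne_zero _).2 hp.2)⟩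
  have hR := beza_res_ne hf hfg p ha (hdeg _).1 (hdeg _).2
  have hev : ∀ y : Fin 4 → ℝ, MvPolynomial.eval y
      ((bezaL (MvPolynomial.X : Fin 4 → MvPolynomial (Fin 4) ℝ) p f).resultant
        (bezaL (MvPolynomial.X : Fin 4 → MvPolynomial (Fin 4) ℝ) p g) a b) =
      (bezaL y p f).resultant (bezaL y p g) a b := fun y => by
    rw [← Polynomial.resultant_map_map, beza_L_map, beza_L_map]
  generalize (bezaL (MvPolynomial.X : Fin 4 → MvPolynomial (Fin 4) ℝ) p f).resultant
    (bezaL (MvPolynomial.X : Fin 4 → MvPolynomial (Fin 4) ℝ) p g) a b = R at hR hev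
  have hsc : ∀ {d : ℕ} {u : MvPolynomial (Fin 4) ℝ}, u.IsHomogeneous d → ∀ (c : ℝ) (y : Fin 4 → ℝ),
      c ≠ 0 → (bezaL y p u).natDegree = d → bezaL (c • y) p u = (bezaL y p u).scaleRoots c := by
    intro d u hu c y hc hd
    refine Polynomial.funext fun t => ?_
    obtain ⟨t, rfl⟩ := mul_left_surjective₀ hc t
    rw [Polynomial.scaleRoots_eval_mul, beza_L_eval, beza_L_eval, hd, ← eval_smul_homog hu,
      smul_add, smul_smul]
  have hom : R.IsHomogeneous (a * b) := beza_scale fun c y hc => by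
    have h1 := Polynomial.resultant_scaleRoots (bezaL y p f) (bezaL y p g) c
    rw [Polynomial.natDegree_scaleRoots, Polynomial.natDegree_scaleRoots, (hdeg y).1,
      (hdeg y).2] at h1
    rw [hev, hev, hsc hfa c y hc (hdeg y).1, hsc hgb c y hc (hdeg y).2, h1]
  have hp0 : ∀ l ∈ S, finrank ℝ ↥(Submodule.span ℝ {p} ⊔ l) = 3 := fun l hl => by
    have h1 := hU l (mem_union_left _ hl)
    refine sup_pt_line (finrank_span_singleton ?_) (hS l hl) fun e =>
      h1 (e (Submodule.mem_span_singleton_self p))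
    rintro rfl
    exact h1 (zero_mem _)
  rw [← card_image_of_injOn (f := fun l => Submodule.span ℝ {p} ⊔ l) fun l hl l' hl' e => ?_]
  · refine bez_planes hom hR _ (fun u hu => ?_) fun u hu y hy => ?_
    · obtain ⟨l, hl, rfl⟩ := mem_image.1 hu
      exact hp0 l hl
    · obtain ⟨l, hl, rfl⟩ := mem_image.1 hu
      obtain ⟨_, h1, z, hz, rfl⟩ := Submodule.mem_sup.1 hy
      obtain ⟨t, rfl⟩ := Submodule.mem_span_singleton.1 h1
      obtain ⟨u, v, -, -, h2⟩ := Polynomial.exists_mul_add_mul_eq_C_resultant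
        (bezaL (t • p + z) p f) (bezaL (t • p + z) p g) (hdeg _).1.le (hdeg _).2.le (Or.inl ha)
      have h3 := congrArg (Polynomial.eval (-t)) h2
      have h4 : t • p + z + (-t) • p = z := by rw [neg_smul]; abel
      rw [Polynomial.eval_add, Polynomial.eval_mul, Polynomial.eval_mul, beza_L_eval, beza_L_eval,
        h4, (h l hl).1 z hz, (h l hl).2 z hz, Polynomial.eval_C, zero_mul, zero_mul,
        add_zero] at h3
      rw [hev, ← h3]
  · by_contra hne
    have h1 : l ⊔ l' = Submodule.span ℝ {p} ⊔ l :=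
      sup_eq_of_two (hS l hl) (hS l' hl') (hp0 l hl) hne le_sup_right
        (le_sup_right.trans (Eq.ge e))
    refine hU (l ⊔ l') (mem_union_right _ (mem_filter.2
      ⟨mem_image.2 ⟨(l, l'), mem_product.2 ⟨hl, hl'⟩, rfl⟩, ?_⟩)) ?_
    · rw [h1, hp0 l hl]
      omega
    · rw [h1]
      exact Submodule.mem_sup_left (Submodule.mem_span_singleton_self p)

/-- Bezout for lines, by the resultant: project from a general point. -/
theorem bezout {D : ℕ} {f g : MvPolynomial (Fin 4) ℝ} (hf : IrrH D f) (hfg : ¬ f ∣ g)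
    (hg : g.totalDegree ≤ D) (S : Finset Sub) (hS : Dim 2 S)
    (h : ∀ l ∈ S, van f l ∧ van g l) : S.card ≤ D ^ 2 := by
  obtain ⟨hf, a, ha, hfa⟩ := hf
  obtain ⟨b, hb, hgb⟩ : ∃ b ≤ D, ¬ f ∣ MvPolynomial.homogeneousComponent b g := by
    by_contra h1
    push Not at h1
    refine hfg (g.sum_homogeneousComponent ▸ dvd_sum fun k hk => h1 k ?_)
    have := mem_range.1 hk
    omega
  refine (bez_main hf hgb hfa (MvPolynomial.homogeneousComponent_isHomogeneous b g) S hS
    fun l hl => ⟨(h l hl).1, beza_van_comp (h l hl).2 b⟩).trans ?_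
  rw [sq]
  exact Nat.mul_le_mul ha hb

end Vale.Agent.P054
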