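import Vale.Agent.P054.Lin

/-!
Forms: induction, grading, restriction to lines.
-/

namespace Vale.Agent.P054

open Finset Module
open scoped Classical

theorem beza_ind {n : ℕ} {P : ℕ → MvPolynomial (Fin n) ℝ → Prop}
    (hC : ∀ c, P 0 (MvPolynomial.C c)) (h0 : ∀ d, P d 0)
    (hadd : ∀ d f g, P d f → P d g → P d (f + g))
    (hX : ∀ d f i, P d f → P (d + 1) (f * MvPolynomial.X i)) {d : ℕ} {f : MvPolynomial (Fin n) ℝ}
    (hf : f.IsHomogeneous d) : P d f := by
  have hpow : ∀ e d f i, P d f → P (d + e) (f * MvPolynomial.X i ^ e) := by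
    intro e d f i h
    induction e with
    | zero => simpa using h
    | succ e ih =>
      rw [pow_succ, ← mul_assoc, ← add_assoc]
      exact hX _ _ _ ih
  have hm : ∀ (s : Fin n →₀ ℕ) (c : ℝ), P s.degree (MvPolynomial.monomial s c) := by
    intro s c
    induction s using Finsupp.induction₂ with
    | zero => simpa using hC c
    | add_single i e s _ _ ih =>
      rw [MvPolynomial.monomial_add_single, map_add, Finsupp.degree_single]
      exact hpow _ _ _ _ ih
  rw [f.as_sum]
  refine Finset.sum_induction _ (P d) (hadd d) (h0 d) fun s hs => ?_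
  have h1 : s.degree = d := by
    by_contra h
    exact MvPolynomial.mem_support_iff.1 hs (hf.coeff_eq_zero h)
  rw [← h1]
  exact hm _ _

/-- The grading as a ring homomorphism. -/
noncomputable def bezaG (n : ℕ) :
    MvPolynomial (Fin n) ℝ →ₐ[ℝ] Polynomial (MvPolynomial (Fin n) ℝ) :=
  MvPolynomial.aeval fun i => Polynomial.monomial 1 (MvPolynomial.X i)

theorem beza_G_homog {n d : ℕ} {f : MvPolynomial (Fin n) ℝ} (hf : f.IsHomogeneous d) :
    bezaG n f = Polynomial.monomial d f := by
  refine beza_ind (P := fun d f => bezaG n f = Polynomial.monomial d f) (fun c => ?_)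
    (fun d => by simp) (fun d f g h1 h2 => by rw [map_add, map_add, h1, h2])
    (fun d f i h => ?_) hf
  · simp [bezaG]
  · rw [map_mul, h, bezaG, MvPolynomial.aeval_X, Polynomial.monomial_mul_monomial]

theorem beza_G_coeff {n : ℕ} (g : MvPolynomial (Fin n) ℝ) (k : ℕ) :
    (bezaG n g).coeff k = MvPolynomial.homogeneousComponent k g := by
  conv_lhs => rw [← g.sum_homogeneousComponent, map_sum]
  simp only [beza_G_homog (MvPolynomial.homogeneousComponent_isHomogeneous _ _),
    Polynomial.finsetSum_coeff, Polynomial.coeff_monomial, Finset.sum_ite_eq', mem_range]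
  split_ifs with h
  · rfl
  · exact (MvPolynomial.homogeneousComponent_eq_zero _ _ (by omega)).symm

theorem beza_G_eval {n : ℕ} (g : MvPolynomial (Fin n) ℝ) (c : ℝ) (y : Fin n → ℝ) :
    ((bezaG n g).map (MvPolynomial.eval y)).eval c = MvPolynomial.eval (c • y) g := by
  induction g using MvPolynomial.induction_on with
  | C a => simp [bezaG]
  | add p q h1 h2 => simp only [map_add, Polynomial.map_add, Polynomial.eval_add, h1, h2]
  | mul_X p i h =>
    simp only [map_mul, Polynomial.map_mul, Polynomial.eval_mul, h]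
    simp [bezaG, mul_comm]

theorem beza_homog_of {n d : ℕ} {g : MvPolynomial (Fin n) ℝ}
    (h : ∀ k, k ≠ d → MvPolynomial.homogeneousComponent k g = 0) : g.IsHomogeneous d := by
  intro s hs
  by_contra h1
  have h2 := congrArg (MvPolynomial.coeff s) (h s.degree fun e => h1 (by
    rw [← e, Finsupp.degree_eq_weight_one]; rfl))
  rw [MvPolynomial.coeff_homogeneousComponent, if_pos rfl] at h2
  exact hs h2

theorem beza_van_comp {n : ℕ} {g : MvPolynomial (Fin n) ℝ} {l : Submodule ℝ (Fin n → ℝ)}
    (h : van g l) (k : ℕ) : van (MvPolynomial.homogeneousComponent k g) l := by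
  intro y hy
  have h1 : (bezaG n g).map (MvPolynomial.eval y) = 0 := Polynomial.funext fun c => by
    rw [beza_G_eval, h _ (l.smul_mem c hy), Polynomial.eval_zero]
  rw [← beza_G_coeff, ← Polynomial.coeff_map, h1, Polynomial.coeff_zero]

theorem beza_scale {n d : ℕ} {g : MvPolynomial (Fin n) ℝ}
    (h : ∀ (c : ℝ) (y : Fin n → ℝ), c ≠ 0 →
      MvPolynomial.eval (c • y) g = c ^ d * MvPolynomial.eval y g) : g.IsHomogeneous d := by
  refine beza_homog_of fun k hk => MvPolynomial.funext fun y => ?_
  have h1 : (bezaG n g).map (MvPolynomial.eval y) =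
      Polynomial.monomial d (MvPolynomial.eval y g) := by
    apply Polynomial.eq_of_infinite_eval_eq
    refine (Set.finite_singleton (0 : ℝ)).infinite_compl.mono fun c hc => ?_
    rw [Set.mem_ofPred_eq, beza_G_eval, h c y hc, Polynomial.eval_monomial, mul_comm]
  rw [← beza_G_coeff, ← Polynomial.coeff_map, h1, Polynomial.coeff_monomial, if_neg hk.symm,
    map_zero]

/-- Restriction to the line `y + t p`. -/
noncomputable def bezaL {n : ℕ} {R : Type*} [CommRing R] [Algebra ℝ R] (y : Fin n → R)
    (p : Fin n → ℝ) : MvPolynomial (Fin n) ℝ →ₐ[ℝ] Polynomial R :=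
  MvPolynomial.aeval fun i =>
    Polynomial.C (y i) + Polynomial.C (algebraMap ℝ R (p i)) * Polynomial.X

theorem beza_L_deg {n d : ℕ} {R : Type*} [CommRing R] [Algebra ℝ R] (y : Fin n → R)
    (p : Fin n → ℝ) {f : MvPolynomial (Fin n) ℝ} (hf : f.IsHomogeneous d) :
    (bezaL y p f).natDegree ≤ d ∧
      (bezaL y p f).coeff d = algebraMap ℝ R (MvPolynomial.eval p f) := by
  refine beza_ind (P := fun d f => (bezaL y p f).natDegree ≤ d ∧
      (bezaL y p f).coeff d = algebraMap ℝ R (MvPolynomial.eval p f)) (fun c => ?_)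
    (fun d => by simp) (fun d f g h1 h2 => ?_) (fun d f i h => ?_) hf
  · simp [bezaL]
  · rw [map_add, map_add, map_add, Polynomial.coeff_add, h1.2, h2.2]
    exact ⟨Polynomial.natDegree_add_le_of_degree_le h1.1 h2.1, rfl⟩
  · have h1 : (bezaL y p (MvPolynomial.X i)).natDegree ≤ 1 := by
      rw [bezaL, MvPolynomial.aeval_X, add_comm]
      exact Polynomial.natDegree_linear_le
    rw [map_mul, map_mul, map_mul, Polynomial.coeff_mul_add_eq_of_natDegree_le h.1 h1, h.2]
    refine ⟨Polynomial.natDegree_mul_le_of_le h.1 h1, ?_⟩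
    simp [bezaL]

theorem beza_L_eval {n : ℕ} (y p : Fin n → ℝ) (t : ℝ) (f : MvPolynomial (Fin n) ℝ) :
    (bezaL y p f).eval t = MvPolynomial.eval (y + t • p) f := by
  induction f using MvPolynomial.induction_on with
  | C a => simp [bezaL]
  | add f g h1 h2 => simp only [map_add, Polynomial.eval_add, h1, h2]
  | mul_X f i h =>
    simp only [map_mul, Polynomial.eval_mul, h]
    simp [bezaL, mul_comm t]

theorem beza_L_map {n : ℕ} (y p : Fin n → ℝ) (f : MvPolynomial (Fin n) ℝ) :
    (bezaL (MvPolynomial.X : Fin n → MvPolynomial (Fin n) ℝ) p f).map (MvPolynomial.eval y) =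
      bezaL y p f := by
  induction f using MvPolynomial.induction_on with
  | C a => simp [bezaL]
  | add f g h1 h2 => simp only [map_add, Polynomial.map_add, h1, h2]
  | mul_X f i h =>
    simp only [map_mul, Polynomial.map_mul, h]
    simp [bezaL]

/-- The shear `y ↦ y + t p`. -/
noncomputable def bezaS {n : ℕ} (p : Fin n → ℝ) :
    Polynomial (MvPolynomial (Fin n) ℝ) →+* Polynomial (MvPolynomial (Fin n) ℝ) :=
  Polynomial.eval₂RingHom
    (bezaL (MvPolynomial.X : Fin n → MvPolynomial (Fin n) ℝ) p).toRingHom Polynomial.X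

theorem beza_S_comp {n : ℕ} (p q : Fin n → ℝ) (h : p + q = 0) :
    (bezaS p).comp (bezaS q) = RingHom.id _ := by
  refine Polynomial.ringHom_ext' (MvPolynomial.ringHom_ext (fun c => ?_) fun i => ?_) ?_
  · simp [bezaS, bezaL]
  · have h1 : q i = - p i := eq_neg_of_add_eq_zero_right (congrFun h i)
    simp [bezaS, bezaL, h1]
  · simp [bezaS]

theorem beza_res_ne {n a b : ℕ} {f g : MvPolynomial (Fin n) ℝ} (hf : Irreducible f)
    (hfg : ¬ f ∣ g) (p : Fin n → ℝ) (ha : a ≠ 0)
    (h1 : (bezaL (MvPolynomial.X : Fin n → MvPolynomial (Fin n) ℝ) p f).natDegree = a)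
    (h2 : (bezaL (MvPolynomial.X : Fin n → MvPolynomial (Fin n) ℝ) p g).natDegree = b) :
    (bezaL (MvPolynomial.X : Fin n → MvPolynomial (Fin n) ℝ) p f).resultant
      (bezaL (MvPolynomial.X : Fin n → MvPolynomial (Fin n) ℝ) p g) a b ≠ 0 := by
  let e := RingEquiv.ofRingHom (bezaS p) (bezaS (-p)) (beza_S_comp _ _ (add_neg_cancel p))
    (beza_S_comp _ _ (neg_add_cancel p))
  have he : ∀ u, bezaL (MvPolynomial.X : Fin n → MvPolynomial (Fin n) ℝ) p u =
      e (Polynomial.C u) := fun u => by simp [e, bezaS]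
  have h3 : Irreducible (e (Polynomial.C f)) :=
    (Polynomial.prime_C_iff.2 hf.prime).irreducible.map e
  have h4 : ¬ e (Polynomial.C f) ∣ e (Polynomial.C g) := by
    rw [map_dvd_iff, Polynomial.C_dvd_iff_dvd_coeff]
    exact fun h => hfg (by simpa using h 0)
  rw [he] at h1 h2
  rw [he, he]
  generalize e (Polynomial.C f) = F at h1 h3 h4
  generalize e (Polynomial.C g) = G at h2 h4
  have h5 := h3.isPrimitive (h1 ▸ ha)
  let K := FractionRing (MvPolynomial (Fin n) ℝ)
  have hi := IsFractionRing.injective (MvPolynomial (Fin n) ℝ) K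
  have h6 := Polynomial.resultant_ne_zero _ _
    (((h5.irreducible_iff_irreducible_map_fraction_map (K := K)).1 h3).coprime_iff_not_dvd.2
      fun h => h4 (h5.dvd_of_fraction_map_dvd_fraction_map h))
  rw [Polynomial.natDegree_map_eq_of_injective hi, Polynomial.natDegree_map_eq_of_injective hi,
    Polynomial.resultant_map_map, h1, h2] at h6
  exact fun h => h6 (by rw [h, map_zero])

end Vale.Agent.P054
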