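import Vale.Agent.P054.Defs

/-!
Blocks of consecutive points in Morton order.
-/

namespace Vale.Agent.P054

open Finset Module
open scoped Classical

/-- Interleaving of binary digits. -/
def cellsM (a b c : ℕ) : ℕ :=
  if a + b + c = 0 then 0 else
    8 * cellsM (a / 2) (b / 2) (c / 2) + (a % 2 + 2 * (b % 2) + 4 * (c % 2))
termination_by a + b + c
decreasing_by omega

theorem cellsM_eq (a b c : ℕ) : cellsM a b c =
    8 * cellsM (a / 2) (b / 2) (c / 2) + (a % 2 + 2 * (b % 2) + 4 * (c % 2)) := by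
  by_cases h : a + b + c = 0
  · obtain ⟨rfl, rfl, rfl⟩ : a = 0 ∧ b = 0 ∧ c = 0 := by omega
    have h0 : cellsM 0 0 0 = 0 := by rw [cellsM, if_pos rfl]
    simp [h0]
  · rw [cellsM, if_neg h]

theorem cellsM_div (k a b c : ℕ) :
    cellsM a b c / 8 ^ k = cellsM (a / 2 ^ k) (b / 2 ^ k) (c / 2 ^ k) := by
  induction k with
  | zero => simp
  | succ k ih =>
    rw [pow_succ, ← Nat.div_div_eq_div_mul, ih, cellsM_eq]
    simp only [pow_succ, ← Nat.div_div_eq_div_mul]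
    omega

theorem cellsM_inj (n : ℕ) : ∀ a b c a' b' c' : ℕ, a + b + c + a' + b' + c' ≤ n →
    cellsM a b c = cellsM a' b' c' → a = a' ∧ b = b' ∧ c = c' := by
  induction n with
  | zero => omega
  | succ n ih =>
    intro a b c a' b' c' h e
    by_cases h0 : a + b + c + a' + b' + c' = 0
    · omega
    rw [cellsM_eq a, cellsM_eq a'] at e
    have := ih (a / 2) (b / 2) (c / 2) (a' / 2) (b' / 2) (c' / 2) (by omega) (by omega)
    omega

theorem cells_key (S : Finset V3) : ∃ key : V3 → ℕ, Set.InjOn key S ∧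
    ∀ (k : ℕ) (q₀ : V3), ∃ Zs : Finset ℕ, Zs.card ≤ 125 ∧ ∀ p ∈ S, ∀ p' ∈ S, ∀ q : V3,
      key p / 8 ^ k = key p' / 8 ^ k → (p - p') ⬝ᵥ (p - p') = (q - q₀) ⬝ᵥ (q - q₀) →
      key q / 8 ^ k ∈ Zs := by
  obtain ⟨R, hR⟩ : ∃ R : ℝ, ∀ p ∈ S, ∀ i, -p i ≤ R :=
    ((Filter.eventually_all_finset S).2 fun p _ => Filter.eventually_all.2 fun i =>
      Filter.eventually_ge_atTop (-p i)).exists
  have hev : ∀ᶠ δ in nhdsWithin (0 : ℝ) (Set.Ioi 0), ∀ p ∈ S, ∀ q ∈ S, p ≠ q → δ < dist p q :=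
    (Filter.eventually_all_finset S).2 fun p _ => (Filter.eventually_all_finset S).2 fun q _ => by
      by_cases h : p = q
      · simp [h]
      · exact ((eventually_lt_nhds (dist_pos.2 h)).mono fun δ h _ => h).filter_mono
          nhdsWithin_le_nhds
  obtain ⟨δ, hδ, hδ0⟩ := (hev.and self_mem_nhdsWithin).exists
  have hδ1 : 0 < δ := hδ0
  let n : V3 → Fin 3 → ℕ := fun p i => ⌊(p i + R) / δ⌋₊
  have hn : ∀ k p i, n p i / 2 ^ k = ⌊(p i + R) / (δ * 2 ^ k)⌋₊ := fun k p i => by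
    simp only [n]
    rw [← Nat.floor_div_natCast, div_div, Nat.cast_pow, Nat.cast_ofNat]
  have h1 : ∀ k, ∀ p ∈ S, ∀ p' ∈ S, cellsM (n p 0) (n p 1) (n p 2) / 8 ^ k =
      cellsM (n p' 0) (n p' 1) (n p' 2) / 8 ^ k → ∀ i, |p i - p' i| < δ * 2 ^ k :=
    fun k p hp p' hp' e i => by
      rw [cellsM_div, cellsM_div] at e
      obtain ⟨e0, e1, e2⟩ := cellsM_inj _ _ _ _ _ _ _ le_rfl e
      have e3 : n p i / 2 ^ k = n p' i / 2 ^ k := by fin_cases i <;> assumption
      rw [hn, hn] at e3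
      have s0 : 0 < δ * 2 ^ k := by positivity
      have a1 := Nat.floor_le (div_nonneg (by linarith [hR p hp i] : 0 ≤ p i + R) s0.le)
      have a2 := Nat.floor_le (div_nonneg (by linarith [hR p' hp' i] : 0 ≤ p' i + R) s0.le)
      have b1 := Nat.lt_floor_add_one ((p i + R) / (δ * 2 ^ k))
      have b2 := Nat.lt_floor_add_one ((p' i + R) / (δ * 2 ^ k))
      rw [e3] at a1 b1
      rw [le_div_iff₀ s0] at a1 a2
      rw [div_lt_iff₀ s0] at b1 b2
      rw [abs_lt]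
      constructor <;> linarith
  refine ⟨fun p => cellsM (n p 0) (n p 1) (n p 2), fun p hp q hq e => ?_, fun k q₀ => ?_⟩
  · by_contra hne
    refine (hδ p hp q hq hne).not_gt ((dist_pi_lt_iff hδ1).2 fun i => ?_)
    simpa [Real.dist_eq] using h1 0 p hp q hq (by simpa using e) i
  · let I : Fin 3 → Finset ℕ := fun i => Icc (n q₀ i / 2 ^ k - 2) (n q₀ i / 2 ^ k + 2)
    have hI : ∀ i, (I i).card ≤ 5 := fun i => by
      simp only [I, Nat.card_Icc]
      omega
    refine ⟨(I 0 ×ˢ I 1 ×ˢ I 2).image fun c => cellsM c.1 c.2.1 c.2.2, card_image_le.trans ?_,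
      fun p hp p' hp' q e d => ?_⟩
    · rw [card_product, card_product]
      exact Nat.mul_le_mul (hI 0) (Nat.mul_le_mul (hI 1) (hI 2))
    have s0 : 0 < δ * 2 ^ k := by positivity
    have h2 : ∀ i, (p i - p' i) ^ 2 ≤ (δ * 2 ^ k) ^ 2 := fun i =>
      sq_le_sq' (abs_lt.1 (h1 k p hp p' hp' e i)).1.le (abs_lt.1 (h1 k p hp p' hp' e i)).2.le
    have h3 : ∀ i, |q i - q₀ i| ≤ 2 * (δ * 2 ^ k) := fun i => by
      refine abs_le_of_sq_le_sq' ?_ (by positivity) |> abs_le.2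
      have h4 : (q i - q₀ i) ^ 2 ≤ (q - q₀) ⬝ᵥ (q - q₀) := by
        rw [sq]
        exact single_le_sum (f := fun j => (q - q₀) j * (q - q₀) j)
          (fun j _ => mul_self_nonneg _) (mem_univ i)
      rw [← d, dotProduct, Fin.sum_univ_three] at h4
      simp only [Pi.sub_apply] at h4
      nlinarith [h2 0, h2 1, h2 2, sq_nonneg (δ * 2 ^ k)]
    have h4 : ∀ x y : ℝ, x - y ≤ 2 * (δ * 2 ^ k) →
        ⌊(x + R) / (δ * 2 ^ k)⌋₊ ≤ ⌊(y + R) / (δ * 2 ^ k)⌋₊ + 2 := fun x y h => by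
      refine Nat.le_of_lt_succ ((Nat.floor_lt' (by omega)).2 ?_)
      have b := Nat.lt_floor_add_one ((y + R) / (δ * 2 ^ k))
      rw [div_lt_iff₀ s0] at b ⊢
      push_cast
      linarith
    have h5 : ∀ i, n q i / 2 ^ k ∈ I i := fun i => by
      have a := h4 (q i) (q₀ i) (abs_le.1 (h3 i)).2
      have b := h4 (q₀ i) (q i) (by linarith [(abs_le.1 (h3 i)).1])
      rw [← hn, ← hn] at a b
      simp only [I, mem_Icc]
      generalize n q i / 2 ^ k = u at a b ⊢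
      generalize n q₀ i / 2 ^ k = u₀ at a b ⊢
      omega
    rw [cellsM_div]
    exact mem_image.2 ⟨(_, _, _), mem_product.2 ⟨h5 0, mem_product.2 ⟨h5 1, h5 2⟩⟩, rfl⟩

theorem cells_lab (A : Finset V3) (key : V3 → ℕ) (hk : Set.InjOn key A) (t : ℕ) (ht : 1 ≤ t) :
    ∃ (la : V3 → ℕ) (lev : ℕ → ℕ), (∀ a ∈ A, la a ≤ A.card / t) ∧
      (∀ i, (A.filter fun a => la a = i).card ≤ t) ∧
      (∀ a ∈ A, ∀ a' ∈ A, la a = la a' → key a / 8 ^ lev (la a) = key a' / 8 ^ lev (la a)) ∧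
      ∀ k z, ((A.filter fun a => k ≤ lev (la a) ∧ key a / 8 ^ k = z).image la).card ≤ 9 := by
  let rk : V3 → ℕ := fun a => (A.filter fun x => key x < key a).card
  have r1 : ∀ a a', key a ≤ key a' → rk a ≤ rk a' := fun a a' h =>
    card_le_card fun x hx => mem_filter.2 ⟨(mem_filter.1 hx).1, (mem_filter.1 hx).2.trans_le h⟩
  have r2 : ∀ a ∈ A, ∀ a', key a < key a' → rk a < rk a' := fun a ha a' h =>
    card_lt_card ((ssubset_iff_of_subset fun x hx =>
      mem_filter.2 ⟨(mem_filter.1 hx).1, (mem_filter.1 hx).2.trans h⟩).2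
        ⟨a, mem_filter.2 ⟨ha, h⟩, fun h' => lt_irrefl _ (mem_filter.1 h').2⟩)
  let la : V3 → ℕ := fun a => rk a / t
  have l1 : ∀ a a', key a ≤ key a' → la a ≤ la a' := fun a a' h =>
    Nat.div_le_div_right (r1 a a' h)
  have ex : ∀ i, ∃ k, ∀ a ∈ A, ∀ a' ∈ A, la a = i → la a' = i →
      key a / 8 ^ k = key a' / 8 ^ k := fun i => by
    have h : ∀ a ∈ A, key a / 8 ^ A.sup key = 0 := fun a ha =>
      Nat.div_eq_of_lt ((le_sup ha).trans_lt (Nat.lt_pow_self (by norm_num)))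
    exact ⟨A.sup key, fun a ha a' ha' _ _ => by rw [h a ha, h a' ha']⟩
  refine ⟨la, fun i => Nat.find (ex i), fun a _ => Nat.div_le_div_right (card_filter_le _ _),
    fun i => ?_, fun a ha a' ha' e => Nat.find_spec (ex (la a)) a ha a' ha' rfl e.symm,
    fun k z => ?_⟩
  · refine (card_le_card_of_injOn (t := Ico (i * t) (i * t + t)) rk (fun a ha => ?_)
      fun a ha a' ha' e => ?_).trans (by simp)
    · have h : rk a / t = i := (mem_filter.1 ha).2
      rw [mem_coe, mem_Ico, ← h]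
      exact ⟨Nat.div_mul_le_self _ _, Nat.lt_div_mul_add ht⟩
    · have h1 := (mem_filter.1 ha).1
      have h2 := (mem_filter.1 ha').1
      refine hk h1 h2 (le_antisymm (not_lt.1 fun h => ?_) (not_lt.1 fun h => ?_))
      exacts [(r2 _ h2 _ h).ne' e, (r2 _ h1 _ h).ne e]
  · cases k with
    | zero =>
      refine card_image_le.trans ((card_le_one.2 fun a ha a' ha' => ?_).trans (by norm_num))
      simp only [mem_filter, pow_zero, Nat.div_one] at ha ha'
      exact hk ha.1 ha'.1 (ha.2.2.trans ha'.2.2.symm)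
    | succ k =>
      refine (card_le_card_of_forall_subsingleton (t := Icc (8 * z) (8 * z + 8))
        (fun i b => ∃ x ∈ A, ∃ y ∈ A, la x = i ∧ la y = i ∧ key x / 8 ^ k < b ∧ b ≤ key y / 8 ^ k)
        (fun i hi => ?_) fun b _ i hi j hj => ?_).trans (by rw [Nat.card_Icc]; omega)
      · obtain ⟨a, ha, rfl⟩ := mem_image.1 hi
        obtain ⟨ha, h1, h2⟩ := mem_filter.1 ha
        have h3 := Nat.find_min (ex (la a)) (Nat.lt_of_succ_le h1)
        rw [pow_succ, ← Nat.div_div_eq_div_mul] at h2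
        have h4 : ∃ y ∈ A, la y = la a ∧ key y / 8 ^ k ≠ key a / 8 ^ k := by
          by_contra h
          push Not at h
          exact h3 fun x hx y hy e e' => (h x hx e).trans (h y hy e').symm
        obtain ⟨y, hy, e, h5⟩ := h4
        rcases h5.lt_or_gt with h | h
        · exact ⟨key a / 8 ^ k, mem_Icc.2 (by omega), y, hy, a, ha, e, rfl, h, le_rfl⟩
        · exact ⟨key a / 8 ^ k + 1, mem_Icc.2 (by omega), a, ha, y, hy, rfl, e,
            Nat.lt_succ_self _, h⟩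
      · obtain ⟨-, x, -, y, -, rfl, e, h1, h2⟩ := hi
        obtain ⟨-, x', -, y', -, rfl, e', h1', h2'⟩ := hj
        have h3 := l1 _ _ (Nat.lt_of_div_lt_div (h1.trans_le h2')).le
        have h4 := l1 _ _ (Nat.lt_of_div_lt_div (h1'.trans_le h2)).le
        omega

theorem cells_half {S A B : Finset V3} {key la lb : V3 → ℕ} {lev lev' : ℕ → ℕ} {N : ℕ}
    (hS : A ⊆ S) (h0 : ∀ a ∈ A, la a ≤ N)
    (h1 : ∀ a ∈ A, ∀ a' ∈ A, la a = la a' → key a / 8 ^ lev (la a) = key a' / 8 ^ lev (la a))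
    (h2 : ∀ k z, ((B.filter fun a => k ≤ lev' (lb a) ∧ key a / 8 ^ k = z).image lb).card ≤ 9)
    (h3 : ∀ (k : ℕ) (q₀ : V3), ∃ Zs : Finset ℕ, Zs.card ≤ 125 ∧ ∀ p ∈ S, ∀ p' ∈ S, ∀ q : V3,
      key p / 8 ^ k = key p' / 8 ^ k → (p - p') ⬝ᵥ (p - p') = (q - q₀) ⬝ᵥ (q - q₀) →
      key q / 8 ^ k ∈ Zs)
    {C : Finset V6} (hC : ∀ w ∈ C, w.1 ∈ A ∧ w.2 ∈ B ∧ lev (la w.1) ≤ lev' (lb w.2))
    (hB : ∀ w ∈ C, ∀ v ∈ C, (v.1 - w.1) ⬝ᵥ (v.1 - w.1) = (v.2 - w.2) ⬝ᵥ (v.2 - w.2)) :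
    (C.image fun w => (la w.1, lb w.2)).card ≤ 1125 * (N + 1) := by
  refine (card_le_mul_card_image_of_maps_to (f := Prod.fst) (t := range (N + 1))
    (fun x hx => ?_) 1125 fun i _ => ?_).trans (by rw [card_range])
  · obtain ⟨w, hw, rfl⟩ := mem_image.1 hx
    exact mem_range.2 (Nat.lt_succ_of_le (h0 _ (hC w hw).1))
  rcases ((C.image fun w => (la w.1, lb w.2)).filter fun x => x.1 = i).eq_empty_or_nonempty with
    h | ⟨x, hx⟩
  · rw [h]
    exact Nat.zero_le _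
  obtain ⟨hx', rfl⟩ := mem_filter.1 hx
  obtain ⟨w, hw, rfl⟩ := mem_image.1 hx'
  obtain ⟨Zs, hZ, hZ'⟩ := h3 (lev (la w.1)) w.2
  refine (card_le_card_of_injOn (t := Zs.biUnion fun z => (B.filter fun a =>
    lev (la w.1) ≤ lev' (lb a) ∧ key a / 8 ^ lev (la w.1) = z).image lb) Prod.snd
    (fun y hy => ?_) fun y hy y' hy' e => ?_).trans ((card_biUnion_le_card_mul _ _ 9
      fun z _ => h2 _ z).trans (by omega))
  · obtain ⟨hy, e⟩ := mem_filter.1 hy
    obtain ⟨v, hv, rfl⟩ := mem_image.1 hy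
    obtain ⟨a1, a2, a3⟩ := hC v hv
    have e' : la v.1 = la w.1 := e
    refine mem_biUnion.2 ⟨_, hZ' v.1 (hS a1) w.1 (hS (hC w hw).1) v.2 ?_ (hB w hw v hv),
      mem_image.2 ⟨v.2, mem_filter.2 ⟨a2, e' ▸ a3, rfl⟩, rfl⟩⟩
    exact (h1 _ (hC w hw).1 _ a1 e'.symm).symm
  · exact Prod.ext ((mem_filter.1 hy).2.trans (mem_filter.1 hy').2.symm) e

/-- Hint: choose `δ > 0` below half of all nonzero coordinate gaps and `R` above all coordinates,
`n p i = ⌊(p i + R) / δ⌋₊`, and the Morton key `key` with `key p / 8 ^ k = key q / 8 ^ k` iff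
`n p i / 2 ^ k = n q i / 2 ^ k` for all `i`. Label a point by its rank in key order divided by
`t`. The level of a block is the least `k` with a common value of `key / 8 ^ k`. For `k, z` at
most 9 blocks of level at least `k` have a key with `key / 8 ^ k = z` (each straddles a multiple
of `8 ^ (k-1)`). A block of level `k` is matched into at most 125 cubes of level `k`. Charge a
pair of blocks to the one of smaller level. -/
theorem cells (A B : Finset V3) (t : ℕ) (ht : 1 ≤ t) :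
    ∃ la lb : V3 → ℕ, (∀ a ∈ A, la a ≤ A.card / t) ∧ (∀ b ∈ B, lb b ≤ B.card / t) ∧
      (∀ i, (A.filter fun a => la a = i).card ≤ t) ∧
      (∀ j, (B.filter fun b => lb b = j).card ≤ t) ∧
      ∀ C : Finset V6, C ⊆ A ×ˢ B → (∀ w ∈ C, ∀ v ∈ C, Bf (v - w) (v - w) = 0) →
        (C.image fun w => (la w.1, lb w.2)).card
          ≤ 1125 * (A.card / t + 1 + (B.card / t + 1)) := by
  obtain ⟨key, hk, h3⟩ := cells_key (A ∪ B)
  obtain ⟨la, lev, a0, a1, a2, a3⟩ :=
    cells_lab A key (hk.mono (coe_subset.2 subset_union_left)) t ht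
  obtain ⟨lb, lev', b0, b1, b2, b3⟩ :=
    cells_lab B key (hk.mono (coe_subset.2 subset_union_right)) t ht
  refine ⟨la, lb, a0, b0, a1, b1, fun C hC hB => ?_⟩
  have hB' : ∀ w ∈ C, ∀ v ∈ C, (v.1 - w.1) ⬝ᵥ (v.1 - w.1) = (v.2 - w.2) ⬝ᵥ (v.2 - w.2) :=
    fun w hw v hv => sub_eq_zero.1 (hB w hw v hv)
  have c1 := cells_half subset_union_left a0 a2 b3 h3
    (C := C.filter fun w => lev (la w.1) ≤ lev' (lb w.2))
    (fun w hw => ⟨(mem_product.1 (hC (mem_filter.1 hw).1)).1,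
      (mem_product.1 (hC (mem_filter.1 hw).1)).2, (mem_filter.1 hw).2⟩)
    fun w hw v hv => hB' w (mem_filter.1 hw).1 v (mem_filter.1 hv).1
  have c2 := cells_half subset_union_right b0 b2 a3 h3
    (C := (C.filter fun w => ¬ lev (la w.1) ≤ lev' (lb w.2)).image Prod.swap)
    (fun w hw => by
      obtain ⟨v, hv, rfl⟩ := mem_image.1 hw
      exact ⟨(mem_product.1 (hC (mem_filter.1 hv).1)).2,
        (mem_product.1 (hC (mem_filter.1 hv).1)).1, (not_le.1 (mem_filter.1 hv).2).le⟩)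
    fun w hw v hv => by
      obtain ⟨w, hw', rfl⟩ := mem_image.1 hw
      obtain ⟨v, hv', rfl⟩ := mem_image.1 hv
      exact (hB' w (mem_filter.1 hw').1 v (mem_filter.1 hv').1).symm
  rw [← card_image_of_injective _ Prod.swap_injective, image_image, image_image] at c2
  rw [← filter_union_filter_not_eq (fun w => lev (la w.1) ≤ lev' (lb w.2)) C, image_union, mul_add]
  exact (card_union_le _ _).trans (add_le_add c1 c2)

end Vale.Agent.P054
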