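import Vale.Agent.P054.Defs

/-!
Elementary counting lemmas.
-/

namespace Vale.Agent.P054

open Finset Module
open scoped Classical

/-- Hint: `d a` = number of sets containing `a`; Cauchy-Schwarz gives
`Σ² ≤ |U| (Σ + k² c)` with `k b ≤ Σ`. -/
theorem inclExcl {ι α : Type*} [DecidableEq α] (I : Finset ι) (S : ι → Finset α) (U : Finset α)
    {b c : ℝ} (hb : 0 < b) (hc : 0 ≤ c) (hU : ∀ i ∈ I, S i ⊆ U)
    (hS : ∀ i ∈ I, b ≤ ((S i).card : ℝ))
    (h2 : ∀ i ∈ I, ∀ j ∈ I, i ≠ j → ((S i ∩ S j).card : ℝ) ≤ c)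
    (hbc : 4 * c * U.card ≤ b ^ 2) : ∑ i ∈ I, (S i).card ≤ 2 * U.card := by
  set d : α → ℕ := fun a => (I.filter fun i => a ∈ S i).card with hd
  have e1 : ∑ i ∈ I, (S i).card = ∑ a ∈ U, d a := by
    have : ∀ i ∈ I, (S i).card = ∑ a ∈ U, if a ∈ S i then 1 else 0 := by
      intro i hi
      rw [← card_filter]
      congr 1
      ext a
      simp only [mem_filter]
      exact ⟨fun h => ⟨hU i hi h, h⟩, fun h => h.2⟩
    rw [sum_congr rfl this, sum_comm]
    refine sum_congr rfl fun a _ => ?_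
    rw [hd]
    simp only [card_filter]
  have e2 : ∑ a ∈ U, d a ^ 2 = ∑ i ∈ I, ∑ j ∈ I, (S i ∩ S j).card := by
    have : ∀ i ∈ I, ∀ j ∈ I, (S i ∩ S j).card
        = ∑ a ∈ U, (if a ∈ S i then 1 else 0) * (if a ∈ S j then 1 else 0) := by
      intro i hi j _
      have : ∀ a, (if a ∈ S i then 1 else 0) * (if a ∈ S j then 1 else 0)
          = if a ∈ S i ∩ S j then 1 else 0 := by
        intro a
        by_cases h1 : a ∈ S i <;> by_cases h2 : a ∈ S j <;> simp [h1, h2]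
      simp only [this]
      rw [← card_filter]
      congr 1
      ext a
      simp only [mem_filter]
      exact ⟨fun h => ⟨hU i hi (mem_inter.1 h).1, h⟩, fun h => h.2⟩
    rw [sum_congr rfl fun i hi => sum_congr rfl fun j hj => this i hi j hj]
    have : ∀ a, d a ^ 2 = ∑ i ∈ I, ∑ j ∈ I,
        (if a ∈ S i then 1 else 0) * (if a ∈ S j then 1 else 0) := by
      intro a
      rw [← sum_mul_sum, hd]
      simp only [card_filter, sq]
    rw [sum_congr rfl fun a _ => this a, sum_comm]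
    refine sum_congr rfl fun i _ => ?_
    rw [sum_comm]
  set T : ℝ := ((∑ i ∈ I, (S i).card : ℕ) : ℝ) with hT
  have hT0 : 0 ≤ T := Nat.cast_nonneg _
  have k1 : (I.card : ℝ) * b ≤ T := by
    rw [hT]; push_cast
    have := card_nsmul_le_sum I (fun i => ((S i).card : ℝ)) b hS
    rwa [nsmul_eq_mul] at this
  have k2 : ((∑ i ∈ I, ∑ j ∈ I, (S i ∩ S j).card : ℕ) : ℝ) ≤ T + (I.card : ℝ) ^ 2 * c := by
    rw [hT]; push_cast
    have : ∀ i ∈ I, ∑ j ∈ I, ((S i ∩ S j).card : ℝ) ≤ (S i).card + I.card * c := by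
      intro i hi
      rw [← add_sum_erase I _ hi, inter_self]
      have := sum_le_card_nsmul (I.erase i) (fun j => ((S i ∩ S j).card : ℝ)) c
        (fun j hj => h2 i hi j (mem_of_mem_erase hj) (ne_of_mem_erase hj).symm)
      rw [nsmul_eq_mul] at this
      have h3 : ((I.erase i).card : ℝ) ≤ I.card := by exact_mod_cast card_erase_le
      nlinarith
    refine (sum_le_sum this).trans (le_of_eq ?_)
    rw [sum_add_distrib, sum_const, nsmul_eq_mul]; ring
  have k3 : T ^ 2 ≤ U.card * (T + (I.card : ℝ) ^ 2 * c) := by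
    have := sq_sum_le_card_mul_sum_sq (s := U) (f := d)
    rw [e2, ← e1] at this
    have h' : T ^ 2 ≤ U.card * ((∑ i ∈ I, ∑ j ∈ I, (S i ∩ S j).card : ℕ) : ℝ) := by
      rw [hT]; exact_mod_cast this
    exact h'.trans (mul_le_mul_of_nonneg_left k2 (Nat.cast_nonneg _))
  have k4 : U.card * ((I.card : ℝ) ^ 2 * c) ≤ T ^ 2 / 4 := by
    have a1 : ((I.card : ℝ) * b) ^ 2 ≤ T ^ 2 := by gcongr
    have a2 : (I.card : ℝ) ^ 2 * (4 * c * U.card) ≤ (I.card : ℝ) ^ 2 * b ^ 2 := by gcongr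
    nlinarith
  have k5 : T ≤ 2 * U.card := by
    by_contra hcon
    push Not at hcon
    have hU0 : (0 : ℝ) ≤ U.card := Nat.cast_nonneg _
    nlinarith
  rw [hT] at k5
  exact_mod_cast k5

theorem comb_inv_sq (a n : ℕ) (ha : 1 ≤ a) :
    ∑ j ∈ Ioc a (a + n), 1 / (j : ℝ) ^ 2 ≤ 1 / a - 1 / ((a + n : ℕ) : ℝ) := by
  induction n with
  | zero => simp
  | succ n ih =>
    rw [← add_assoc, sum_Ioc_succ_top (by omega)]
    have h0 : (1 : ℝ) ≤ ((a + n : ℕ) : ℝ) := by exact_mod_cast (by omega : 1 ≤ a + n)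
    have : 1 / (((a + n + 1 : ℕ) : ℝ)) ^ 2 ≤ 1 / ((a + n : ℕ) : ℝ) - 1 / ((a + n + 1 : ℕ) : ℝ) := by
      rw [show ((a + n + 1 : ℕ) : ℝ) = ((a + n : ℕ) : ℝ) + 1 by push_cast; ring]
      generalize ((a + n : ℕ) : ℝ) = t at h0
      rw [div_sub_div _ _ (by positivity) (by positivity), div_le_div_iff₀ (by positivity)
        (by positivity)]
      nlinarith
    linarith

theorem comb_sq (a n : ℕ) :
    (((a + n : ℕ) : ℝ)) ^ 2 ≤ (a : ℝ) ^ 2 + ∑ j ∈ Ioc a (a + n), 2 * (j : ℝ) := by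
  induction n with
  | zero => simp
  | succ n ih =>
    rw [← add_assoc, sum_Ioc_succ_top (by omega)]
    push_cast at ih ⊢
    nlinarith

/-- Layer cake. Hint: `j₀ = ⌈κ⌉`, `k² = j₀² + Σ_{j₀ < j ≤ k} (2j-1)`, `Σ_{j > j₀} 1/j² ≤ 1/j₀`. -/
theorem layer {ι : Type*} (I : Finset ι) (k : ι → ℕ) {α β κ K : ℝ} (hα : 0 ≤ α) (hβ : 0 ≤ β)
    (hκ : 1 ≤ κ) (hK : 0 ≤ K) (hk : ∀ i ∈ I, κ ≤ k i ∧ (k i : ℝ) ≤ K)
    (hN : ∀ j : ℕ, κ ≤ j → ((I.filter fun i => j ≤ k i).card : ℝ) ≤ α / (j : ℝ) ^ 3 + β / j) :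
    ∑ i ∈ I, (k i : ℝ) ^ 2 ≤ 3 * α / κ + 3 * β * K := by
  rcases I.eq_empty_or_nonempty with rfl | ⟨i₀, hi₀⟩
  · simp only [sum_empty]; positivity
  set a := ⌈κ⌉₊ with ha
  set M := ⌊K⌋₊ with hM
  have ha1 : 1 ≤ a := Nat.one_le_iff_ne_zero.2 (by rw [ha]; simp; linarith)
  have hκa : κ ≤ a := Nat.le_ceil _
  have hak : ∀ i ∈ I, a ≤ k i := fun i hi => Nat.ceil_le.2 (hk i hi).1
  have hkM : ∀ i ∈ I, k i ≤ M := fun i hi => Nat.le_floor (hk i hi).2
  have haM : a ≤ M := (hak i₀ hi₀).trans (hkM i₀ hi₀)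
  have hMK : (M : ℝ) ≤ K := Nat.floor_le hK
  have ha0 : (0 : ℝ) < a := by exact_mod_cast ha1
  have s1 : ∀ i ∈ I, (k i : ℝ) ^ 2
      ≤ (a : ℝ) ^ 2 + ∑ j ∈ Ioc a M, if j ≤ k i then 2 * (j : ℝ) else 0 := by
    intro i hi
    obtain ⟨n, hn⟩ := Nat.exists_eq_add_of_le (hak i hi)
    have := comb_sq a n
    rw [← hn] at this
    refine this.trans (le_of_eq ?_)
    congr 1
    rw [← sum_filter]
    congr 1
    ext j
    have := hkM i hi
    simp only [mem_Ioc, mem_filter]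
    omega
  have s2 : ∑ i ∈ I, ∑ j ∈ Ioc a M, (if j ≤ k i then 2 * (j : ℝ) else 0)
      ≤ ∑ j ∈ Ioc a M, (2 * α * (1 / (j : ℝ) ^ 2) + 2 * β) := by
    rw [sum_comm]
    refine sum_le_sum fun j hj => ?_
    rw [← sum_filter, sum_const, nsmul_eq_mul]
    have hj1 : a < j := (mem_Ioc.1 hj).1
    have hj0 : (0 : ℝ) < j := by exact_mod_cast (by omega : 0 < j)
    have := hN j (hκa.trans (by exact_mod_cast hj1.le))
    calc _ ≤ (α / (j : ℝ) ^ 3 + β / j) * (2 * j) := by gcongr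
      _ = _ := by field_simp
  have s3 : ∑ j ∈ Ioc a M, (2 * α * (1 / (j : ℝ) ^ 2) + 2 * β) ≤ 2 * α / κ + 2 * β * K := by
    rw [sum_add_distrib, ← mul_sum, sum_const, nsmul_eq_mul, Nat.card_Ioc]
    obtain ⟨n, hn⟩ := Nat.exists_eq_add_of_le haM
    have t1 := comb_inv_sq a n ha1
    rw [← hn] at t1
    have t2 : (0 : ℝ) ≤ 1 / (M : ℝ) := by positivity
    have t3 : 1 / (a : ℝ) ≤ 1 / κ := one_div_le_one_div_of_le (by linarith) hκa
    have t4 : ((M - a : ℕ) : ℝ) ≤ K := le_trans (by exact_mod_cast Nat.sub_le M a) hMK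
    have t5 : 2 * α * ∑ j ∈ Ioc a M, 1 / (j : ℝ) ^ 2 ≤ 2 * α * (1 / κ) := by
      gcongr; linarith
    have t6 : ((M - a : ℕ) : ℝ) * (2 * β) ≤ K * (2 * β) := by gcongr
    rw [mul_one_div] at t5
    linarith
  have s4 : (I.card : ℝ) * (a : ℝ) ^ 2 ≤ α / κ + β * K := by
    have := hN a hκa
    rw [filter_true_of_mem hak] at this
    have t1 : α / a ≤ α / κ := div_le_div_of_nonneg_left hα (by linarith) hκa
    have t2 : β * a ≤ β * K := by
      gcongr; exact le_trans (by exact_mod_cast haM) hMK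
    calc _ ≤ (α / (a : ℝ) ^ 3 + β / a) * (a : ℝ) ^ 2 := by gcongr
      _ = α / a + β * a := by field_simp
      _ ≤ _ := by linarith
  have s5 := sum_le_sum s1
  rw [sum_add_distrib, sum_const, nsmul_eq_mul] at s5
  have e : 3 * α / κ = α / κ + 2 * α / κ := by ring
  linarith

/-- Dyadic pigeonholing. -/
theorem dyadic {ι : Type*} (I : Finset ι) (k : ι → ℕ) (f : ι → ℝ) {Z N : ℝ} (hlog : LogB Z N)
    (hk : ∀ i ∈ I, 1 ≤ k i ∧ (k i : ℝ) ≤ N) (hf : ∀ i ∈ I, 0 ≤ f i) :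
    ∃ a : ℕ, 1 ≤ a ∧
      ∑ i ∈ I, f i ≤ Z * ∑ i ∈ I.filter (fun i => a ≤ k i ∧ k i < 2 * a), f i := by
  rcases I.eq_empty_or_nonempty with rfl | hne
  · exact ⟨1, le_rfl, by simp⟩
  obtain ⟨i₀, hi₀, hmax⟩ := exists_max_image I k hne
  set M := Nat.log 2 (k i₀) with hM
  have hZ : ((M + 1 : ℕ) : ℝ) ≤ Z := by push_cast; exact hlog _ (hk i₀ hi₀).2
  set c : ℕ → ℝ := fun j => ∑ i ∈ I.filter (fun i => Nat.log 2 (k i) = j), f i with hc
  have e : ∑ i ∈ I, f i = ∑ j ∈ range (M + 1), c j := by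
    rw [hc, sum_fiberwise_of_maps_to]
    intro i hi
    exact mem_range.2 (Nat.lt_succ_of_le (Nat.log_mono_right (hmax i hi)))
  obtain ⟨j, hj, hjm⟩ := exists_max_image (range (M + 1)) c ⟨0, by simp⟩
  refine ⟨2 ^ j, Nat.one_le_two_pow, ?_⟩
  have e2 : I.filter (fun i => 2 ^ j ≤ k i ∧ k i < 2 * 2 ^ j)
      = I.filter (fun i => Nat.log 2 (k i) = j) := by
    refine filter_congr fun i hi => ?_
    have := (hk i hi).1
    rw [Nat.log_eq_iff (Or.inr ⟨by norm_num, by omega⟩), pow_succ, mul_comm (2 ^ j) 2]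
  rw [e2, e]
  have h0 : 0 ≤ c j := sum_nonneg fun i hi => hf i (mem_filter.1 hi).1
  have := sum_le_card_nsmul (range (M + 1)) c (c j) hjm
  rw [card_range, nsmul_eq_mul] at this
  exact this.trans (mul_le_mul_of_nonneg_right hZ h0)

theorem grouping {α : Type*} (S : Finset α) (t : ℕ) (ht : 1 ≤ t) :
    ∃ gr : α → ℕ, (∀ a ∈ S, gr a ≤ S.card / t) ∧
      ∀ i, (S.filter fun a => gr a = i).card ≤ t := by
  let idx : α → ℕ := fun a => if h : a ∈ S then (S.equivFin ⟨a, h⟩ : ℕ) else 0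
  have h1 : ∀ a ∈ S, idx a < S.card := by
    intro a ha
    simp only [idx, dif_pos ha]
    exact (S.equivFin ⟨a, ha⟩).2
  have h2 : ∀ a ∈ S, ∀ b ∈ S, idx a = idx b → a = b := by
    intro a ha b hb h
    simp only [idx, dif_pos ha, dif_pos hb] at h
    have := S.equivFin.injective (Fin.ext h)
    exact congrArg Subtype.val this
  refine ⟨fun a => idx a / t, fun a ha => Nat.div_le_div_right (h1 a ha).le, fun i => ?_⟩
  have : (S.filter fun a => idx a / t = i).card ≤ (range t).card := by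
    refine card_le_card_of_injOn (fun a => idx a % t) (fun a _ => ?_) ?_
    · simp only [coe_range, Set.mem_Iio]; exact Nat.mod_lt _ ht
    · intro a ha b hb h
      have ha' := mem_filter.1 (mem_coe.1 ha)
      have hb' := mem_filter.1 (mem_coe.1 hb)
      refine h2 a ha'.1 b hb'.1 ?_
      have h' : idx a % t = idx b % t := h
      rw [← Nat.div_add_mod (idx a) t, ← Nat.div_add_mod (idx b) t, ha'.2, hb'.2, h']
  rwa [card_range] at this

theorem card_le_sum_classes {α β κ : Type*} (Q : Finset (α × β)) (c : α × β → κ) (C : Finset κ)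
    (A : κ → Finset α) (B : κ → Finset β)
    (h : ∀ q ∈ Q, c q ∈ C ∧ q.1 ∈ A (c q) ∧ q.2 ∈ B (c q)) :
    Q.card ≤ ∑ z ∈ C, (A z).card * (B z).card := by
  rw [card_eq_sum_card_fiberwise (f := c) (t := C) (fun q hq => (h q hq).1)]
  refine sum_le_sum fun z _ => ?_
  rw [← card_product]
  refine card_le_card fun q hq => ?_
  obtain ⟨h1, h2⟩ := mem_filter.1 hq
  obtain ⟨-, h3, h4⟩ := h q h1
  rw [h2] at h3 h4
  exact mem_product.2 ⟨h3, h4⟩

theorem comb_coll_eq {α β : Type*} [DecidableEq β] (X : Finset α) (f : α → β) (T : Finset β)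
    (hT : ∀ a ∈ X, f a ∈ T) :
    ((X ×ˢ X).filter fun q => f q.1 = f q.2).card
      = ∑ b ∈ T, (X.filter fun a => f a = b).card ^ 2 := by
  rw [card_eq_sum_card_fiberwise (f := fun q : α × α => f q.1) (t := T)
    (fun q hq => hT _ (mem_product.1 (mem_filter.1 hq).1).1)]
  refine sum_congr rfl fun b _ => ?_
  rw [sq, ← card_product]
  congr 1
  ext q
  simp only [mem_filter, mem_product]
  constructor
  · rintro ⟨⟨⟨h1, h2⟩, h3⟩, h4⟩; exact ⟨⟨h1, h4⟩, h2, h3 ▸ h4⟩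
  · rintro ⟨⟨h1, h2⟩, h3, h4⟩; exact ⟨⟨⟨h1, h3⟩, h2.trans h4.symm⟩, h2⟩

/-- Collisions: refining by `g` loses at most the number of values of `g`. -/
theorem coll_le {α β γ : Type*} [DecidableEq β] [DecidableEq γ] (X : Finset α) (f : α → β)
    (g : α → γ) :
    ((X ×ˢ X).filter fun q => f q.1 = f q.2).card ≤
      (X.image g).card * ((X ×ˢ X).filter fun q => f q.1 = f q.2 ∧ g q.1 = g q.2).card := by
  have e1 := comb_coll_eq X f (X.image f) (fun a ha => mem_image_of_mem f ha)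
  have e2 := comb_coll_eq X (fun a => (f a, g a)) (X.image f ×ˢ X.image g)
    (fun a ha => mem_product.2 ⟨mem_image_of_mem f ha, mem_image_of_mem g ha⟩)
  have e3 : ((X ×ˢ X).filter fun q => f q.1 = f q.2 ∧ g q.1 = g q.2)
      = (X ×ˢ X).filter fun q => (f q.1, g q.1) = (f q.2, g q.2) := by
    ext q; simp only [mem_filter, Prod.mk.injEq]
  rw [e1, e3, e2, sum_product, mul_sum]
  refine sum_le_sum fun b _ => ?_
  have e4 : (X.filter fun a => f a = b).card
      = ∑ c ∈ X.image g, (X.filter fun a => (f a, g a) = (b, c)).card := by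
    rw [card_eq_sum_card_fiberwise (f := g) (t := X.image g)
      (fun a ha => mem_image_of_mem g (mem_filter.1 ha).1)]
    refine sum_congr rfl fun c _ => ?_
    congr 1
    ext a
    simp only [mem_filter, Prod.mk.injEq, and_assoc]
  rw [e4]
  exact sq_sum_le_card_mul_sum_sq

/-- Two points lie on at most one line. -/
theorem pairs_le {α β : Type*} (P : Finset α) (L : Finset β) (r : α → β → Prop)
    [∀ a b, Decidable (r a b)]
    (h : ∀ a ∈ P, ∀ a' ∈ P, a ≠ a' → ∀ l ∈ L, ∀ l' ∈ L, r a l → r a' l → r a l' → r a' l' →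
      l = l') :
    ∑ l ∈ L, (P.filter fun a => r a l).card * ((P.filter fun a => r a l).card - 1)
      ≤ P.card ^ 2 := by
  have e : ∀ l ∈ L, (P.filter fun a => r a l).card * ((P.filter fun a => r a l).card - 1)
      = (P.filter fun a => r a l).offDiag.card := by
    intro l _
    rw [offDiag_card, Nat.mul_sub_one]
  rw [sum_congr rfl e, ← card_sigma, sq, ← card_product]
  refine card_le_card_of_injOn (fun z => z.2) (fun z hz => ?_) ?_
  · have := mem_offDiag.1 (mem_sigma.1 (mem_coe.1 hz)).2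
    exact mem_coe.2 (mem_product.2 ⟨(mem_filter.1 this.1).1, (mem_filter.1 this.2.1).1⟩)
  · rintro ⟨l, q⟩ hz ⟨l', q'⟩ hz' he
    have he' : q = q' := he
    subst he'
    obtain ⟨a1, a2⟩ := mem_sigma.1 (mem_coe.1 hz)
    obtain ⟨b1, b2⟩ := mem_sigma.1 (mem_coe.1 hz')
    have a3 := mem_offDiag.1 a2
    have b3 := mem_offDiag.1 b2
    have : l = l' := h q.1 (mem_filter.1 a3.1).1 q.2 (mem_filter.1 a3.2.1).1 a3.2.2 l a1 l' b1
      (mem_filter.1 a3.1).2 (mem_filter.1 a3.2.1).2 (mem_filter.1 b3.1).2 (mem_filter.1 b3.2.1).2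
    subst this
    rfl

theorem k22 {α β : Type*} (P : Finset α) (L : Finset β) (r : α → β → Prop)
    [∀ a b, Decidable (r a b)]
    (h : ∀ a ∈ P, ∀ a' ∈ P, a ≠ a' → ∀ l ∈ L, ∀ l' ∈ L, r a l → r a' l → r a l' → r a' l' →
      l = l') :
    ∑ l ∈ L, (P.filter fun a => r a l).card ≤ P.card ^ 2 + L.card := by
  have h1 := pairs_le P L r h
  have h2 : ∀ n : ℕ, n ≤ n * (n - 1) + 1 := by
    intro n
    rcases n with _ | _ | n
    · simp
    · simp
    · simp only [Nat.add_sub_cancel]; nlinarith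
  calc _ ≤ ∑ l ∈ L, ((P.filter fun a => r a l).card * ((P.filter fun a => r a l).card - 1) + 1) :=
        sum_le_sum fun l _ => h2 _
    _ ≤ _ := by rw [sum_add_distrib, sum_const, smul_eq_mul, mul_one]; omega

end Vale.Agent.P054
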