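import Vale.Agent.P054.Quat

/-!
Small helpers.
-/

namespace Vale.Agent.P054

open Finset Module
open scoped Classical

theorem card_image_le_of {α β γ : Type*} [DecidableEq β] [DecidableEq γ] (D : Finset α)
    (f : α → β) (g : α → γ) (h : ∀ a ∈ D, ∀ b ∈ D, g a = g b → f a = f b) :
    (D.image f).card ≤ (D.image g).card := by
  rcases D.eq_empty_or_nonempty with rfl | ⟨a₀, -⟩
  · simp
  refine card_le_card_of_surjOn
    (fun z => if h : ∃ a ∈ D, g a = z then f h.choose else f a₀) fun y hy => ?_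
  obtain ⟨a, ha, rfl⟩ := mem_image.1 (mem_coe.1 hy)
  have ex : ∃ b ∈ D, g b = g a := ⟨a, ha, rfl⟩
  refine ⟨g a, mem_coe.2 (mem_image_of_mem g ha), ?_⟩
  simp only [dif_pos ex]
  exact h _ ex.choose_spec.1 a ha ex.choose_spec.2

theorem Mot.card_hl {g : V3 → V3} (h : Mot g) {w : V6} (hw : g w.1 = w.2) (D : Finset V3)
    (hD : ∀ q ∈ D, q ≠ w.1) :
    (D.image fun q => hl ((q, g q) - w)).card
      = (D.image fun q => Submodule.span ℝ {q - w.1}).card := by
  have e : w = (w.1, g w.1) := Prod.ext rfl hw.symm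
  refine le_antisymm (card_image_le_of _ _ _ fun a ha b hb h1 => ?_)
    (card_image_le_of _ _ _ fun a ha b hb h1 => ?_)
  · rw [e]; exact (h.hl_eq_iff (hD a ha) (hD b hb)).2 h1
  · rw [e] at h1; exact (h.hl_eq_iff (hD a ha) (hD b hb)).1 h1

theorem Mot.mem_nb {g : V3 → V3} (h : Mot g) {w : V6} (hw : g w.1 = w.2) {A B : Finset V3}
    {q : V3} (hA : q ∈ A) (hB : g q ∈ B) (hq : q ≠ w.1) : (q, g q) ∈ nb A B w :=
  _root_.Vale.Agent.P054.mem_nb.2 ⟨hA, hB, fun e => hq (congrArg Prod.fst e), h.null hw rfl⟩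

theorem inpl_lns_le (A B : Finset V3) (w : V6) {p : Sub} (hp : finrank ℝ p = 3) :
    inpl (lns (nb A B w) w) p ≤ A.card := by
  obtain ⟨g, -, -, h⟩ := inpl_mot w hp
  refine le_trans (card_le_card ?_) (card_image_le (s := A) (f := fun q => hl ((q, -g q) - w)))
  intro l hl'
  obtain ⟨h1, h2⟩ := mem_filter.1 hl'
  obtain ⟨v, hv, rfl⟩ := mem_lns.1 h1
  obtain ⟨a1, -, a3, a4⟩ := mem_nb.1 hv
  refine mem_image.2 ⟨v.1, a1, ?_⟩
  rw [h v a3 a4 h2, neg_neg]

end Vale.Agent.P054
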