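import Vale.Agent.P054.NL
import Vale.Agent.P054.Hlp

/-!
Neighbours of a pin, and discarding.
-/

namespace Vale.Agent.P054

open Finset Module
open scoped Classical

/-- Hint: `pin` with `s₁ = ⌈s / Z⌉₊`, `L = lns (nb A B w) w`, `S g` a subset of the lines to
`Y g`, `R g` the lines with at least `e² / 2` points (`richThru`), `inpl_mot` for planes. -/
theorem critB {Z m ζ s e : ℝ} (hZ : 10 ^ 20 ≤ Z) {A B : Finset V3} (hA : (A.card : ℝ) ≤ m)
    {G : Finset (V3 → V3)} {Y : (V3 → V3) → Finset V3} (hF : Fam A B ζ s G Y)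
    (hY : ∀ g ∈ G, ((Y g).card : ℝ) ≤ 2 * s) {x : ℕ} {W : Finset V6}
    {X : V6 → Finset (V3 → V3)} (hP : Pins Z s A B G Y x W X) (hs : Z ^ 2 ≤ s)
    (hx : Z ^ 6 * s ≤ x) (h1 : m ^ 2 ≤ s ^ 3) (he : 8 * Z ^ 2 ≤ e ^ 2) {w : V6} (hw : w ∈ W) :
    ∃ H ⊆ nb A B w, Set.InjOn (fun v => hl (v - w)) H ∧ x * s ^ 3 ≤ Z ^ 4 * (H.card : ℝ) ^ 2 ∧
      ∀ v ∈ H, 100 * ((X w).filter fun g => lin e Y g w v).card ≤ x := by
  have hZ1 : 1 ≤ Z := le_trans (by norm_num) hZ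
  have hZ0 : 0 < Z := by linarith
  have hZ2 : Z ≤ Z ^ 2 := le_self_pow₀ hZ1 two_ne_zero
  have hs0 : 0 < s := by linarith
  set s₁ := ⌈s / Z⌉₊ with hs₁
  have a1 : s / Z ≤ s₁ := Nat.le_ceil _
  have a1' : s ≤ Z * s₁ := by rwa [div_le_iff₀' hZ0] at a1
  have a2 : (s₁ : ℝ) ≤ s := by
    have b1 := Nat.ceil_lt_add_one (show 0 ≤ s / Z by positivity)
    have b2 : s / Z ≤ s / 2 := div_le_div_of_nonneg_left hs0.le (by norm_num) (by linarith)
    linarith
  have a3 : Z ≤ s₁ := le_trans (by rw [le_div_iff₀ hZ0]; linarith) a1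
  have hM : ∀ g ∈ X w, Mot g := fun g hg => (hF g (hP.subG w hw hg)).1
  have hgw : ∀ g ∈ X w, g w.1 = w.2 := fun g hg => (hP.mem w hw g hg).2.1
  have hnb : ∀ g ∈ X w, ∀ q ∈ (Y g).erase w.1, (q, g q) ∈ nb A B w := by
    intro g hg q hq
    have := hF g (hP.subG w hw hg)
    exact (hM g hg).mem_nb (hgw g hg) (this.2.1 (mem_of_mem_erase hq))
      (this.2.2.1 q (mem_of_mem_erase hq)) (ne_of_mem_erase hq)
  have hdim := dim_lns (subset_refl (nb A B w))
  have hS : ∀ g ∈ X w, ∃ T ⊆ ((Y g).erase w.1).image (fun q => hl ((q, g q) - w)),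
      T.card = s₁ := by
    intro g hg
    refine exists_subset_card_eq ?_
    rw [(hM g hg).card_hl (hgw g hg) _ fun q hq => ne_of_mem_erase hq]
    refine Nat.ceil_le.2 ?_
    rw [div_le_iff₀' hZ0]
    exact (hP.mem w hw g hg).2.2
  choose! S hS1 hS2 using hS
  set R : (V3 → V3) → Finset Sub := fun g => (((Y g).erase w.1).filter
    fun q => e ^ 2 / 2 ≤ ((ln (Y g) w.1 q).card : ℝ)).image fun q => hl ((q, g q) - w) with hR
  have hxc : ((X w).card : ℝ) = x := by rw [hP.card w hw]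
  obtain ⟨M, hML, hM1, hM2⟩ := pin (m := m) (s₁ := s₁) hZ (X w) pt
    (fun g hg g' hg' e => (hM g hg).ext_pt (hM g' hg') ((hgw g hg).trans (hgw g' hg').symm) e)
    (fun g hg => (hM g hg).finrank_pt) (lns (nb A B w) w) hdim S R
    (fun g hg => ⟨fun l hl' => by
        obtain ⟨q, hq, rfl⟩ := mem_image.1 (hS1 g hg hl')
        exact mem_lns.2 ⟨_, hnb g hg q hq, rfl⟩, hS2 g hg, fun l hl' => by
        obtain ⟨q, hq, rfl⟩ := mem_image.1 (hS1 g hg hl')
        exact ((hM g hg).le_hl_iff (hgw g hg)).2 rfl⟩)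
    (fun g hg => ⟨fun l hl' => by
        obtain ⟨q, hq, rfl⟩ := mem_image.1 hl'
        exact hdim _ (mem_lns.2 ⟨_, hnb g hg q (mem_filter.1 hq).1, rfl⟩), by
        have b1 := richThru (hP.mem w hw g hg).1 (e ^ 2 / 2)
        rw [← (hM g hg).card_hl (hgw g hg) _
          fun q hq => ne_of_mem_erase (mem_filter.1 hq).1] at b1
        have b2 := hY g (hP.subG w hw hg)
        have b3 : ((R g).card : ℝ) * (2 * Z ^ 2) ≤ (R g).card * (e ^ 2 / 2 - 1) := by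
          gcongr; linarith
        have b4 : Z * (Z * (R g).card) ≤ Z * s₁ := by
          have : ((R g).card : ℝ) * (e ^ 2 / 2 - 1) ≤ 2 * s := b1.trans b2
          linarith
        exact le_of_mul_le_mul_left b4 hZ0, fun l hl' => by
        obtain ⟨q, hq, rfl⟩ := mem_image.1 hl'
        exact ((hM g hg).le_hl_iff (hgw g hg)).2 rfl⟩)
    (fun l hl' => by rw [hxc]; exact hP.col w hw l hl')
    (fun p hp => le_trans (by exact_mod_cast inpl_lns_le A B w hp) hA) a3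
    (by rw [hxc]; exact le_trans (by gcongr) hx)
    (by
      rw [hxc]
      have b1 : s ^ 3 ≤ (Z * s₁) ^ 3 := by gcongr
      have b2 : Z ^ 5 ≤ x := by
        refine le_trans ?_ hx
        rw [show Z ^ 6 * s = Z ^ 5 * (Z * s) by ring]
        exact le_mul_of_one_le_right (by positivity)
          (one_le_mul_of_one_le_of_one_le hZ1 (by linarith))
      have b3 : Z ^ 3 * (Z ^ 2 * m ^ 2) ≤ Z ^ 3 * (x * (s₁ : ℝ) ^ 3) := by
        calc _ = Z ^ 5 * m ^ 2 := by ring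
          _ ≤ x * (Z * s₁) ^ 3 := by gcongr; linarith
          _ = _ := by ring
      exact le_of_mul_le_mul_left b3 (by positivity))
  obtain ⟨H, hH1, hH2, hH3⟩ := exists_subset_injOn_image_eq_of_surjOn
    (f := fun v => hl (v - w)) (nb A B w : Set V6) M (fun l hl' => by
      obtain ⟨v, hv, e⟩ := mem_lns.1 (hML hl')
      exact ⟨v, hv, e⟩)
  have hH1' : H ⊆ nb A B w := coe_subset.1 hH1
  refine ⟨H, hH1', hH2, ?_, fun v hv => ?_⟩
  · rw [hxc, ← hH3, card_image_of_injOn hH2] at hM1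
    have b1 : s ^ 3 ≤ (Z * s₁) ^ 3 := by gcongr
    calc x * s ^ 3 ≤ x * (Z * s₁) ^ 3 := by gcongr
      _ = Z ^ 3 * (x * (s₁ : ℝ) ^ 3) := by ring
      _ ≤ Z ^ 3 * (Z * (H.card : ℝ) ^ 2) := by gcongr
      _ = _ := by ring
  · have b1 := hM2 (hl (v - w)) (hH3 ▸ mem_image_of_mem _ hv)
    rw [hP.card w hw] at b1
    refine le_trans (Nat.mul_le_mul_left _ (card_le_card fun g hg => ?_)) b1
    obtain ⟨hg, c1, q, c2, c3, c4, c5⟩ := mem_filter.1 hg
    have c6 : q ∈ (Y g).erase w.1 := mem_erase.2 ⟨c3, c2⟩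
    obtain ⟨-, -, d1, d2⟩ := mem_nb.1 (hH1' hv)
    obtain ⟨-, -, d3, d4⟩ := mem_nb.1 (hnb g hg q c6)
    refine mem_filter.2 ⟨hg, fun h => c1 (((hM g hg).le_hl_iff (hgw g hg)).1 h), _,
      mem_image_of_mem _ (mem_filter.2 ⟨c6, c4⟩), ?_⟩
    exact (hl_meet_iff (sub_ne_zero.2 d1) d2 (sub_ne_zero.2 d3) d4).2 c5

end Vale.Agent.P054
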