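import Vale.Agent.P054.Rich

/-!
Discarding the edges inside rich motions.
-/

namespace Vale.Agent.P054

open Finset Module
open scoped Classical

theorem discard {Θ m ζ u : ℝ} (h : RB Θ m ζ) {A B : Finset V3} (hA : (A.card : ℝ) ≤ m)
    (hB : (B.card : ℝ) ≤ m) (hζ : 1 ≤ ζ) (hu : 1 ≤ u) (hmk : m ^ 2 ≤ (ζ * u) ^ 3)
    (hcol : ∀ T ⊆ B, Col T → (T.card : ℝ) ≤ u) :
    ((((A ×ˢ B) ×ˢ (A ×ˢ B)).filter fun q : V6 × V6 => ∃ g, Mot g ∧ g q.1.1 = q.1.2 ∧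
      g q.2.1 = q.2.2 ∧ ζ * u ≤ ((A.filter fun a => g a ∈ B).card : ℝ)).card : ℝ)
      ≤ 3 * Θ / (ζ * u) := by
  have key : ∀ q ∈ (((A ×ˢ B) ×ˢ (A ×ˢ B)).filter fun q : V6 × V6 => ∃ g, Mot g ∧
      g q.1.1 = q.1.2 ∧ g q.2.1 = q.2.2 ∧ ζ * u ≤ ((A.filter fun a => g a ∈ B).card : ℝ)),
      ∃ g, Mot g ∧ g q.1.1 = q.1.2 ∧ g q.2.1 = q.2.2 ∧
        ζ * u ≤ ((A.filter fun a => g a ∈ B).card : ℝ) := fun q hq => (mem_filter.1 hq).2
  have hsub : (((A ×ˢ B) ×ˢ (A ×ˢ B)).filter fun q : V6 × V6 => ∃ g, Mot g ∧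
      g q.1.1 = q.1.2 ∧ g q.2.1 = q.2.2 ∧ ζ * u ≤ ((A.filter fun a => g a ∈ B).card : ℝ))
      ⊆ (A ×ˢ B) ×ˢ (A ×ˢ B) := filter_subset _ _
  generalize (((A ×ˢ B) ×ˢ (A ×ˢ B)).filter fun q : V6 × V6 => ∃ g, Mot g ∧
      g q.1.1 = q.1.2 ∧ g q.2.1 = q.2.2 ∧ ζ * u ≤ ((A.filter fun a => g a ∈ B).card : ℝ)) = Q
    at key hsub ⊢
  choose! c hc using key
  have hF : Fam A B ζ (ζ * u) (Q.image c) (fun g => A.filter fun a => g a ∈ B) := by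
    intro g hg
    obtain ⟨q, hq, rfl⟩ := mem_image.1 hg
    obtain ⟨hM, -, -, h4⟩ := hc q hq
    refine ⟨hM, filter_subset _ _, fun p hp => (mem_filter.1 hp).2, ?_, h4⟩
    intro T hT hcT
    obtain ⟨φ, hφ⟩ := hM.lin
    have h5 := hcol (T.image (c q)) (by
      intro y hy
      obtain ⟨p, hp, rfl⟩ := mem_image.1 hy
      exact (mem_filter.1 (hT hp)).2) (hcT.image (c q) φ hφ)
    rw [card_image_of_injective _ hM.inj] at h5
    exact (mul_le_mul_of_nonneg_left h5 (by linarith)).trans h4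
  have h1 := richSum2 h hA hB (by nlinarith) hmk hF
  refine le_trans ?_ h1
  have h2 := card_le_sum_classes Q c (Q.image c)
    (fun g => (A.filter fun a => g a ∈ B).image fun a => ((a, g a) : V6))
    (fun g => (A.filter fun a => g a ∈ B).image fun a => ((a, g a) : V6)) (by
      intro q hq
      obtain ⟨-, e1, e2, -⟩ := hc q hq
      have h3 := hsub hq
      simp only [mem_product] at h3
      refine ⟨mem_image_of_mem _ hq, mem_image.2 ⟨q.1.1, mem_filter.2 ⟨h3.1.1, ?_⟩, ?_⟩,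
        mem_image.2 ⟨q.2.1, mem_filter.2 ⟨h3.2.1, ?_⟩, ?_⟩⟩
      · rw [e1]; exact h3.1.2
      · rw [e1]
      · rw [e2]; exact h3.2.2
      · rw [e2])
  have h3 : Q.card ≤ ∑ g ∈ Q.image c, (A.filter fun a => g a ∈ B).card ^ 2 := by
    refine h2.trans (sum_le_sum fun g _ => ?_)
    rw [sq]
    exact Nat.mul_le_mul card_image_le card_image_le
  exact_mod_cast h3

theorem critC_sum (W : Finset V6) (S : V6 → Finset V6) (Q : Finset (V6 × V6))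
    (φ : V6 × V6 → V6 × V6) (hφ : Function.Injective φ)
    (h : ∀ w ∈ W, ∀ v ∈ S w, φ (w, v) ∈ Q) : ∑ w ∈ W, ((S w).card : ℝ) ≤ (Q.card : ℝ) := by
  have h1 : (W.sigma S).card ≤ Q.card := by
    refine card_le_card_of_injOn (fun x => φ (x.1, x.2)) ?_ ?_
    · rintro ⟨w, v⟩ hx
      obtain ⟨hw, hv⟩ := mem_sigma.1 hx
      exact h w hw v hv
    · rintro ⟨w, v⟩ - ⟨w', v'⟩ - he
      have e := hφ he
      simp only [Prod.mk.injEq] at e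
      obtain ⟨rfl, rfl⟩ := e
      rfl
  rw [card_sigma] at h1
  exact_mod_cast h1

theorem critC_five {α : Type*} (S S₁ S₂ S₃ S₄ S₅ : Finset α)
    (h : ∀ v ∈ S, v ∈ S₁ ∨ v ∈ S₂ ∨ v ∈ S₃ ∨ v ∈ S₄ ∨ v ∈ S₅) :
    (S.card : ℝ) ≤ (S₁.card : ℝ) + S₂.card + S₃.card + S₄.card + S₅.card := by
  have h1 : S.card ≤ (S₁ ∪ S₂ ∪ S₃ ∪ S₄ ∪ S₅).card := by
    refine card_le_card fun v hv => ?_
    have := h v hv
    simp only [mem_union]
    tauto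
  have h2 := card_union_le (S₁ ∪ S₂ ∪ S₃ ∪ S₄) S₅
  have h3 := card_union_le (S₁ ∪ S₂ ∪ S₃) S₄
  have h4 := card_union_le (S₁ ∪ S₂) S₃
  have h5 := card_union_le S₁ S₂
  have h6 : S.card ≤ S₁.card + S₂.card + S₃.card + S₄.card + S₅.card := by omega
  exact_mod_cast h6

theorem critC_lines {A C : Finset V3} {g ψ : V3 → V3} (hψ : Function.Injective ψ) {k : ℝ}
    (hk : 0 ≤ k) (w : V6) (S : Finset V6) (P : Sub → Prop) [DecidablePred P]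
    (h : ∀ v ∈ S, P (hl (v - w)) → v.1 ∈ A ∧ ψ v.2 ∈ C ∧ g v.1 = ψ v.2 ∧
      ((A.filter fun a => g a ∈ C).card : ℝ) ≤ k) :
    (((lns S w).filter P).card : ℝ) ≤ k := by
  rcases ((lns S w).filter P).eq_empty_or_nonempty with he | ⟨l, hl⟩
  · rw [he]; simpa using hk
  obtain ⟨hl1, hl2⟩ := mem_filter.1 hl
  obtain ⟨v₀, hv₀, rfl⟩ := mem_lns.1 hl1
  refine le_trans ?_ (h v₀ hv₀ hl2).2.2.2
  have h1 : (lns S w).filter P ⊆
      (A.filter fun a => g a ∈ C).image fun a => Vale.Agent.P054.hl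
        ((a, Function.invFun ψ (g a)) - w) := by
    intro l hl'
    obtain ⟨x1, x2⟩ := mem_filter.1 hl'
    obtain ⟨v, hv, rfl⟩ := mem_lns.1 x1
    obtain ⟨y1, y2, y3, -⟩ := h v hv x2
    refine mem_image.2 ⟨v.1, mem_filter.2 ⟨y1, y3 ▸ y2⟩, ?_⟩
    rw [y3, Function.leftInverse_invFun hψ]
  exact_mod_cast (card_le_card h1).trans card_image_le

/-- Hint: `B₀` = points of `B` on no line of `rich B u`; `heavyEdge` twice; `discard` for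
`(A, B₀)` and `(A, -B₀)`; `thru_mot`, `inpl_mot`. -/
theorem critC {Θ m ζ u : ℝ} (h : RB Θ m ζ) {A B : Finset V3} (hA : (A.card : ℝ) ≤ m)
    (hB : (B.card : ℝ) ≤ m) (hζ : 1 ≤ ζ) (hu : 2 ≤ u) (h4 : 4 * m ≤ u ^ 2)
    (hmk : m ^ 2 ≤ (ζ * u) ^ 3) (W : Finset V6) (hW : W ⊆ A ×ˢ B) (H : V6 → Finset V6)
    (hH : ∀ w ∈ W, H w ⊆ nb A B w) :
    ∃ H' : V6 → Finset V6, (∀ w ∈ W, H' w ⊆ H w ∧
      (∀ x : Sub, finrank ℝ x = 1 → (thru (lns (H' w) w) x : ℝ) ≤ ζ * u) ∧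
      (∀ p : Sub, finrank ℝ p = 3 → (inpl (lns (H' w) w) p : ℝ) ≤ ζ * u)) ∧
      ∑ w ∈ W, ((H w).card : ℝ)
        ≤ ∑ w ∈ W, ((H' w).card : ℝ) + 8 * m ^ 4 / u + 6 * Θ / (ζ * u) := by
  have hu0 : 0 < u := by linarith
  have hk0 : 0 ≤ ζ * u := by positivity
  obtain ⟨B₀, hB₀⟩ : ∃ B₀ : Finset V3, B₀ = B.filter fun y => ¬ ∃ T ∈ rich B u, y ∈ T := ⟨_, rfl⟩
  have hsub : B₀ ⊆ B := hB₀ ▸ filter_subset _ _
  have hcard : (B₀.card : ℝ) ≤ m := le_trans (by exact_mod_cast card_le_card hsub) hB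
  have hcol : ∀ T ⊆ B₀, Col T → (T.card : ℝ) ≤ u := by
    intro T hT hc
    by_contra hlt
    have hle : u ≤ (T.card : ℝ) := (not_le.1 hlt).le
    obtain ⟨p, hp, q, hq, hpq⟩ := rich_two hu hle
    have h1 : T ⊆ ln B p q := hc.subset_ln (hT.trans hsub) hp hq hpq
    have h2 : ln B p q ∈ rich B u := mem_rich.2 ⟨⟨p, hsub (hT hp), q, hsub (hT hq), hpq, rfl⟩,
      hle.trans (by exact_mod_cast card_le_card h1)⟩
    have h3 := hT hp
    rw [hB₀] at h3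
    exact (mem_filter.1 h3).2 ⟨_, h2, h1 hp⟩
  obtain ⟨B₁, hB₁⟩ : ∃ B₁ : Finset V3, B₁ = B₀.image fun y => -y := ⟨_, rfl⟩
  have hmem : ∀ y, -y ∈ B₁ ↔ y ∈ B₀ := by
    intro y
    rw [hB₁, mem_image]
    constructor
    · rintro ⟨z, hz, e⟩
      rwa [← neg_injective e]
    · intro hy
      exact ⟨y, hy, rfl⟩
  have hcard₁ : (B₁.card : ℝ) ≤ m := by
    refine le_trans ?_ hcard
    rw [hB₁]
    exact_mod_cast card_image_le
  have hcol₁ : ∀ T ⊆ B₁, Col T → (T.card : ℝ) ≤ u := by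
    intro T hT hc
    have h1 := hcol (T.image fun y => -y) (by
      intro y hy
      obtain ⟨z, hz, rfl⟩ := mem_image.1 hy
      rw [← hmem, neg_neg]
      exact hT hz) (hc.image (fun y => -y) (-LinearMap.id) (by
        intro p q
        simp only [LinearMap.neg_apply, LinearMap.id_apply]
        abel))
    rwa [card_image_of_injective _ neg_injective] at h1
  have d0 := discard h hA hcard hζ (by linarith) hmk hcol
  have d1 := discard h hA hcard₁ hζ (by linarith) hmk hcol₁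
  have d2 := heavyEdge A B hA hB hu0 h4
  let P₃ : V6 → V6 → Prop := fun w v => ∃ g, Mot g ∧ g w.1 = w.2 ∧ g v.1 = v.2 ∧
    ζ * u ≤ ((A.filter fun a => g a ∈ B₀).card : ℝ)
  let P₄ : V6 → V6 → Prop := fun w v => ∃ g, Mot g ∧ g w.1 = -w.2 ∧ g v.1 = -v.2 ∧
    ζ * u ≤ ((A.filter fun a => g a ∈ B₁).card : ℝ)
  have hout : ∀ y ∈ B, y ∉ B₀ → ∃ T ∈ rich B u, y ∈ T := by
    intro y hy hn
    by_contra hc
    exact hn (hB₀ ▸ mem_filter.2 ⟨hy, hc⟩)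
  have e1 : ∑ w ∈ W, (((H w).filter fun v => v.2 ∉ B₀).card : ℝ) ≤ 4 * m ^ 4 / u := by
    refine (critC_sum W _ _ id Function.injective_id ?_).trans d2
    intro w hw v hv
    obtain ⟨hv1, hv2⟩ := mem_filter.1 hv
    obtain ⟨x1, x2, -, x4⟩ := mem_nb.1 (hH w hw hv1)
    exact mem_filter.2 ⟨mem_product.2 ⟨hW hw, mem_product.2 ⟨x1, x2⟩⟩, x4, hout _ x2 hv2⟩
  have e2 : ∑ w ∈ W, (((H w).filter fun _ => w.2 ∉ B₀).card : ℝ) ≤ 4 * m ^ 4 / u := by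
    refine (critC_sum W _ _ Prod.swap Prod.swap_injective ?_).trans d2
    intro w hw v hv
    obtain ⟨hv1, hv2⟩ := mem_filter.1 hv
    obtain ⟨x1, x2, -, x4⟩ := mem_nb.1 (hH w hw hv1)
    refine mem_filter.2 ⟨mem_product.2 ⟨mem_product.2 ⟨x1, x2⟩, hW hw⟩, ?_,
      hout _ (mem_product.1 (hW hw)).2 hv2⟩
    show Bf (w - v) (w - v) = 0
    rw [← neg_sub v w, Bf_neg_neg]
    exact x4
  have e3 : ∑ w ∈ W, (((H w).filter fun v => w.2 ∈ B₀ ∧ v.2 ∈ B₀ ∧ P₃ w v).card : ℝ)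
      ≤ 3 * Θ / (ζ * u) := by
    refine (critC_sum W _ _ id Function.injective_id ?_).trans d0
    intro w hw v hv
    obtain ⟨hv1, hv2, hv3, hv4⟩ := mem_filter.1 hv
    obtain ⟨x1, -, -, -⟩ := mem_nb.1 (hH w hw hv1)
    exact mem_filter.2 ⟨mem_product.2 ⟨mem_product.2 ⟨(mem_product.1 (hW hw)).1, hv2⟩,
      mem_product.2 ⟨x1, hv3⟩⟩, hv4⟩
  have e4 : ∑ w ∈ W, (((H w).filter fun v => w.2 ∈ B₀ ∧ v.2 ∈ B₀ ∧ P₄ w v).card : ℝ)
      ≤ 3 * Θ / (ζ * u) := by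
    refine (critC_sum W _ _ (fun q => ((q.1.1, -q.1.2), (q.2.1, -q.2.2))) ?_ ?_).trans d1
    · rintro ⟨⟨a, b⟩, a', b'⟩ ⟨⟨c, d⟩, c', d'⟩ he
      simp only [Prod.mk.injEq, neg_inj] at he
      obtain ⟨⟨rfl, rfl⟩, rfl, rfl⟩ := he
      rfl
    intro w hw v hv
    obtain ⟨hv1, hv2, hv3, hv4⟩ := mem_filter.1 hv
    obtain ⟨x1, -, -, -⟩ := mem_nb.1 (hH w hw hv1)
    exact mem_filter.2 ⟨mem_product.2 ⟨mem_product.2 ⟨(mem_product.1 (hW hw)).1, (hmem _).2 hv2⟩,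
      mem_product.2 ⟨x1, (hmem _).2 hv3⟩⟩, hv4⟩
  refine ⟨fun w => (H w).filter fun v => w.2 ∈ B₀ ∧ v.2 ∈ B₀ ∧ ¬ P₃ w v ∧ ¬ P₄ w v, ?_, ?_⟩
  · intro w hw
    refine ⟨filter_subset _ _, ?_, ?_⟩
    · intro x hx
      obtain ⟨g, hM, hg, hv⟩ := thru_mot w hx
      refine critC_lines (A := A) (C := B₀) (g := g) (ψ := id) Function.injective_id hk0 w _ _ ?_
      intro v hv1 hv2
      obtain ⟨y1, y2, y3, y4, -⟩ := mem_filter.1 hv1
      have e := hv v hv2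
      refine ⟨(mem_nb.1 (hH w hw y1)).1, y3, e, ?_⟩
      exact (not_le.1 fun hle => y4 ⟨g, hM, hg, e, hle⟩).le
    · intro p hp
      obtain ⟨g, hM, hg, hv⟩ := inpl_mot w hp
      refine critC_lines (A := A) (C := B₁) (g := g) (ψ := fun y => -y) neg_injective hk0 w _ _ ?_
      intro v hv1 hv2
      obtain ⟨y1, y2, y3, -, y4⟩ := mem_filter.1 hv1
      obtain ⟨x1, -, x3, x4⟩ := mem_nb.1 (hH w hw y1)
      have e := hv v x3 x4 hv2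
      refine ⟨x1, (hmem _).2 y3, e, ?_⟩
      exact (not_le.1 fun hle => y4 ⟨g, hM, hg, e, hle⟩).le
  · have e5 : ∑ w ∈ W, ((H w).card : ℝ) ≤ ∑ w ∈ W,
        ((((H w).filter fun v => w.2 ∈ B₀ ∧ v.2 ∈ B₀ ∧ ¬ P₃ w v ∧ ¬ P₄ w v).card : ℝ) +
        (((H w).filter fun v => v.2 ∉ B₀).card : ℝ) +
        (((H w).filter fun _ => w.2 ∉ B₀).card : ℝ) +
        (((H w).filter fun v => w.2 ∈ B₀ ∧ v.2 ∈ B₀ ∧ P₃ w v).card : ℝ) +
        (((H w).filter fun v => w.2 ∈ B₀ ∧ v.2 ∈ B₀ ∧ P₄ w v).card : ℝ)) := by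
      refine sum_le_sum fun w _ => ?_
      refine critC_five _ _ _ _ _ _ ?_
      intro v hv
      by_cases a : v.2 ∈ B₀
      · by_cases b : w.2 ∈ B₀
        · by_cases c : P₃ w v
          · exact Or.inr (Or.inr (Or.inr (Or.inl (mem_filter.2 ⟨hv, b, a, c⟩))))
          · by_cases d : P₄ w v
            · exact Or.inr (Or.inr (Or.inr (Or.inr (mem_filter.2 ⟨hv, b, a, d⟩))))
            · exact Or.inl (mem_filter.2 ⟨hv, b, a, c, d⟩)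
        · exact Or.inr (Or.inr (Or.inl (mem_filter.2 ⟨hv, b⟩)))
      · exact Or.inr (Or.inl (mem_filter.2 ⟨hv, a⟩))
    rw [sum_add_distrib, sum_add_distrib, sum_add_distrib, sum_add_distrib] at e5
    have r1 : 8 * m ^ 4 / u = 4 * m ^ 4 / u + 4 * m ^ 4 / u := by ring
    have r2 : 6 * Θ / (ζ * u) = 3 * Θ / (ζ * u) + 3 * Θ / (ζ * u) := by ring
    rw [r1, r2]
    linarith

end Vale.Agent.P054
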