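import Vale.Agent.P054.G2
import Vale.Agent.P054.Hlp

/-!
The double count of flags.
-/

namespace Vale.Agent.P054

open Finset Module
open scoped Classical

/-- Pins of the flags with given motion and vertex. -/
noncomputable def cdD (Y : (V3 → V3) → Finset V3) (W : Finset V6) (X : V6 → Finset (V3 → V3))
    (H : V6 → Finset V6) (g : V3 → V3) (v : V6) : Finset V3 :=
  (Y g).filter fun p => (p, g p) ∈ W ∧ g ∈ X (p, g p) ∧ v ∈ H (p, g p)

/-- The lines from a pin inside a motion. -/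
noncomputable def cdS (Y : (V3 → V3) → Finset V3) (w : V6) (g : V3 → V3) : Finset Sub :=
  ((Y g).erase w.1).image fun q => hl ((q, g q) - w)

theorem cd_swap {Z s : ℝ} {A B : Finset V3} {G : Finset (V3 → V3)} {Y : (V3 → V3) → Finset V3}
    {x : ℕ} {W : Finset V6} {X : V6 → Finset (V3 → V3)} (hP : Pins Z s A B G Y x W X)
    (H : V6 → Finset V6) (hH : ∀ w ∈ W, H w ⊆ nb A B w) (φ : (V3 → V3) → V6 → V6 → ℝ) :
    ∑ w ∈ W, ∑ g ∈ X w, ∑ v ∈ (H w).filter (fun v => g v.1 ≠ v.2), φ g w v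
      = ∑ z ∈ (G ×ˢ (A ×ˢ B)).filter (fun z => z.1 z.2.1 ≠ z.2.2),
        ∑ p ∈ cdD Y W X H z.1 z.2, φ z.1 (p, z.1 p) z.2 := by
  simp only [sum_sigma']
  refine sum_nbij' (fun t => ⟨(t.2.1, t.2.2), t.1.1⟩) (fun t => ⟨(t.2, t.1.1 t.2), ⟨t.1.1, t.1.2⟩⟩)
    ?_ ?_ ?_ ?_ ?_
  · rintro ⟨w, g, v⟩ ht
    simp only [mem_sigma, mem_filter] at ht
    obtain ⟨h1, h2, h3, h4⟩ := ht
    obtain ⟨a1, a2, -⟩ := hP.mem w h1 g h2
    obtain ⟨b1, b2, -⟩ := mem_nb.1 (hH w h1 h3)
    have e : (w.1, g w.1) = w := Prod.ext rfl a2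
    simp only [mem_sigma, mem_filter, mem_product, cdD, e]
    exact ⟨⟨⟨hP.subG w h1 h2, b1, b2⟩, h4⟩, a1, h1, h2, h3⟩
  · rintro ⟨⟨g, v⟩, p⟩ ht
    simp only [mem_sigma, mem_filter, mem_product, cdD] at ht ⊢
    exact ⟨ht.2.2.1, ht.2.2.2.1, ht.2.2.2.2, ht.1.2⟩
  · rintro ⟨w, g, v⟩ ht
    simp only [mem_sigma, mem_filter] at ht
    have e : (w.1, g w.1) = w := Prod.ext rfl (hP.mem w ht.1 g ht.2.1).2.1
    simp only [e]
  · rintro ⟨⟨g, v⟩, p⟩ _
    rfl
  · rintro ⟨w, g, v⟩ ht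
    simp only [mem_sigma, mem_filter] at ht
    have e : (w.1, g w.1) = w := Prod.ext rfl (hP.mem w ht.1 g ht.2.1).2.1
    simp only [e]

theorem cd_bf {g : V3 → V3} (hg : Mot g) {v : V6} {p q : V3}
    (hp : Bf (v - (p, g p)) (v - (p, g p)) = 0) (hq : Bf (v - (q, g q)) (v - (q, g q)) = 0) :
    Bf (v - (p, g p)) ((q, g q) - (p, g p)) = 0 := by
  have h1 := Bf_sub_self (v - (p, g p)) ((q, g q) - (p, g p))
  rw [sub_sub_sub_cancel_right, hq, hp, hg.null rfl rfl] at h1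
  linarith

theorem cd_one {A B : Finset V3} {Y : (V3 → V3) → Finset V3} {W : Finset V6}
    {X : V6 → Finset (V3 → V3)} {H : V6 → Finset V6} (hH : ∀ w ∈ W, H w ⊆ nb A B w)
    {g : V3 → V3} (hg : Mot g) {v : V6} (hv : g v.1 ≠ v.2) {e : ℝ} (he : 2 ≤ e) :
    ∑ _p ∈ cdD Y W X H g v, (1 : ℝ) ≤ e ^ 2 + 1 + ∑ p ∈ cdD Y W X H g v,
      (2 * (if lin e Y g (p, g p) v then 1 else 0) +
        2 / e * (((cdS Y (p, g p) g).filter fun u => meet (hl (v - (p, g p))) u).card : ℝ)) := by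
  set D := cdD Y W X H g v with hD
  have hDY : D ⊆ Y g := filter_subset _ _
  have hnb : ∀ p ∈ D, v ≠ (p, g p) ∧ Bf (v - (p, g p)) (v - (p, g p)) = 0 := by
    intro p hp
    obtain ⟨-, h1, -, h2⟩ := mem_filter.1 hp
    exact (mem_nb.1 (hH _ h1 h2)).2.2
  have he0 : 0 < e := by linarith
  rw [sum_add_distrib, ← mul_sum, ← mul_sum, sum_const, nsmul_eq_mul, mul_one]
  have n1 : 0 ≤ ∑ p ∈ D, (if lin e Y g (p, g p) v then (1 : ℝ) else 0) :=
    sum_nonneg fun p _ => by split_ifs <;> norm_num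
  have n2 : 0 ≤ 2 / e * ∑ p ∈ D,
      (((cdS Y (p, g p) g).filter fun u => meet (hl (v - (p, g p))) u).card : ℝ) :=
    mul_nonneg (div_nonneg zero_le_two he0.le) (sum_nonneg fun _ _ => Nat.cast_nonneg _)
  rcases le_or_gt (D.card : ℝ) (e ^ 2 + 1) with h1 | h1
  · linarith
  by_cases h2 : ∀ T ⊆ D, Col T → 2 * T.card ≤ D.card
  · have b1 := weakBeck he h1.le h2
    have b2 : ∑ p ∈ D, (dirs D p : ℝ) ≤ ∑ p ∈ D,
        (((cdS Y (p, g p) g).filter fun u => meet (hl (v - (p, g p))) u).card : ℝ) := by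
      refine sum_le_sum fun p hp => Nat.cast_le.2 ?_
      have c1 := hg.card_hl (w := (p, g p)) rfl (D.erase p) fun q hq => ne_of_mem_erase hq
      unfold dirs
      rw [← c1]
      refine card_le_card fun l hl' => ?_
      obtain ⟨q, hq, rfl⟩ := mem_image.1 hl'
      obtain ⟨c2, c3⟩ := mem_erase.1 hq
      refine mem_filter.2 ⟨mem_image_of_mem _ (mem_erase.2 ⟨c2, hDY c3⟩), ?_⟩
      refine (hl_meet_iff (sub_ne_zero.2 (hnb p hp).1) (hnb p hp).2
        (sub_ne_zero.2 fun h => c2 (congrArg Prod.fst h)) (hg.null rfl rfl)).2 ?_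
      exact cd_bf hg (hnb p hp).2 (hnb q c3).2
    have b3 : (D.card : ℝ) ≤ 2 / e * ∑ p ∈ D,
        (((cdS Y (p, g p) g).filter fun u => meet (hl (v - (p, g p))) u).card : ℝ) := by
      rw [div_mul_eq_mul_div, le_div_iff₀ he0]
      linarith
    have : 0 ≤ e ^ 2 := by positivity
    linarith
  · push Not at h2
    obtain ⟨T, hT, hc, h3⟩ := h2
    have h3' : (D.card : ℝ) < 2 * T.card := by exact_mod_cast h3
    have b0 : 4 ≤ e ^ 2 := by nlinarith
    have b1 : ∀ p ∈ T, lin e Y g (p, g p) v := by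
      intro p hp
      have c1 : 1 < T.card := by
        have : (1 : ℝ) < T.card := by linarith
        exact_mod_cast this
      obtain ⟨q, hq, hqp⟩ := exists_mem_ne c1 p
      refine ⟨hv, q, hDY (hT hq), hqp, ?_, cd_bf hg (hnb p (hT hp)).2 (hnb q (hT hq)).2⟩
      have c2 : (T.card : ℝ) ≤ (ln (Y g) p q).card :=
        Nat.cast_le.2 (card_le_card (hc.subset_ln (hT.trans hDY) hp hq hqp.symm))
      show e ^ 2 / 2 ≤ ((ln (Y g) p q).card : ℝ)
      linarith
    have b2 : (T.card : ℝ) ≤ ∑ p ∈ D, (if lin e Y g (p, g p) v then (1 : ℝ) else 0) := by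
      rw [sum_boole]
      exact Nat.cast_le.2 (card_le_card fun p hp => mem_filter.2 ⟨hT hp, b1 p hp⟩)
    linarith

/-- Hint: for `g ∈ G`, `v ∈ A ×ˢ B` off the graph let `D g v` be the set of `p ∈ Y g` with
`w = (p, g p) ∈ W`, `g ∈ X w`, `v ∈ H w`. Split by `|D| < e² + 1`, more than half collinear
(then `lin`), or `weakBeck`; bound the directions by `g2` at each pin with `s₂ = 2 s`. -/
theorem critD {Z N m ζ s e k : ℝ} (hZ : 10 ^ 20 ≤ Z) (hG : GProp Z N) (hlog : LogB Z N)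
    {A B : Finset V3} (hA : (A.card : ℝ) ≤ m) (hB : (B.card : ℝ) ≤ m)
    {G : Finset (V3 → V3)} {Y : (V3 → V3) → Finset V3} (hF : Fam A B ζ s G Y)
    (hY : ∀ g ∈ G, ((Y g).card : ℝ) ≤ 2 * s) {x : ℕ} {W : Finset V6}
    {X : V6 → Finset (V3 → V3)} (hP : Pins Z s A B G Y x W X) (H : V6 → Finset V6)
    (hH : ∀ w ∈ W, H w ⊆ nb A B w ∧ Set.InjOn (fun v => hl (v - w)) (H w) ∧
      (∀ x : Sub, finrank ℝ x = 1 → (thru (lns (H w) w) x : ℝ) ≤ k) ∧
      (∀ p : Sub, finrank ℝ p = 3 → (inpl (lns (H w) w) p : ℝ) ≤ k) ∧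
      ∀ v ∈ H w, 100 * ((X w).filter fun g => lin e Y g w v).card ≤ x)
    (he : 2 ≤ e) (hs : 0 ≤ s) (hk : 0 ≤ k) (hsx : 2 * s ≤ x) (hxs : x * (2 * s) ≤ k ^ 2)
    (hN : 2 * m ^ 2 ≤ N) (hN' : (x : ℝ) ≤ N) :
    x * ∑ w ∈ W, ((H w).card : ℝ) ≤ 2 * ((e ^ 2 + 1) * G.card * m ^ 2 +
      2 / e * (Z ^ 4 * x * (∑ w ∈ W, ((H w).card : ℝ) + k * (2 * s) * W.card))) := by
  have hZ1 : 1 ≤ Z := le_trans (by norm_num) hZ
  have hZ0 : 0 < Z := by linarith
  have he0 : 0 < e := by linarith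
  have hH1 : ∀ w ∈ W, H w ⊆ nb A B w := fun w hw => (hH w hw).1
  have hM : ∀ w ∈ W, ∀ g ∈ X w, Mot g := fun w hw g hg => (hF g (hP.subG w hw hg)).1
  have hgw : ∀ w ∈ W, ∀ g ∈ X w, g w.1 = w.2 := fun w hw g hg => (hP.mem w hw g hg).2.1
  have hAB : ((A ×ˢ B).card : ℝ) ≤ m ^ 2 := by
    rw [card_product, sq]; push_cast
    exact mul_le_mul hA hB (Nat.cast_nonneg _) (le_trans (Nat.cast_nonneg _) hA)
  have s1 : ∀ w ∈ W, 3 / 4 * (x * ((H w).card : ℝ))
      ≤ ∑ g ∈ X w, ∑ _v ∈ (H w).filter (fun v => g v.1 ≠ v.2), (1 : ℝ) := by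
    intro w hw
    simp only [sum_filter]
    rw [sum_comm]
    have := card_nsmul_le_sum (H w) (fun v => ∑ g ∈ X w, if g v.1 ≠ v.2 then (1 : ℝ) else 0)
      (3 / 4 * x) (fun v hv => by
        rw [sum_boole]
        obtain ⟨-, -, c1, c2⟩ := mem_nb.1 (hH1 w hw hv)
        have b1 := hP.col w hw _ (hl_finrank (sub_ne_zero.2 c1) c2)
        have b2 := card_filter_add_card_filter_not (s := X w) (fun g => g v.1 ≠ v.2)
        rw [hP.card w hw] at b2
        have b3 : ((X w).filter fun g => ¬ g v.1 ≠ v.2).card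
            ≤ ((X w).filter fun g => pt g ≤ hl (v - w)).card :=
          card_le_card fun g hg => mem_filter.2 ⟨(mem_filter.1 hg).1,
            ((hM w hw g (mem_filter.1 hg).1).le_hl_iff (hgw w hw g (mem_filter.1 hg).1)).2
              (not_not.1 (mem_filter.1 hg).2)⟩
        have b4 : 4 * (((X w).filter fun g => pt g ≤ hl (v - w)).card : ℝ)
            ≤ Z ^ 9 * (((X w).filter fun g => pt g ≤ hl (v - w)).card : ℝ) := by
          gcongr
          exact le_trans (by linarith) (le_self_pow₀ hZ1 (by norm_num))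
        have b5 : (_ : ℝ) = _ := congrArg Nat.cast b2
        have b6 : (_ : ℝ) ≤ _ := Nat.cast_le.2 b3
        push_cast at b5
        linarith)
    rw [nsmul_eq_mul] at this
    linarith
  have s2 : ∀ w ∈ W, ∑ g ∈ X w, ∑ v ∈ (H w).filter (fun v => g v.1 ≠ v.2),
      (2 * (if lin e Y g w v then 1 else 0) +
        2 / e * (((cdS Y w g).filter fun u => meet (hl (v - w)) u).card : ℝ))
      ≤ 1 / 50 * (x * ((H w).card : ℝ)) + 2 / e * (Z ^ 4 * x * ((H w).card + k * (2 * s))) := by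
    intro w hw
    simp only [sum_add_distrib, ← mul_sum]
    refine add_le_add ?_ (mul_le_mul_of_nonneg_left ?_ (by positivity))
    · have b1 : ∑ g ∈ X w, ∑ v ∈ (H w).filter (fun v => g v.1 ≠ v.2),
          (if lin e Y g w v then (1 : ℝ) else 0)
          ≤ ∑ g ∈ X w, ∑ v ∈ H w, (if lin e Y g w v then (1 : ℝ) else 0) :=
        sum_le_sum fun g _ => sum_le_sum_of_subset_of_nonneg (filter_subset _ _)
          fun v _ _ => by split_ifs <;> norm_num
      rw [sum_comm (s := X w) (t := H w)] at b1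
      have b2 := sum_le_card_nsmul (H w)
        (fun v => ∑ g ∈ X w, if lin e Y g w v then (1 : ℝ) else 0) (x / 100) (fun v hv => by
          rw [sum_boole]
          have : (_ : ℝ) ≤ _ := Nat.cast_le.2 ((hH w hw).2.2.2.2 v hv)
          push_cast at this
          linarith)
      rw [nsmul_eq_mul] at b2
      linarith
    · have hnb : ∀ g ∈ X w, cdS Y w g ⊆ lns (nb A B w) w := by
        intro g hg l hl'
        obtain ⟨q, hq, rfl⟩ := mem_image.1 hl'
        have := hF g (hP.subG w hw hg)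
        exact mem_lns.2 ⟨_, this.1.mem_nb (hgw w hw g hg) (this.2.1 (mem_of_mem_erase hq))
          (this.2.2.1 q (mem_of_mem_erase hq)) (ne_of_mem_erase hq), rfl⟩
      have hxc : ((X w).card : ℝ) = x := by rw [hP.card w hw]
      have b1 := g2 (k := k) (s₂ := 2 * s) hZ hG hlog (X w) pt
        (fun g hg g' hg' e => (hM w hw g hg).ext_pt (hM w hw g' hg')
          ((hgw w hw g hg).trans (hgw w hw g' hg').symm) e)
        (fun g hg => (hM w hw g hg).finrank_pt) (cdS Y w)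
        (fun g hg => ⟨(dim_lns subset_rfl).mono (hnb g hg), le_trans (Nat.cast_le.2
          (card_image_le.trans card_erase_le)) (hY g (hP.subG w hw hg)), fun l hl' => by
            obtain ⟨q, hq, rfl⟩ := mem_image.1 hl'
            exact ((hM w hw g hg).le_hl_iff (hgw w hw g hg)).2 rfl⟩)
        (by
          have c1 : ((X w).biUnion (cdS Y w)).card ≤ (A ×ˢ B).card :=
            (card_le_card (biUnion_subset.2 hnb)).trans
              (card_image_le.trans (card_le_card (filter_subset _ _)))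
          have c2 : (_ : ℝ) ≤ _ := Nat.cast_le.2 c1
          linarith)
        (by rwa [hxc]) (lns (H w) w) (dim_lns (hH1 w hw)) (hH w hw).2.2.1 (hH w hw).2.2.2.1 hk
        (by linarith) (by rwa [hxc]) (by rwa [hxc])
      rw [hxc, show (lns (H w) w).card = (H w).card from card_image_of_injOn (hH w hw).2.1] at b1
      refine le_trans (le_of_eq ?_) b1
      push_cast
      refine sum_congr rfl fun g hg => ?_
      unfold lns
      rw [filter_image, sum_image fun a ha b hb =>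
        (hH w hw).2.1 (mem_filter.1 ha).1 (mem_filter.1 hb).1]
      refine sum_congr (filter_congr fun v _ => ?_) fun _ _ => rfl
      exact ((hM w hw g hg).le_hl_iff (hgw w hw g hg)).not.symm
  have s3 := sum_le_sum s1
  have s4 := sum_le_sum s2
  rw [cd_swap hP H hH1 fun _ _ _ => (1 : ℝ)] at s3
  rw [cd_swap hP H hH1 fun g w v => (2 * (if lin e Y g w v then 1 else 0) +
    2 / e * (((cdS Y w g).filter fun u => meet (hl (v - w)) u).card : ℝ))] at s4
  have s5 := sum_le_sum (s := (G ×ˢ (A ×ˢ B)).filter (fun z => z.1 z.2.1 ≠ z.2.2))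
    fun z hz => cd_one (Y := Y) (X := X) hH1
      (hF z.1 (mem_product.1 (mem_filter.1 hz).1).1).1 (mem_filter.1 hz).2 he
  rw [sum_add_distrib (f := fun _ => e ^ 2 + 1), sum_const, nsmul_eq_mul] at s5
  have s6 : (((G ×ˢ (A ×ˢ B)).filter (fun z => z.1 z.2.1 ≠ z.2.2)).card : ℝ)
      ≤ G.card * m ^ 2 := by
    have c1 := card_le_card (filter_subset (fun z : (V3 → V3) × V6 => z.1 z.2.1 ≠ z.2.2)
      (G ×ˢ (A ×ˢ B)))
    rw [card_product] at c1
    have c2 : (_ : ℝ) ≤ _ := Nat.cast_le.2 c1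
    push_cast at c2
    exact c2.trans (by gcongr)
  have s7 := mul_le_mul_of_nonneg_right s6 (by positivity : 0 ≤ e ^ 2 + 1)
  simp only [sum_add_distrib (s := W), ← mul_sum, sum_const, nsmul_eq_mul] at s3 s4
  simp only [sum_const, nsmul_eq_mul] at s5
  have s8 : 0 ≤ x * ∑ w ∈ W, ((H w).card : ℝ) := by positivity
  linarith

end Vale.Agent.P054
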