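import Vale.Agent.P054.Rich
import Vale.Agent.P054.Cells

/-!
Reduction of very rich motions to a smaller scale.
-/

namespace Vale.Agent.P054

open Finset Module
open scoped Classical

/-- Two heavy collinear parts that are not on a common line. -/
def redDeg (c : ℝ) (Y : Finset V3) : Prop :=
  ∃ T₁ ⊆ Y, ∃ T₂ ⊆ Y, Col T₁ ∧ Col T₂ ∧ ¬ Col (T₁ ∪ T₂) ∧ c ≤ (T₁.card : ℝ) ∧ c ≤ (T₂.card : ℝ)

theorem red_bad {Y : Finset V3} (f : V3 → ℕ × ℕ) {ζ u : ℝ} (hζ : 0 < ζ) (hc : 2 ≤ 8 * u / ζ)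
    (hY : ND ζ Y) (hD : ¬ redDeg (8 * u / ζ) Y) (I : Finset (ℕ × ℕ))
    (hI : ∀ z ∈ I, u ≤ ((Y.filter fun p => f p = z).card : ℝ) ∧
      ¬ ND (ζ / 8) (Y.filter fun p => f p = z)) :
    ∑ z ∈ I, ((Y.filter fun p => f p = z).card : ℝ) ≤ Y.card / 8 := by
  have key : ∀ z ∈ I, ∃ T ⊆ Y.filter fun p => f p = z, Col T ∧ 8 * u / ζ ≤ (T.card : ℝ) ∧
      ((Y.filter fun p => f p = z).card : ℝ) ≤ ζ / 8 * T.card := by
    intro z hz
    obtain ⟨h1, h2⟩ := hI z hz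
    simp only [ND, not_forall, not_le] at h2
    obtain ⟨T, hT, hC, h3⟩ := h2
    refine ⟨T, hT, hC, ?_, h3.le⟩
    rw [div_le_iff₀ hζ]
    linarith
  rcases I.eq_empty_or_nonempty with rfl | ⟨z₀, hz₀⟩
  · rw [sum_empty]; positivity
  obtain ⟨T₀, hT₀, hC₀, h₀, -⟩ := key z₀ hz₀
  have h1 : 1 < T₀.card := by
    have : (2 : ℝ) ≤ T₀.card := hc.trans h₀
    exact_mod_cast this
  obtain ⟨p, hp, q, hq, hpq⟩ := one_lt_card.1 h1
  have hT₀' : T₀ ⊆ Y := hT₀.trans (filter_subset _ _)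
  have h2 : ∀ z ∈ I, ((Y.filter fun p => f p = z).card : ℝ) ≤
      ζ / 8 * ((ln Y p q).filter fun p => f p = z).card := by
    intro z hz
    obtain ⟨T, hT, hC, h3, h4⟩ := key z hz
    have hT' : T ⊆ Y := hT.trans (filter_subset _ _)
    have h5 : Col (T₀ ∪ T) := by
      by_contra h6
      exact hD ⟨T₀, hT₀', T, hT', hC₀, hC, h6, h₀, h3⟩
    have h6 := h5.subset_ln (union_subset hT₀' hT') (mem_union_left _ hp) (mem_union_left _ hq) hpq
    refine h4.trans (mul_le_mul_of_nonneg_left (Nat.cast_le.2 (card_le_card fun x hx => ?_))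
      (by positivity))
    exact mem_filter.2 ⟨h6 (mem_union_right _ hx), (mem_filter.1 (hT hx)).2⟩
  refine (sum_le_sum h2).trans ?_
  rw [← mul_sum, ← Nat.cast_sum, sum_card_fiberwise_eq_card_filter]
  have h3 : (((ln Y p q).filter fun i => f i ∈ I).card : ℝ) ≤ (ln Y p q).card :=
    Nat.cast_le.2 (card_filter_le _ _)
  have h4 := hY _ (ln_subset Y p q) (col_ln Y p q)
  nlinarith

theorem red_split {Y : Finset V3} (f : V3 → ℕ × ℕ) {ζ u N : ℝ} (hζ : 0 < ζ) (hc : 2 ≤ 8 * u / ζ)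
    (hu : 0 ≤ u) (hY : ND ζ Y) (hD : ¬ redDeg (8 * u / ζ) Y) (hN : ((Y.image f).card : ℝ) ≤ N)
    (hNu : 4 * N * u ≤ Y.card) {Λ : Finset (ℕ × ℕ)} (hΛ : Y.image f ⊆ Λ) :
    (Y.card : ℝ) ^ 2 ≤ 4 * N * ∑ z ∈ Λ,
      if u ≤ ((Y.filter fun p => f p = z).card : ℝ) ∧ ND (ζ / 8) (Y.filter fun p => f p = z)
        then ((Y.filter fun p => f p = z).card : ℝ) ^ 2 else 0 := by
  obtain ⟨n, hn⟩ : ∃ n : ℕ × ℕ → ℝ, ∀ z, ((Y.filter fun p => f p = z).card : ℝ) = n z :=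
    ⟨_, fun _ => rfl⟩
  obtain ⟨P, hP⟩ : ∃ P : ℕ × ℕ → Prop, ∀ z, ND (ζ / 8) (Y.filter fun p => f p = z) = P z :=
    ⟨_, fun _ => rfl⟩
  have h0 : ∀ z, 0 ≤ n z := fun z => hn z ▸ Nat.cast_nonneg _
  have h1 := red_bad f hζ hc hY hD ((Y.image f).filter fun z => u ≤ n z ∧ ¬ P z)
    fun z hz => by rw [hn, hP]; exact (mem_filter.1 hz).2
  have h2 : (Y.card : ℝ) = ∑ z ∈ Y.image f, n z := by
    rw [card_eq_sum_card_image f Y, Nat.cast_sum]
    exact sum_congr rfl fun z _ => hn z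
  simp only [hn, hP] at h1 ⊢
  have h3 : ∑ z ∈ Y.image f, n z ≤ ∑ z ∈ Y.image f, ((if u ≤ n z ∧ P z then n z else 0) +
      (if u ≤ n z ∧ ¬ P z then n z else 0) + u) := sum_le_sum fun z _ => by
    by_cases a : u ≤ n z
    · by_cases b : P z <;> simp [a, b, hu]
    · simpa [a] using (not_le.1 a).le
  rw [sum_add_distrib, sum_add_distrib, ← h2, sum_const, nsmul_eq_mul,
    ← sum_filter (fun z => u ≤ n z ∧ ¬ P z)] at h3
  have h4 := mul_le_mul_of_nonneg_right hN hu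
  have h5 := sq_sum_le_card_mul_sum_sq (s := Y.image f)
    (f := fun z => if u ≤ n z ∧ P z then n z else 0)
  have h6 : ∑ z ∈ Y.image f, (if u ≤ n z ∧ P z then n z else 0) ^ 2 ≤
      ∑ z ∈ Λ, if u ≤ n z ∧ P z then n z ^ 2 else 0 := by
    refine le_trans (sum_le_sum fun z _ => ?_)
      (sum_le_sum_of_subset_of_nonneg hΛ fun z _ _ => by positivity)
    split_ifs <;> simp
  have h7 : (Y.card : ℝ) ^ 2 ≤ (2 * ∑ z ∈ Y.image f, if u ≤ n z ∧ P z then n z else 0) ^ 2 :=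
    pow_le_pow_left₀ (by positivity) (by linarith [(Nat.cast_nonneg Y.card : (0 : ℝ) ≤ _)]) 2
  have h8 := mul_le_mul hN h6 (by positivity) ((Nat.cast_nonneg _).trans hN)
  linarith

theorem red_good {Z Θ m ζ s : ℝ} (hZ : 10 ^ 20 ≤ Z) (hm : Z ≤ m) (hζ : 0 < ζ)
    (h : RB Θ (2 * m / Z) (ζ / 8)) {A B : Finset V3} (hA : (A.card : ℝ) ≤ m)
    (hB : (B.card : ℝ) ≤ m) (hs : 0 < s) (h1 : Z ^ 2 * m ^ 2 ≤ s ^ 3)
    (hc : 2 ≤ 8 * (s / (18000 * Z)) / ζ) {G : Finset (V3 → V3)}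
    {Y : (V3 → V3) → Finset V3} (hF : Fam A B ζ s G Y)
    (hD : ∀ g ∈ G, ¬ redDeg (8 * (s / (18000 * Z)) / ζ) (Y g)) :
    (G.card : ℝ) * s ^ 3 ≤ 10 ^ 10 * Z ^ 4 * Θ := by
  have hZ0 : 0 < Z := lt_of_lt_of_le (by norm_num) hZ
  have hm0 : 0 < m := hZ0.trans_le hm
  have hmZ : 1 ≤ m / Z := (one_le_div hZ0).2 hm
  have hΘ : 0 ≤ Θ := h.nonneg (by positivity)
  have ht : 1 ≤ ⌈m / Z⌉₊ := Nat.ceil_pos.2 (by positivity)
  have ht1 : (⌈m / Z⌉₊ : ℝ) ≤ 2 * m / Z := by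
    rw [mul_div_assoc]
    linarith [Nat.ceil_lt_add_one (by positivity : 0 ≤ m / Z)]
  have ht2 : ∀ a : ℕ, (a : ℝ) ≤ m → ((a / ⌈m / Z⌉₊ + 1 : ℕ) : ℝ) ≤ 2 * Z := fun a ha => by
    have h2 : (a : ℝ) / ⌈m / Z⌉₊ ≤ m / (m / Z) :=
      div_le_div₀ hm0.le ha (by positivity) (Nat.le_ceil _)
    rw [div_div_cancel₀ hm0.ne'] at h2
    push_cast
    linarith [Nat.cast_div_le (α := ℝ) (m := a) (n := ⌈m / Z⌉₊)]
  obtain ⟨la, lb, a0, b0, a1, b1, hC⟩ := cells A B _ ht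
  generalize ⌈m / Z⌉₊ = t at ht1 ht2 a0 b0 a1 b1 hC
  obtain ⟨u, hu⟩ : ∃ u, s / (18000 * Z) = u := ⟨_, rfl⟩
  have hu' : s = 18000 * Z * u := by rw [← hu]; field_simp
  have hu0 : 0 < u := hu ▸ by positivity
  rw [hu] at hc hD
  have hmu : (2 * m / Z) ^ 2 ≤ u ^ 3 := by
    rw [div_pow, div_le_iff₀ (by positivity)]
    have h2 : Z * (18000 ^ 3 * (2 * m) ^ 2) ≤ Z * (18000 ^ 3 * (u ^ 3 * Z ^ 2)) := by
      have h3 := mul_le_mul_of_nonneg_right hZ (by positivity : 0 ≤ Z * m ^ 2)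
      have h4 : 0 ≤ Z * m ^ 2 := by positivity
      rw [hu'] at h1
      linarith
    exact le_of_mul_le_mul_left (le_of_mul_le_mul_left h2 hZ0) (by norm_num)
  have hu1 : 1 ≤ u := by
    refine (one_le_pow_iff_of_nonneg hu0.le three_ne_zero).1 (le_trans ?_ hmu)
    rw [mul_div_assoc]
    nlinarith
  have e1 : ∀ g ∈ G, s ^ 2 ≤ 4 * (4500 * Z) *
      ∑ z ∈ range (A.card / t + 1) ×ˢ range (B.card / t + 1),
        if u ≤ (((Y g).filter fun p => (la p, lb (g p)) = z).card : ℝ) ∧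
          ND (ζ / 8) ((Y g).filter fun p => (la p, lb (g p)) = z)
        then (((Y g).filter fun p => (la p, lb (g p)) = z).card : ℝ) ^ 2 else 0 := by
    intro g hg
    obtain ⟨g1, g2, g3, g4, g5⟩ := hF g hg
    refine (pow_le_pow_left₀ hs.le g5 2).trans (red_split (fun p => (la p, lb (g p))) hζ hc hu0.le
      g4 (hD g hg) ?_ (by linarith) ?_)
    · have h2 := hC ((Y g).image fun p => (p, g p))
        (fun w hw => by
          obtain ⟨p, hp, rfl⟩ := mem_image.1 hw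
          exact mem_product.2 ⟨g2 hp, g3 p hp⟩)
        (fun w hw v hv => by
          obtain ⟨p, -, rfl⟩ := mem_image.1 hw
          obtain ⟨q, -, rfl⟩ := mem_image.1 hv
          exact g1.null rfl rfl)
      rw [image_image] at h2
      refine (Nat.cast_le.2 h2).trans ?_
      rw [Nat.cast_mul, Nat.cast_add, Nat.cast_ofNat]
      linarith [ht2 _ hA, ht2 _ hB]
    · intro z hz
      obtain ⟨p, hp, rfl⟩ := mem_image.1 hz
      exact mem_product.2 ⟨mem_range.2 (Nat.lt_succ_of_le (a0 _ (g2 hp))),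
        mem_range.2 (Nat.lt_succ_of_le (b0 _ (g3 p hp)))⟩
  have e2 : ∀ z : ℕ × ℕ, (∑ g ∈ G,
      if u ≤ (((Y g).filter fun p => (la p, lb (g p)) = z).card : ℝ) ∧
          ND (ζ / 8) ((Y g).filter fun p => (la p, lb (g p)) = z)
        then (((Y g).filter fun p => (la p, lb (g p)) = z).card : ℝ) ^ 2 else 0) ≤ 3 * Θ / u := by
    intro z
    rw [← sum_filter]
    refine richSum2 h (A := A.filter fun a => la a = z.1) (B := B.filter fun b => lb b = z.2)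
      ((Nat.cast_le.2 (a1 _)).trans ht1) ((Nat.cast_le.2 (b1 _)).trans ht1) hu1 hmu
      (Y := fun g => (Y g).filter fun p => (la p, lb (g p)) = z) fun g hg => ?_
    obtain ⟨hg, g6, g7⟩ := mem_filter.1 hg
    obtain ⟨g1, g2, g3, -, -⟩ := hF g hg
    exact ⟨g1, fun p hp => mem_filter.2 ⟨g2 (mem_filter.1 hp).1,
      congrArg Prod.fst (mem_filter.1 hp).2⟩, fun p hp => mem_filter.2
        ⟨g3 p (mem_filter.1 hp).1, congrArg Prod.snd (mem_filter.1 hp).2⟩, g7, g6⟩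
  have e3 := sum_le_sum e1
  rw [sum_const, nsmul_eq_mul, ← mul_sum, sum_comm] at e3
  have e4 := sum_le_sum fun z (_ : z ∈ range (A.card / t + 1) ×ˢ range (B.card / t + 1)) => e2 z
  rw [sum_const, nsmul_eq_mul, card_product, card_range, card_range, Nat.cast_mul] at e4
  have e5 := mul_le_mul_of_nonneg_right
    (mul_le_mul (ht2 _ hA) (ht2 _ hB) (Nat.cast_nonneg _) (by positivity))
    (by positivity : 0 ≤ 3 * Θ / u)
  have e6 := mul_le_mul_of_nonneg_right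
    (e3.trans (mul_le_mul_of_nonneg_left (e4.trans e5) (by positivity))) hs.le
  have e7 : 4 * (4500 * Z) * (2 * Z * (2 * Z) * (3 * Θ / u)) * s
      = 12 * 18000 ^ 2 * (Z ^ 4 * Θ) := by
    rw [hu']; field_simp; ring
  have e8 : 0 ≤ Z ^ 4 * Θ := by positivity
  linarith

/-- Hint: `cells` with `t = ⌈m / Z⌉₊`: at most `2 Z` labels on each side, at most `4500 Z` groups
per motion, `s' = s / (18000 Z)`. Groups below `s'` carry at most a quarter of `Y g`. If the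
groups that are not `ND (ζ / 8)` carry at least a quarter, two of their collinear parts are not
on a common line and `degen` applies with `c = s / (2250 Z ζ)`. Otherwise `richSum2` in each pair
of cells. -/
theorem reduce {Z Θ m ζ s : ℝ} (hZ : 10 ^ 20 ≤ Z) (hm : Z ^ 40 ≤ m) (hζ : 8 ≤ ζ)
    (hζ' : ζ ≤ Z ^ 5) (h : RB Θ (2 * m / Z) (ζ / 8)) {A B : Finset V3} (hA : (A.card : ℝ) ≤ m)
    (hB : (B.card : ℝ) ≤ m) (hs : 0 < s) (h1 : Z ^ 2 * m ^ 2 ≤ s ^ 3) {G : Finset (V3 → V3)}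
    {Y : (V3 → V3) → Finset V3} (hF : Fam A B ζ s G Y) :
    (G.card : ℝ) * s ^ 3 ≤ 10 ^ 10 * Z ^ 4 * Θ + Z ^ 19 * m ^ 4 := by
  have hZ1 : 1 ≤ Z := le_trans (by norm_num) hZ
  have hZ0 : 0 < Z := zero_lt_one.trans_le hZ1
  have hζ0 : 0 < ζ := by linarith
  have hmZ : Z ≤ m := (le_self_pow₀ hZ1 (by norm_num)).trans hm
  have hm0 : 0 < m := hZ0.trans_le hmZ
  obtain ⟨c, hc⟩ : ∃ c, 8 * (s / (18000 * Z)) / ζ = c := ⟨_, rfl⟩
  have hc0 : 0 < c := hc ▸ by positivity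
  have hs' : s = 2250 * Z * ζ * c := by rw [← hc]; field_simp; norm_num
  have h2 : s ^ 3 ≤ 2250 ^ 3 * Z ^ 18 * c ^ 3 := by
    calc s ^ 3 ≤ (2250 * Z * Z ^ 5 * c) ^ 3 := by rw [hs']; gcongr
      _ = _ := by ring
  have h3 : 4 * m ≤ c ^ 2 := by
    refine le_of_pow_le_pow_left₀ three_ne_zero (by positivity) ?_
    have h4 := pow_le_pow_left₀ (by positivity) (h1.trans h2) 2
    have h5 : (10 ^ 20) ^ 2 ≤ Z ^ 8 :=
      (pow_le_pow_left₀ (by norm_num) hZ 2).trans (pow_le_pow_right₀ hZ1 (by norm_num))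
    have h6 := mul_le_mul_of_nonneg_right hm (by positivity : 0 ≤ Z ^ 4 * m ^ 3)
    have h7 := mul_le_mul_of_nonneg_right h5 (by positivity : 0 ≤ Z ^ 36 * m ^ 3)
    have h8 : 0 ≤ Z ^ 36 * m ^ 3 := by positivity
    have h9 : Z ^ 36 * (2250 ^ 6 * (4 * m) ^ 3) ≤ Z ^ 36 * (2250 ^ 6 * (c ^ 2) ^ 3) := by linarith
    exact le_of_mul_le_mul_left (le_of_mul_le_mul_left h9 (by positivity)) (by norm_num)
  have h4 : 2 ≤ c := le_of_pow_le_pow_left₀ two_ne_zero hc0.le (by linarith)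
  have e1 := degen hA hB h3 h4 (G.filter fun g => redDeg c (Y g)) fun g hg => by
    obtain ⟨hg, T₁, a1, T₂, a2, a3, a4, a5, a6, a7⟩ := mem_filter.1 hg
    obtain ⟨g1, g2, g3, -, -⟩ := hF g hg
    exact ⟨g1, T₁, a1.trans g2, T₂, a2.trans g2, a3, a4, a5, a6, a7,
      fun p hp => g3 p (union_subset a1 a2 hp)⟩
  have e2 := red_good hZ hmZ hζ0 h hA hB hs h1 (hc ▸ h4)
    (G := G.filter fun g => ¬ redDeg c (Y g)) (fun g hg => hF g (mem_filter.1 hg).1)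
    fun g hg => hc ▸ (mem_filter.1 hg).2
  rw [← card_filter_add_card_filter_not (fun g => redDeg c (Y g)), Nat.cast_add, add_mul, add_comm]
  refine add_le_add e2 ?_
  have e3 := mul_le_mul_of_nonneg_left h2
    (Nat.cast_nonneg (α := ℝ) (G.filter fun g => redDeg c (Y g)).card)
  have e4 := mul_le_mul_of_nonneg_left e1 (by positivity : 0 ≤ 2250 ^ 3 * Z ^ 18)
  have e5 := mul_le_mul_of_nonneg_right hZ (by positivity : 0 ≤ Z ^ 18 * m ^ 4)
  have e6 : 0 ≤ Z ^ 18 * m ^ 4 := by positivity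
  linarith

end Vale.Agent.P054
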