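import Vale.Agent.P054.CritA
import Vale.Agent.P054.CritB
import Vale.Agent.P054.CritC
import Vale.Agent.P054.CritD
import Vale.Agent.P054.Red

/-!
The critical range and the induction on scales.
-/

namespace Vale.Agent.P054

open Finset Module
open scoped Classical

theorem crit_num {Z Θ m ζ s x u M w S S' : ℝ} (hZ : 10 ^ 20 ≤ Z) (hm : 1 ≤ m) (hζ : Z ^ 4 ≤ ζ)
    (hζ' : ζ ≤ Z ^ 5) (hΘ : Z ^ 60 * m ^ 4 ≤ Θ) (hs : 0 < s) (h1 : m ^ 2 ≤ s ^ 3)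
    (hx : Z ^ 56 * s ≤ x) (hu : 0 < u) (huu : u ^ 2 = x * s) (hM0 : 0 ≤ M)
    (hM : 3 * Θ / 8 ≤ M * s ^ 3) (hbig : M * s ≤ 20 * Z * x * w) (hS : w * (s * u) ≤ Z ^ 2 * S)
    (hC : S ≤ S' + 8 * m ^ 4 / u + 6 * Θ / (ζ * u))
    (hD : x * S' ≤ 2 * (((ζ * Z ^ 7) ^ 2 + 1) * M * m ^ 2 +
      2 / (ζ * Z ^ 7) * (Z ^ 4 * x * (S' + ζ * u * (2 * s) * w)))) : False := by
  have hZ1 : 1 ≤ Z := le_trans (by norm_num) hZ
  have hZ0 : 0 < Z := by linarith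
  have hm0 : 0 < m := by linarith
  have hζ1 : 1 ≤ ζ := le_trans (one_le_pow₀ hZ1) hζ
  have hζ0 : 0 < ζ := by linarith
  have hx0 : 0 < x := lt_of_lt_of_le (by positivity) hx
  have hΘ0 : 0 < Θ := lt_of_lt_of_le (by positivity) hΘ
  have a1 : 3 * Θ / 8 ≤ 20 * Z ^ 3 * (u * S) := by
    calc _ ≤ M * s * s ^ 2 := by linarith [show M * s ^ 3 = M * s * s ^ 2 by ring]
      _ ≤ 20 * Z * x * w * s ^ 2 := by gcongr
      _ = 20 * Z * u * (w * (s * u)) := by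
        rw [show 20 * Z * u * (w * (s * u)) = 20 * Z * w * s * u ^ 2 by ring, huu]; ring
      _ ≤ 20 * Z * u * (Z ^ 2 * S) := by gcongr
      _ = _ := by ring
  have huS : 0 < u * S := by
    by_contra hc
    push Not at hc
    have : 20 * Z ^ 3 * (u * S) ≤ 0 := mul_nonpos_of_nonneg_of_nonpos (by positivity) hc
    linarith
  have hS0 : 0 < S := pos_of_mul_pos_right huS hu.le
  have a2 : 24 * Θ ≤ ζ * (u * S) := by
    have : 1280 * Z ^ 3 ≤ ζ := by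
      refine le_trans ?_ hζ
      rw [show Z ^ 4 = Z * Z ^ 3 by ring]
      gcongr; linarith
    have := mul_le_mul_of_nonneg_right this huS.le
    linarith
  have a3 : 6 * Θ / (ζ * u) ≤ S / 4 := by
    rw [div_le_iff₀ (by positivity)]; linarith
  have a4 : 8 * m ^ 4 / u ≤ S / 4 := by
    rw [div_le_iff₀ hu]
    have b1 : 32 * Z ^ 5 * m ^ 4 ≤ 24 * Θ := by
      have : Z ^ 5 * 2 ≤ Z ^ 60 := by
        rw [show Z ^ 60 = Z ^ 5 * Z ^ 55 by ring]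
        gcongr
        exact le_trans (by linarith) (le_self_pow₀ hZ1 (by norm_num))
      have b2 : Z ^ 5 * 2 * m ^ 4 ≤ Z ^ 60 * m ^ 4 := by gcongr
      have b3 : 0 ≤ Z ^ 5 * m ^ 4 := by positivity
      linarith
    have b2 : ζ * (u * S) ≤ Z ^ 5 * (u * S) := by gcongr
    have b3 : Z ^ 5 * (32 * m ^ 4) ≤ Z ^ 5 * (u * S) := by linarith
    have := le_of_mul_le_mul_left b3 (by positivity)
    linarith
  have a5 : S ≤ 2 * S' := by linarith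
  have hS' : 0 < S' := by linarith
  have a6 : Z ^ 28 * m ^ 2 ≤ s ^ 2 * u := by
    refine (pow_le_pow_iff_left₀ (by positivity) (by positivity) two_ne_zero).1 ?_
    calc (Z ^ 28 * m ^ 2) ^ 2 = Z ^ 56 * (m ^ 2) ^ 2 := by ring
      _ ≤ Z ^ 56 * (s ^ 3) ^ 2 := by gcongr
      _ = Z ^ 56 * s * s ^ 5 := by ring
      _ ≤ x * s ^ 5 := by gcongr
      _ = _ := by rw [mul_pow, huu]; ring
  have a7 : 2 * (((ζ * Z ^ 7) ^ 2 + 1) * M * m ^ 2) ≤ x * S' / 4 := by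
    have b1 : (ζ * Z ^ 7) ^ 2 + 1 ≤ 2 * Z ^ 24 := by
      have : (ζ * Z ^ 7) ^ 2 ≤ (Z ^ 5 * Z ^ 7) ^ 2 := by gcongr
      have := one_le_pow₀ (n := 24) hZ1
      linarith [show (Z ^ 5 * Z ^ 7) ^ 2 = Z ^ 24 by ring]
    have b2 : M * (s ^ 2 * u) ≤ 20 * Z ^ 3 * (x * S) := by
      calc _ = M * s * (s * u) := by ring
        _ ≤ 20 * Z * x * w * (s * u) := by gcongr
        _ = 20 * Z * x * (w * (s * u)) := by ring
        _ ≤ 20 * Z * x * (Z ^ 2 * S) := by gcongr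
        _ = _ := by ring
    have b3 : M * (Z ^ 28 * m ^ 2) ≤ M * (s ^ 2 * u) := by gcongr
    have b4 : Z ^ 3 * (640 * Z ^ 24 * (M * m ^ 2)) ≤ Z ^ 3 * (20 * (x * S)) := by
      calc _ = 640 * (Z ^ 27 * (M * m ^ 2)) := by ring
        _ ≤ Z * (Z ^ 27 * (M * m ^ 2)) := by gcongr; linarith
        _ = M * (Z ^ 28 * m ^ 2) := by ring
        _ ≤ _ := by linarith
    have b5 := le_of_mul_le_mul_left b4 (by positivity)
    have b6 : ((ζ * Z ^ 7) ^ 2 + 1) * (M * m ^ 2) ≤ 2 * Z ^ 24 * (M * m ^ 2) := by gcongr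
    have b7 : x * S ≤ x * (2 * S') := by gcongr
    linarith
  have a8 : 2 * (2 / (ζ * Z ^ 7) * (Z ^ 4 * x * (S' + ζ * u * (2 * s) * w))) ≤ x * S' / 4 := by
    have b1 : S' + ζ * u * (2 * s) * w ≤ 5 * ζ * Z ^ 2 * S' := by
      have c1 : ζ * u * (2 * s) * w ≤ 2 * ζ * (Z ^ 2 * (2 * S')) := by
        calc _ = 2 * ζ * (w * (s * u)) := by ring
          _ ≤ 2 * ζ * (Z ^ 2 * S) := by gcongr
          _ ≤ _ := by gcongr
      have c2 : 1 ≤ ζ * Z ^ 2 := one_le_mul_of_one_le_of_one_le hζ1 (one_le_pow₀ hZ1)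
      have c3 := mul_le_mul_of_nonneg_right c2 hS'.le
      linarith
    calc _ ≤ 2 * (2 / (ζ * Z ^ 7) * (Z ^ 4 * x * (5 * ζ * Z ^ 2 * S'))) := by gcongr
      _ = 20 / Z * (x * S') := by field_simp; ring
      _ ≤ 1 / 4 * (x * S') := by
        refine mul_le_mul_of_nonneg_right ?_ (by positivity)
        rw [div_le_iff₀ hZ0]; linarith
      _ = _ := by ring
  have : 0 < x * S' := by positivity
  linarith

/-- Hint: `u = √(x s)`, `e = ζ Z⁷`, `k = ζ u`. -/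
theorem crit {Z N Θ m ζ s : ℝ} (hZ : 10 ^ 20 ≤ Z) (hG : GProp Z N) (hlog : LogB Z N)
    (hm : Z ^ 40 ≤ m) (hN : m ^ 6 ≤ N) (hζ : Z ^ 4 ≤ ζ) (hζ' : ζ ≤ Z ^ 5)
    (hΘ : Z ^ 60 * m ^ 4 ≤ Θ) (h : RB Θ m ζ) {A B : Finset V3} (hA : (A.card : ℝ) ≤ m)
    (hB : (B.card : ℝ) ≤ m) (hs : 0 < s) (h1 : m ^ 2 ≤ s ^ 3) (h2 : s ^ 3 ≤ Z ^ 2 * m ^ 2)
    {G : Finset (V3 → V3)} {Y : (V3 → V3) → Finset V3} (hF : Fam A B ζ s G Y) :
    (G.card : ℝ) * s ^ 3 ≤ Θ / 2 := by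
  by_contra hcon
  push Not at hcon
  have hZ1 : 1 ≤ Z := le_trans (by norm_num) hZ
  have hZ0 : 0 < Z := by linarith
  have hm1 : 1 ≤ m := le_trans (one_le_pow₀ hZ1) hm
  have hm0 : 0 < m := by linarith
  have hζ1 : Z ≤ ζ := le_trans (le_self_pow₀ hZ1 (by norm_num)) hζ
  set G₂ := G.filter fun g => 2 * s ≤ ((Y g).card : ℝ) with hG₂
  set G₁ := G.filter fun g => ¬ 2 * s ≤ ((Y g).card : ℝ) with hG₁
  have e1 : (G₂.card : ℝ) + G₁.card = G.card := by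
    exact_mod_cast card_filter_add_card_filter_not (s := G) _
  have e2 : (G₂.card : ℝ) * (2 * s) ^ 3 ≤ Θ :=
    h A B hA hB (2 * s) (by linarith) (by linarith [pow_pos hs 3, show (2 * s) ^ 3 = 8 * s ^ 3 by ring]) G₂ Y
      (hF.mono (filter_subset _ _) fun g hg => (mem_filter.1 hg).2)
  have hF1 : Fam A B ζ s G₁ Y :=
    hF.mono (filter_subset _ _) fun g hg => (hF g (mem_filter.1 hg).1).2.2.2.2
  have hY1 : ∀ g ∈ G₁, ((Y g).card : ℝ) ≤ 2 * s := fun g hg => (not_le.1 (mem_filter.1 hg).2).le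
  have hM : 3 * Θ / 8 ≤ G₁.card * s ^ 3 := by
    rw [← e1] at hcon
    linarith
  obtain ⟨x, W, X, hP⟩ := critA hZ hG hlog hm hN hζ hΘ hA hB hs h1 h2 hF1 hY1 hM
  have hW : (W.card : ℝ) ≤ m ^ 2 := by
    have := card_le_card hP.sub
    rw [card_product] at this
    have h' : (W.card : ℝ) ≤ A.card * B.card := by exact_mod_cast this
    refine h'.trans ?_
    rw [sq]; gcongr
  have hx : Z ^ 56 * s ≤ x := by
    have b1 : 3 * (Z ^ 60 * m ^ 4) / 8 ≤ 20 * Z * x * m ^ 2 * s ^ 2 := by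
      calc _ ≤ G₁.card * s * s ^ 2 := by
            linarith [show (G₁.card : ℝ) * s ^ 3 = G₁.card * s * s ^ 2 by ring]
        _ ≤ 20 * Z * x * W.card * s ^ 2 := mul_le_mul_of_nonneg_right hP.big (by positivity)
        _ ≤ _ := by gcongr
    have b2 : Z ^ 58 * m ^ 2 * s ^ 3 ≤ Z ^ 58 * m ^ 2 * (Z ^ 2 * m ^ 2) := by gcongr
    have b3 : (Z * m ^ 2 * s ^ 2) * (160 * (Z ^ 56 * s)) ≤ (Z * m ^ 2 * s ^ 2) * (160 * x) := by
      calc _ = 160 * (Z ^ 57 * m ^ 2 * s ^ 3) := by ring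
        _ ≤ (3 * Z) * (Z ^ 57 * m ^ 2 * s ^ 3) := by gcongr; linarith
        _ = 3 * (Z ^ 58 * m ^ 2 * s ^ 3) := by ring
        _ ≤ _ := by linarith
    have := le_of_mul_le_mul_left b3 (by positivity)
    linarith
  have hs2 : Z ^ 2 ≤ s := by
    refine (pow_le_pow_iff_left₀ (by positivity) hs.le (by norm_num : 3 ≠ 0)).1 ?_
    refine le_trans ?_ h1
    calc (Z ^ 2) ^ 3 = Z ^ 6 := by ring
      _ ≤ Z ^ 80 := pow_le_pow_right₀ hZ1 (by norm_num)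
      _ = (Z ^ 40) ^ 2 := by ring
      _ ≤ _ := by gcongr
  have hs3 : m ≤ s ^ 2 := by
    refine (pow_le_pow_iff_left₀ hm0.le (by positivity) (by norm_num : 3 ≠ 0)).1 ?_
    calc m ^ 3 ≤ m ^ 4 := pow_le_pow_right₀ hm1 (by norm_num)
      _ = (m ^ 2) ^ 2 := by ring
      _ ≤ (s ^ 3) ^ 2 := by gcongr
      _ = _ := by ring
  have hx4 : 4 * s ≤ x := by
    refine le_trans ?_ hx
    gcongr
    exact le_trans (by linarith) (le_self_pow₀ hZ1 (by norm_num))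
  have hx6 : Z ^ 6 * s ≤ x := 
    le_trans (mul_le_mul_of_nonneg_right (pow_le_pow_right₀ hZ1 (by norm_num)) hs.le) hx
  have hx0 : (0 : ℝ) < x := by linarith
  set u := √(x * s) with hu
  have hu0 : 0 < u := Real.sqrt_pos.2 (by positivity)
  have huu : u ^ 2 = x * s := Real.sq_sqrt (by positivity)
  have hZ2 : 8 ≤ Z ^ 2 := le_trans (by linarith) (le_self_pow₀ hZ1 (by norm_num : 2 ≠ 0))
  have hxs : 4 * s * s ≤ x * s := mul_le_mul_of_nonneg_right hx4 hs.le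
  have hus : 2 * s ≤ u := by
    refine (pow_le_pow_iff_left₀ (by positivity) hu0.le two_ne_zero).1 ?_
    rw [huu]; linarith
  have he8 : 8 * Z ^ 2 ≤ (ζ * Z ^ 7) ^ 2 := by
    have b1 : Z * Z ≤ ζ * Z ^ 7 := by
      exact mul_le_mul hζ1 (le_self_pow₀ hZ1 (by norm_num : 7 ≠ 0)) hZ0.le (by linarith)
    have b2 : (Z * Z) ^ 2 ≤ (ζ * Z ^ 7) ^ 2 := by gcongr
    have b3 : 8 * Z ^ 2 ≤ Z ^ 2 * Z ^ 2 := by gcongr
    linarith
  have he2 : 2 ≤ ζ * Z ^ 7 := by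
    have := le_mul_of_one_le_right (by linarith : 0 ≤ ζ) (one_le_pow₀ (n := 7) hZ1)
    linarith
  have hB' := fun w (hw : w ∈ W) => critB hZ hA hF1 hY1 hP hs2 hx6 h1 he8 hw
  choose! H hH1 hH2 hH3 hH4 using hB'
  have hζu : u ≤ ζ * u := le_mul_of_one_le_left hu0.le (by linarith)
  obtain ⟨H', hH', hC⟩ := critC h hA hB (by linarith) (u := u) (by linarith)
    (by rw [huu]; linarith) (h1.trans (by gcongr; linarith)) W hP.sub H hH1
  have hWne : W.Nonempty := by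
    rw [nonempty_iff_ne_empty]
    rintro rfl
    have b1 := hP.big
    have b2 : 0 < Θ := lt_of_lt_of_le (by positivity) hΘ
    simp only [card_empty, Nat.cast_zero, mul_zero] at b1
    have b3 := mul_le_mul_of_nonneg_right b1 (pow_pos hs 2).le
    linarith
  have hxN : (x : ℝ) ≤ N := by
    obtain ⟨w, hw⟩ := hWne
    have b1 := card_le_card (hP.subG w hw)
    rw [hP.card w hw] at b1
    have b2 := hF1.card_le (by linarith) hs
    have b3 : (x : ℝ) ≤ (A.card : ℝ) ^ 3 * (B.card : ℝ) ^ 3 := by exact_mod_cast b1.trans b2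
    refine b3.trans (le_trans ?_ hN)
    rw [show m ^ 6 = m ^ 3 * m ^ 3 by ring]
    gcongr
  have hD := critD (e := ζ * Z ^ 7) (k := ζ * u) hZ hG hlog hA hB hF1 hY1 hP H'
    (fun w hw => ⟨(hH' w hw).1.trans (hH1 w hw), (hH2 w hw).mono (coe_subset.2 (hH' w hw).1),
      (hH' w hw).2.1, (hH' w hw).2.2, fun v hv => hH4 w hw v ((hH' w hw).1 hv)⟩)
    he2 hs.le (by linarith) (by linarith)
    (by
      rw [mul_pow, huu]
      have : 2 ≤ ζ ^ 2 :=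
        le_trans (by linarith) (le_self_pow₀ (by linarith : 1 ≤ ζ) (by norm_num : 2 ≠ 0))
      have b : 0 < (x : ℝ) * s := by positivity
      have := mul_le_mul_of_nonneg_right this b.le
      linarith)
    (le_trans (by
      have : 2 ≤ m ^ 4 := by
        have b1 : Z ≤ m := le_trans (le_self_pow₀ hZ1 (by norm_num)) hm
        have b2 := le_self_pow₀ hm1 (by norm_num : 4 ≠ 0)
        linarith
      rw [show m ^ 6 = m ^ 4 * m ^ 2 by ring]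
      gcongr) hN) hxN
  have hS : W.card * (s * u) ≤ Z ^ 2 * ∑ w ∈ W, ((H w).card : ℝ) := by
    rw [mul_sum]
    have := card_nsmul_le_sum W (fun w => Z ^ 2 * ((H w).card : ℝ)) (s * u) (fun w hw => by
      refine (pow_le_pow_iff_left₀ (by positivity) (by positivity) two_ne_zero).1 ?_
      have := hH3 w hw
      rw [mul_pow, huu]
      linarith)
    rwa [nsmul_eq_mul] at this
  exact crit_num hZ hm1 hζ hζ' hΘ hs h1 hx hu0 huu (Nat.cast_nonneg _) hM hP.big hS hC hD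

theorem rb_halve {Θ₀ m ζ : ℝ} (hm : 0 ≤ m) (hζ : 1 < ζ) (h0 : 0 < Θ₀)
    (h : ∀ Θ, Θ₀ ≤ Θ → RB Θ m ζ → RB (Θ / 2) m ζ) : RB Θ₀ m ζ := by
  have key : ∀ i : ℕ, RB (max Θ₀ (m ^ 9 / 2 ^ i)) m ζ := by
    intro i
    induction i with
    | zero => exact (rb_triv hm hζ).mono (by simp)
    | succ i ih =>
      refine (h _ (le_max_left _ _) ih).mono ?_
      rw [div_le_iff₀ (by norm_num)]
      refine max_le ?_ ?_
      · have := le_max_left Θ₀ (m ^ 9 / 2 ^ (i + 1)); linarith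
      · have := le_max_right Θ₀ (m ^ 9 / 2 ^ (i + 1))
        have e : m ^ 9 / 2 ^ i = m ^ 9 / 2 ^ (i + 1) * 2 := by field_simp; ring
        linarith
  obtain ⟨i, hi⟩ := pow_unbounded_of_one_lt (m ^ 9 / Θ₀) (by norm_num : (1 : ℝ) < 2)
  refine (key i).mono (max_le le_rfl ?_)
  rw [div_lt_iff₀ h0] at hi
  rw [div_le_iff₀ (by positivity)]
  linarith

theorem levels {Z N : ℝ} (hZ : 10 ^ 20 ≤ Z) (hG : GProp Z N) (hlog : LogB Z N) (j : ℕ)
    (hj : (8 : ℝ) ^ j ≤ Z) {m : ℝ} (hm0 : 0 ≤ m) (hm : m ≤ Z ^ 40 * (Z / 2) ^ j)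
    (hN : m ^ 6 ≤ N) : RB (10 ^ (12 * j) * Z ^ 200 * m ^ 4) m (8 ^ j * Z ^ 4) := by
  have hZ1 : 1 ≤ Z := le_trans (by norm_num) hZ
  have hZ0 : 0 < Z := by linarith
  have hZ4 : 1 < Z ^ 4 := one_lt_pow₀ (by linarith) (by norm_num)
  have small : ∀ (j : ℕ) (m : ℝ), 0 ≤ m → m ≤ Z ^ 40 →
      RB (10 ^ (12 * j) * Z ^ 200 * m ^ 4) m (8 ^ j * Z ^ 4) := by
    intro j m hm0 hm
    have b0 : (1 : ℝ) ≤ 8 ^ j := one_le_pow₀ (by norm_num)
    refine (rb_triv hm0 (by nlinarith)).mono ?_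
    have b1 : m ^ 5 ≤ (Z ^ 40) ^ 5 := by gcongr
    have b2 : (1 : ℝ) ≤ 10 ^ (12 * j) := one_le_pow₀ (by norm_num)
    calc m ^ 9 = 1 * m ^ 5 * m ^ 4 := by ring
      _ ≤ 10 ^ (12 * j) * (Z ^ 40) ^ 5 * m ^ 4 := by gcongr
      _ = _ := by ring
  induction j generalizing m with
  | zero => exact small 0 m hm0 (by simpa using hm)
  | succ j ih =>
    rcases le_total m (Z ^ 40) with hs | hb
    · exact small _ m hm0 hs
    have hm1 : 1 ≤ m := le_trans (one_le_pow₀ hZ1) hb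
    have b0 : (1 : ℝ) ≤ 8 ^ j := one_le_pow₀ (by norm_num)
    have hm' : 2 * m / Z ≤ m := by rw [div_le_iff₀ hZ0]; nlinarith
    have ih' := ih (le_trans (by rw [pow_succ]; linarith) hj) (m := 2 * m / Z) (by positivity)
      (by
        rw [div_le_iff₀ hZ0]
        rw [pow_succ (Z / 2)] at hm
        linarith)
      (le_trans (by gcongr) hN)
    have hζa : Z ^ 4 ≤ 8 ^ (j + 1) * Z ^ 4 :=
      le_mul_of_one_le_left (by positivity) (one_le_pow₀ (by norm_num))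
    have hζb : 8 ^ (j + 1) * Z ^ 4 ≤ Z ^ 5 := by
      rw [show Z ^ 5 = Z * Z ^ 4 by ring]; gcongr
    have b2 : (1 : ℝ) ≤ 10 ^ (12 * j) := one_le_pow₀ (by norm_num)
    have e10 : (10 : ℝ) ^ (12 * (j + 1)) = 10 ^ 12 * 10 ^ (12 * j) := by ring
    refine rb_halve hm0 (by linarith) (by positivity) fun Θ hΘ hR => ?_
    intro A B hA hB s hs h1 G Y hF
    rcases le_total (s ^ 3) (Z ^ 2 * m ^ 2) with h2 | h2
    · refine crit hZ hG hlog hb hN hζa hζb (le_trans ?_ hΘ) hR hA hB hs h1 h2 hF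
      have c1 : Z ^ 60 ≤ Z ^ 200 := pow_le_pow_right₀ hZ1 (by norm_num)
      have c2 : (1 : ℝ) ≤ 10 ^ (12 * (j + 1)) := one_le_pow₀ (by norm_num)
      calc Z ^ 60 * m ^ 4 = 1 * Z ^ 60 * m ^ 4 := by ring
        _ ≤ _ := by gcongr
    · have e8 : 8 ^ j * Z ^ 4 = 8 ^ (j + 1) * Z ^ 4 / 8 := by ring
      rw [e8] at ih'
      have c0 : (8 : ℝ) ≤ 8 ^ (j + 1) * Z ^ 4 := by rw [pow_succ]; nlinarith
      refine (reduce hZ hb c0 hζb ih' hA hB hs h2 hF).trans ?_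
      have c1 : 10 ^ 10 * Z ^ 4 * (10 ^ (12 * j) * Z ^ 200 * (2 * m / Z) ^ 4)
          = 16 * 10 ^ 10 * (10 ^ (12 * j) * Z ^ 200 * m ^ 4) := by field_simp; ring
      have c2 : Z ^ 19 * m ^ 4 ≤ 10 ^ (12 * j) * Z ^ 200 * m ^ 4 := by
        have : Z ^ 19 ≤ Z ^ 200 := pow_le_pow_right₀ hZ1 (by norm_num)
        calc Z ^ 19 * m ^ 4 = 1 * Z ^ 19 * m ^ 4 := by ring
          _ ≤ _ := by gcongr
      rw [e10] at hΘ
      rw [c1]
      have c3 : 0 ≤ 10 ^ (12 * j) * Z ^ 200 * m ^ 4 := by positivity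
      generalize (10 : ℝ) ^ (12 * j) = T at *
      nlinarith

end Vale.Agent.P054
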