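import Vale.Agent.P054.Quat

/-!
First consequences of the bound for rich motions.
-/

namespace Vale.Agent.P054

open Finset Module
open scoped Classical

theorem Fam.mono {A B : Finset V3} {ζ s s' : ℝ} {G G' : Finset (V3 → V3)}
    {Y : (V3 → V3) → Finset V3} (h : Fam A B ζ s G Y) (hG : G' ⊆ G)
    (hs : ∀ g ∈ G', s' ≤ (Y g).card) : Fam A B ζ s' G' Y := by
  intro g hg
  obtain ⟨h1, h2, h3, h4, -⟩ := h g (hG hg)
  exact ⟨h1, h2, h3, h4, hs g hg⟩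

theorem Fam.card_le {A B : Finset V3} {ζ s : ℝ} {G : Finset (V3 → V3)}
    {Y : (V3 → V3) → Finset V3} (h : Fam A B ζ s G Y) (hζ : 1 < ζ) (hs : 0 < s) :
    G.card ≤ A.card ^ 3 * B.card ^ 3 := by
  have key : ∀ g ∈ G, ∃ t : V3 × V3 × V3, t.1 ∈ Y g ∧ t.2.1 ∈ Y g ∧ t.2.2 ∈ Y g ∧
      ¬ Col ({t.1, t.2.1, t.2.2} : Finset V3) := by
    intro g hg
    obtain ⟨-, -, -, h4, h5⟩ := h g hg
    have hn : ¬ Col (Y g) := by
      intro hc
      have h6 := h4 (Y g) subset_rfl hc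
      have h7 : (0 : ℝ) < (Y g).card := lt_of_lt_of_le hs h5
      nlinarith
    obtain ⟨p, hp, q, hq, r, hr, hc⟩ := exists_not_col hn
    exact ⟨(p, q, r), hp, hq, hr, hc⟩
  choose! t ht using key
  have h1 : G.card ≤ ((A ×ˢ A ×ˢ A) ×ˢ (B ×ˢ B ×ˢ B)).card := by
    refine card_le_card_of_injOn
      (fun g => (t g, (g (t g).1, g (t g).2.1, g (t g).2.2))) ?_ ?_
    · intro g hg
      have hg' : g ∈ G := hg
      obtain ⟨-, h2, h3, -, -⟩ := h g hg'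
      obtain ⟨a1, a2, a3, -⟩ := ht g hg'
      simp only [coe_product, Set.mem_prod, mem_coe]
      exact ⟨⟨h2 a1, h2 a2, h2 a3⟩, h3 _ a1, h3 _ a2, h3 _ a3⟩
    · intro g hg g' hg' he
      have hg1 : g ∈ G := hg
      have hg2 : g' ∈ G := hg'
      simp only [Prod.mk.injEq] at he
      obtain ⟨e0, e1, e2, e3⟩ := he
      rw [← e0] at e1 e2 e3
      exact Mot.ext3 (h g hg1).1 (h g' hg2).1 (ht g hg1).2.2.2 e1 e2 e3
  simp only [card_product] at h1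
  calc G.card ≤ _ := h1
    _ = A.card ^ 3 * B.card ^ 3 := by ring

theorem rb_triv {m ζ : ℝ} (hm : 0 ≤ m) (hζ : 1 < ζ) : RB (m ^ 9) m ζ := by
  intro A B hA hB s hs _ G Y hF
  rcases G.eq_empty_or_nonempty with rfl | ⟨g, hg⟩
  · simp only [card_empty, Nat.cast_zero, zero_mul]; positivity
  · obtain ⟨-, h2, -, -, h5⟩ := hF g hg
    have h6 : ((Y g).card : ℝ) ≤ A.card := by exact_mod_cast card_le_card h2
    have h7 : s ≤ m := h5.trans (h6.trans hA)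
    have h8 : (G.card : ℝ) ≤ (A.card : ℝ) ^ 3 * (B.card : ℝ) ^ 3 := by
      exact_mod_cast hF.card_le hζ hs
    have h9 : (G.card : ℝ) ≤ m ^ 3 * m ^ 3 := by
      refine h8.trans ?_
      gcongr
    calc (G.card : ℝ) * s ^ 3 ≤ (m ^ 3 * m ^ 3) * m ^ 3 := by gcongr
      _ = m ^ 9 := by ring

theorem RB.mono {Θ Θ' m ζ : ℝ} (h : RB Θ m ζ) (h' : Θ ≤ Θ') : RB Θ' m ζ := by
  intro A B hA hB s hs h1 G Y hF
  exact (h A B hA hB s hs h1 G Y hF).trans h'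

theorem RB.nonneg {Θ m ζ : ℝ} (h : RB Θ m ζ) (hm : 0 ≤ m) : 0 ≤ Θ := by
  have h1 := h ∅ ∅ (by simpa using hm) (by simpa using hm) (m + 1) (by linarith)
    (by nlinarith [mul_nonneg hm hm, mul_nonneg (mul_nonneg hm hm) hm]) ∅ (fun _ => ∅)
    (by intro g hg; simp at hg)
  simpa using h1

theorem richSum2 {Θ m ζ k : ℝ} (h : RB Θ m ζ) {A B : Finset V3} (hA : (A.card : ℝ) ≤ m)
    (hB : (B.card : ℝ) ≤ m) (hk : 1 ≤ k) (hmk : m ^ 2 ≤ k ^ 3) {G : Finset (V3 → V3)}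
    {Y : (V3 → V3) → Finset V3} (hF : Fam A B ζ k G Y) :
    ∑ g ∈ G, ((Y g).card : ℝ) ^ 2 ≤ 3 * Θ / k := by
  have hm : 0 ≤ m := (Nat.cast_nonneg _).trans hA
  have hΘ := h.nonneg hm
  have h1 := layer G (fun g => (Y g).card) (α := Θ) (β := 0) (κ := k) (K := m) hΘ le_rfl hk hm
    (by
      intro g hg
      obtain ⟨-, h2, -, -, h5⟩ := hF g hg
      have h6 : ((Y g).card : ℝ) ≤ A.card := by exact_mod_cast card_le_card h2
      exact ⟨h5, h6.trans hA⟩)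
    (by
      intro j hj
      have hj0 : (0 : ℝ) < j := by linarith
      have h2 := h A B hA hB j hj0 (hmk.trans (by gcongr)) (G.filter fun g => j ≤ (Y g).card) Y
        (hF.mono (filter_subset _ _) (by
          intro g hg
          exact_mod_cast (mem_filter.1 hg).2))
      rw [zero_div, add_zero, le_div_iff₀ (by positivity)]
      exact h2)
  simpa using h1

theorem richSum3 {Θ m ζ k Z N : ℝ} (h : RB Θ m ζ) (hlog : LogB Z N) (hN : m ≤ N)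
    {A B : Finset V3} (hA : (A.card : ℝ) ≤ m) (hB : (B.card : ℝ) ≤ m) (hk : 1 ≤ k)
    (hmk : m ^ 2 ≤ k ^ 3) {G : Finset (V3 → V3)} {Y : (V3 → V3) → Finset V3}
    (hF : Fam A B ζ k G Y) : ∑ g ∈ G, ((Y g).card : ℝ) ^ 3 ≤ 8 * Z * Θ := by
  have hm : 0 ≤ m := (Nat.cast_nonneg _).trans hA
  have hΘ := h.nonneg hm
  have hZ : 0 ≤ Z := by
    have := hlog 0 (by simpa using hm.trans hN)
    have h0 : (0 : ℝ) ≤ (Nat.log 2 0 : ℝ) := Nat.cast_nonneg _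
    linarith
  obtain ⟨a, ha, h1⟩ := dyadic G (fun g => (Y g).card) (fun g => ((Y g).card : ℝ) ^ 3) hlog
    (by
      intro g hg
      obtain ⟨-, h2, -, -, h5⟩ := hF g hg
      have h6 : ((Y g).card : ℝ) ≤ A.card := by exact_mod_cast card_le_card h2
      refine ⟨?_, h6.trans (hA.trans hN)⟩
      exact_mod_cast hk.trans h5)
    (by intro g _; positivity)
  have hs : 0 < max (a : ℝ) k := lt_of_lt_of_le (by linarith) (le_max_right _ _)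
  have h2 := h A B hA hB (max (a : ℝ) k) hs
    (hmk.trans (pow_le_pow_left₀ (by linarith) (le_max_right _ _) 3))
    (G.filter fun g => a ≤ (Y g).card ∧ (Y g).card < 2 * a) Y
    (hF.mono (filter_subset _ _) (by
      intro g hg
      obtain ⟨hg1, hg2, -⟩ := mem_filter.1 hg
      exact max_le (by exact_mod_cast hg2) (hF g hg1).2.2.2.2))
  have h3 : ∑ g ∈ G.filter (fun g => a ≤ (Y g).card ∧ (Y g).card < 2 * a), ((Y g).card : ℝ) ^ 3
      ≤ ((G.filter fun g => a ≤ (Y g).card ∧ (Y g).card < 2 * a).card : ℝ) *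
        (8 * (max (a : ℝ) k) ^ 3) := by
    rw [← nsmul_eq_mul]
    refine sum_le_card_nsmul _ _ _ ?_
    intro g hg
    obtain ⟨-, -, hg3⟩ := mem_filter.1 hg
    have h4 : ((Y g).card : ℝ) ≤ 2 * max (a : ℝ) k := by
      have h5 : ((Y g).card : ℝ) ≤ 2 * a := by exact_mod_cast hg3.le
      have h6 := le_max_left (a : ℝ) k
      linarith
    calc ((Y g).card : ℝ) ^ 3 ≤ (2 * max (a : ℝ) k) ^ 3 := by gcongr
      _ = 8 * (max (a : ℝ) k) ^ 3 := by ring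
  calc _ ≤ _ := h1
    _ ≤ Z * (8 * Θ) := by
      refine mul_le_mul_of_nonneg_left (h3.trans ?_) hZ
      linarith
    _ = 8 * Z * Θ := by ring

/-- The motion maps the line through `a` into the line through `b`. -/
def richLm (g : V3 → V3) (a b : Finset V3) : Prop :=
  ∀ y ∈ a, ∀ x ∈ b, ∀ x' ∈ b, x ≠ x' → g y - x ∈ Submodule.span ℝ {x' - x}

theorem rich_two {T : Finset V3} {c : ℝ} (hc : 2 ≤ c) (h : c ≤ (T.card : ℝ)) :
    ∃ p ∈ T, ∃ q ∈ T, p ≠ q := by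
  have : 1 < T.card := by
    have h1 : ((2 : ℕ) : ℝ) ≤ T.card := by push_cast; linarith
    have h2 : 2 ≤ T.card := by exact_mod_cast h1
    omega
  exact one_lt_card.1 this

theorem rich_lines {A B T : Finset V3} {c : ℝ} {g : V3 → V3} (hM : Mot g) (hs : T ⊆ A)
    (hT : Col T) (hc : 2 ≤ c) (hk : c ≤ (T.card : ℝ)) (hB : ∀ p ∈ T, g p ∈ B) :
    ∃ a b : Finset V3, T ⊆ a ∧ (∀ p ∈ T, g p ∈ b) ∧ a ∈ rich A c ∧ b ∈ rich B c ∧
      richLm g a b := by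
  obtain ⟨u, hu, v, hv, huv⟩ := rich_two hc hk
  obtain ⟨φ, hφ⟩ := hM.lin
  have h1 : T ⊆ ln A u v := hT.subset_ln hs hu hv huv
  have h2 : ∀ y ∈ ln A u v, g y - g u ∈ Submodule.span ℝ {g v - g u} := by
    intro y hy
    obtain ⟨r, hr⟩ := Submodule.mem_span_singleton.1 (mem_ln.1 hy).2
    rw [hφ, hφ, ← hr, map_smul]
    exact Submodule.smul_mem _ _ (Submodule.mem_span_singleton_self _)
  have h3 : ∀ p ∈ T, g p ∈ ln B (g u) (g v) := fun p hp => mem_ln.2 ⟨hB p hp, h2 p (h1 hp)⟩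
  refine ⟨ln A u v, ln B (g u) (g v), h1, h3, ?_, ?_, ?_⟩
  · refine mem_rich.2 ⟨⟨u, hs hu, v, hs hv, huv, rfl⟩, hk.trans ?_⟩
    exact_mod_cast card_le_card h1
  · refine mem_rich.2 ⟨⟨g u, hB u hu, g v, hB v hv, fun e => huv (hM.inj e), rfl⟩, hk.trans ?_⟩
    exact_mod_cast card_le_card_of_injOn g (fun p hp => h3 p hp) hM.inj.injOn
  · intro y hy x hx x' hx' hne
    have e := ln_eq (Y := insert (g y) B) (p := g u) (q := g v) (a := x) (b := x')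
      (mem_ln.2 ⟨mem_insert_of_mem (mem_ln.1 hx).1, (mem_ln.1 hx).2⟩)
      (mem_ln.2 ⟨mem_insert_of_mem (mem_ln.1 hx').1, (mem_ln.1 hx').2⟩) hne
    have : g y ∈ ln (insert (g y) B) x x' := by
      rw [e]
      exact mem_ln.2 ⟨mem_insert_self _ _, h2 y hy⟩
    exact (mem_ln.1 this).2

theorem rich_vals {a b : Finset V3} {p p' q : V3} (hq : q ∈ a) (hb : ∃ x ∈ b, ∃ x' ∈ b, x ≠ x')
    (F : Finset (V3 → V3)) (hF : ∀ g ∈ F, Mot g ∧ g p = p' ∧ richLm g a b) :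
    (F.image fun g => g q).card ≤ 2 := by
  obtain ⟨x, hx, x', hx', hne⟩ := hb
  refine sphere (col_of_span (p := x) (v := x' - x) ?_) p' ((q - p) ⬝ᵥ (q - p)) ?_
  · intro y hy
    obtain ⟨g, hg, rfl⟩ := mem_image.1 hy
    exact (hF g hg).2.2 q hq x hx x' hx' hne
  · intro y hy
    obtain ⟨g, hg, rfl⟩ := mem_image.1 hy
    rw [← (hF g hg).2.1]
    exact (hF g hg).1.dot _ _ _ _

theorem rich_fiber {a₁ a₂ b₁ b₂ : Finset V3} {p p' : V3} (hp : p ∈ a₁) (hc : Col a₁)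
    (ha : ∃ x ∈ a₁, ∃ x' ∈ a₁, x ≠ x') (hn : ¬ Col (a₁ ∪ a₂))
    (hb₁ : ∃ x ∈ b₁, ∃ x' ∈ b₁, x ≠ x') (hb₂ : ∃ x ∈ b₂, ∃ x' ∈ b₂, x ≠ x')
    (F : Finset (V3 → V3))
    (hF : ∀ g ∈ F, Mot g ∧ g p = p' ∧ richLm g a₁ b₁ ∧ richLm g a₂ b₂) : F.card ≤ 4 := by
  obtain ⟨q, hq, hpq⟩ : ∃ q ∈ a₁, p ≠ q := by
    obtain ⟨x, hx, x', hx', hne⟩ := ha
    by_cases e : p = x
    · exact ⟨x', hx', e ▸ hne⟩
    · exact ⟨x, hx, e⟩
  obtain ⟨r, hr, hpqr⟩ : ∃ r ∈ a₂, ¬ Col ({p, q, r} : Finset V3) := by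
    by_contra hcon
    push Not at hcon
    refine hn (col_of_span (p := p) (v := q - p) ?_)
    intro y hy
    rcases mem_union.1 hy with hy | hy
    · exact (mem_ln.1 (hc.subset_ln subset_rfl hp hq hpq hy)).2
    · exact (mem_ln.1 ((hcon y hy).subset_ln subset_rfl (by simp) (by simp) hpq (by simp))).2
  have h1 := rich_vals hq hb₁ F fun g hg => ⟨(hF g hg).1, (hF g hg).2.1, (hF g hg).2.2.1⟩
  have h2 := rich_vals hr hb₂ F fun g hg => ⟨(hF g hg).1, (hF g hg).2.1, (hF g hg).2.2.2⟩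
  have h3 : F.card ≤ ((F.image fun g => g q) ×ˢ (F.image fun g => g r)).card := by
    refine card_le_card_of_injOn (fun g => (g q, g r)) ?_ ?_
    · intro g hg
      have hg' : g ∈ F := hg
      simp only [coe_product, Set.mem_prod, mem_coe]
      exact ⟨mem_image_of_mem _ hg', mem_image_of_mem _ hg'⟩
    · intro g hg g' hg' he
      have hg1 : g ∈ F := hg
      have hg2 : g' ∈ F := hg'
      simp only [Prod.mk.injEq] at he
      exact Mot.ext3 (hF g hg1).1 (hF g' hg2).1 hpqr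
        ((hF g hg1).2.1.trans (hF g' hg2).2.1.symm) he.1 he.2
  rw [card_product] at h3
  calc F.card ≤ _ := h3
    _ ≤ 2 * 2 := Nat.mul_le_mul h1 h2

theorem rich_fiber' {A B a₁ a₂ b₁ b₂ : Finset V3} {p p' : V3} {c : ℝ} (hc : 2 ≤ c)
    (r1 : a₁ ∈ rich A c) (r2 : b₁ ∈ rich B c) (r4 : b₂ ∈ rich B c) (hp : p ∈ a₁)
    (F : Finset (Σ _ : V3 → V3, V3))
    (hF : ∀ x ∈ F, x.2 = p ∧ Mot x.1 ∧ x.1 p = p' ∧ richLm x.1 a₁ b₁ ∧ richLm x.1 a₂ b₂ ∧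
      ¬ Col (a₁ ∪ a₂)) : F.card ≤ 4 := by
  rcases F.eq_empty_or_nonempty with rfl | ⟨x₀, hx₀⟩
  · simp
  obtain ⟨⟨u, -, v, -, -, e⟩, k1⟩ := mem_rich.1 r1
  have h1 : (F.image fun x => x.1).card = F.card := by
    refine card_image_of_injOn ?_
    rintro ⟨g, q⟩ hx ⟨g', q'⟩ hx' he
    have e1 : q = p := (hF _ hx).1
    have e2 : q' = p := (hF _ hx').1
    have e3 : g = g' := he
    rw [e1, e2, e3]
  rw [← h1]
  refine rich_fiber (p' := p') hp (e ▸ col_ln A u v) (rich_two hc k1) (hF x₀ hx₀).2.2.2.2.2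
    (rich_two hc (mem_rich.1 r2).2) (rich_two hc (mem_rich.1 r4).2) _ ?_
  intro g hg
  obtain ⟨x, hx, rfl⟩ := mem_image.1 hg
  obtain ⟨-, y1, y2, y3, y4, -⟩ := hF x hx
  exact ⟨y1, y2, y3, y4⟩

/-- Motions matching two heavy lines. Hint: count tuples `(a₁, p, b₁, p', a₂, b₂)` of heavy lines
`aᵢ ∈ rich A c`, `bᵢ ∈ rich B c`, `p ∈ a₁`, `p' ∈ b₁`. Each motion has at least `c` tuples, each
tuple comes from at most 4 motions (`sphere` twice, `Mot.ext3`; note that `g` maps the whole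
line through `a₁` into the line through `b₁`). -/
theorem degen {A B : Finset V3} {m c : ℝ} (hA : (A.card : ℝ) ≤ m) (hB : (B.card : ℝ) ≤ m)
    (h4 : 4 * m ≤ c ^ 2) (hc : 2 ≤ c) (G : Finset (V3 → V3))
    (hG : ∀ g ∈ G, Mot g ∧ ∃ T₁ ⊆ A, ∃ T₂ ⊆ A, Col T₁ ∧ Col T₂ ∧ ¬ Col (T₁ ∪ T₂) ∧
      c ≤ (T₁.card : ℝ) ∧ c ≤ (T₂.card : ℝ) ∧ ∀ p ∈ T₁ ∪ T₂, g p ∈ B) :
    (G.card : ℝ) * c ^ 3 ≤ 64 * m ^ 4 := by
  have hc0 : 0 < c := by linarith
  have hm : 0 ≤ m := (Nat.cast_nonneg _).trans hA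
  have key : ∀ g ∈ G, ∃ t : Finset V3 × Finset V3 × Finset V3 × Finset V3 × Finset V3,
      t.1 ⊆ t.2.1 ∧ c ≤ (t.1.card : ℝ) ∧ (∀ p ∈ t.1, g p ∈ t.2.2.1) ∧
      t.2.1 ∈ rich A c ∧ t.2.2.1 ∈ rich B c ∧ t.2.2.2.1 ∈ rich A c ∧ t.2.2.2.2 ∈ rich B c ∧
      richLm g t.2.1 t.2.2.1 ∧ richLm g t.2.2.2.1 t.2.2.2.2 ∧ ¬ Col (t.2.1 ∪ t.2.2.2.1) := by
    intro g hg
    obtain ⟨hM, T₁, s1, T₂, s2, c1, c2, hn, k1, k2, hB'⟩ := hG g hg
    obtain ⟨a₁, b₁, x1, x2, x3, x4, x5⟩ := rich_lines hM s1 c1 hc k1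
      (fun p hp => hB' p (mem_union_left _ hp))
    obtain ⟨a₂, b₂, y1, -, y3, y4, y5⟩ := rich_lines hM s2 c2 hc k2
      (fun p hp => hB' p (mem_union_right _ hp))
    exact ⟨(T₁, a₁, b₁, a₂, b₂), x1, k1, x2, x3, x4, y3, y4, x5, y5,
      fun h => hn (h.mono (union_subset_union x1 y1))⟩
  choose! t ht using key
  have h1 : (G.sigma fun g => (t g).1).card ≤
      4 * (((rich A c).sigma fun T => T) ×ˢ ((rich B c).sigma fun T => T) ×ˢ
        rich A c ×ˢ rich B c).card := by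
    refine card_le_mul_card_image_of_maps_to
      (f := fun x : (Σ _ : V3 → V3, V3) => ((⟨(t x.1).2.1, x.2⟩ : Σ _ : Finset V3, V3),
        (⟨(t x.1).2.2.1, x.1 x.2⟩ : Σ _ : Finset V3, V3), (t x.1).2.2.2.1, (t x.1).2.2.2.2))
      ?_ 4 ?_
    · rintro ⟨g, p⟩ hx
      obtain ⟨hg, hp⟩ := mem_sigma.1 hx
      obtain ⟨x1, -, x3, x4, x5, x6, x7, -⟩ := ht g hg
      simp only [mem_product, mem_sigma]
      exact ⟨⟨x4, x1 hp⟩, ⟨x5, x3 _ hp⟩, x6, x7⟩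
    · rintro ⟨⟨a₁, p⟩, ⟨b₁, p'⟩, a₂, b₂⟩ hb
      simp only [mem_product, mem_sigma] at hb
      obtain ⟨⟨r1, hp⟩, ⟨r2, -⟩, r3, r4⟩ := hb
      refine rich_fiber' (a₂ := a₂) (p' := p') hc r1 r2 r4 hp _ ?_
      rintro ⟨g, q⟩ hx
      obtain ⟨hx1, hx2⟩ := mem_filter.1 hx
      obtain ⟨hg, -⟩ := mem_sigma.1 hx1
      simp only [Prod.mk.injEq, Sigma.mk.injEq, heq_eq_eq] at hx2
      obtain ⟨⟨e1, e2⟩, ⟨e3, e4⟩, e5, e6⟩ := hx2
      obtain ⟨-, -, -, -, -, -, -, x8, x9, x10⟩ := ht g hg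
      rw [e1, e3] at x8
      rw [e5, e6] at x9
      rw [e1, e5] at x10
      subst e2
      exact ⟨rfl, (hG g hg).1, e4, x8, x9, x10⟩
  have h4A : 4 * (A.card : ℝ) ≤ c ^ 2 := by linarith
  have h4B : 4 * (B.card : ℝ) ≤ c ^ 2 := by linarith
  have a1 : ((∑ T ∈ rich A c, T.card : ℕ) : ℝ) ≤ 2 * m := by
    have : ((∑ T ∈ rich A c, T.card : ℕ) : ℝ) ≤ ((2 * A.card : ℕ) : ℝ) := by
      exact_mod_cast heavy_sum hc0 h4A
    push_cast at this ⊢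
    linarith
  have b1 : ((∑ T ∈ rich B c, T.card : ℕ) : ℝ) ≤ 2 * m := by
    have : ((∑ T ∈ rich B c, T.card : ℕ) : ℝ) ≤ ((2 * B.card : ℕ) : ℝ) := by
      exact_mod_cast heavy_sum hc0 h4B
    push_cast at this ⊢
    linarith
  have a2 : ((rich A c).card : ℝ) * c ≤ 2 * m := (heavy_card hc0 h4A).trans (by linarith)
  have b2 : ((rich B c).card : ℝ) * c ≤ 2 * m := (heavy_card hc0 h4B).trans (by linarith)
  simp only [card_product, card_sigma] at h1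
  have h2 : (G.card : ℝ) * c ≤ ((∑ g ∈ G, (t g).1.card : ℕ) : ℝ) := by
    push_cast
    rw [← nsmul_eq_mul]
    exact card_nsmul_le_sum _ _ _ fun g hg => (ht g hg).2.1
  have h3 : ((∑ g ∈ G, (t g).1.card : ℕ) : ℝ) ≤ 4 * (((∑ T ∈ rich A c, T.card : ℕ) : ℝ) *
      (((∑ T ∈ rich B c, T.card : ℕ) : ℝ) * (((rich A c).card : ℝ) * ((rich B c).card : ℝ)))) := by
    exact_mod_cast h1
  calc (G.card : ℝ) * c ^ 3 = (G.card * c) * c ^ 2 := by ring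
    _ ≤ 4 * (((∑ T ∈ rich A c, T.card : ℕ) : ℝ) * (((∑ T ∈ rich B c, T.card : ℕ) : ℝ) *
        (((rich A c).card : ℝ) * ((rich B c).card : ℝ)))) * c ^ 2 :=
      mul_le_mul_of_nonneg_right (h2.trans h3) (by positivity)
    _ = 4 * (((∑ T ∈ rich A c, T.card : ℕ) : ℝ) * (((∑ T ∈ rich B c, T.card : ℕ) : ℝ) *
        ((((rich A c).card : ℝ) * c) * (((rich B c).card : ℝ) * c)))) := by ring
    _ ≤ 4 * ((2 * m) * ((2 * m) * ((2 * m) * (2 * m)))) := by gcongr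
    _ = 64 * m ^ 4 := by ring

end Vale.Agent.P054
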