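import Vale.Agent.P054.Study
import Vale.Agent.P054.Beck
import Vale.Agent.P054.Rich

/-!
Extraction of a regular system of pins.
-/

namespace Vale.Agent.P054

open Finset Module
open scoped Classical

theorem ca_x {Z Θ m s x M : ℝ} (hZ : 10 ^ 20 ≤ Z) (hm : 0 < m) (hΘ : Z ^ 60 * m ^ 4 ≤ Θ)
    (hs : 0 < s) (h2 : s ^ 3 ≤ Z ^ 2 * m ^ 2) (hM : 3 * Θ / 8 ≤ M * s ^ 3)
    (hx : M * s ≤ 16 * Z * m ^ 2 * x) : Z ^ 56 * s ≤ x := by
  have hZ0 : 0 < Z := by linarith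
  have b1 : 3 * (Z ^ 60 * m ^ 4) / 8 ≤ 16 * Z * m ^ 2 * x * s ^ 2 := by
    calc _ ≤ M * s * s ^ 2 := by linarith [show M * s ^ 3 = M * s * s ^ 2 by ring]
      _ ≤ _ := mul_le_mul_of_nonneg_right hx (by positivity)
  have b2 : Z ^ 58 * m ^ 2 * s ^ 3 ≤ Z ^ 58 * m ^ 2 * (Z ^ 2 * m ^ 2) := by gcongr
  have b3 : (Z * m ^ 2 * s ^ 2) * (128 * (Z ^ 56 * s)) ≤ (Z * m ^ 2 * s ^ 2) * (128 * x) := by
    calc _ = 128 * (Z ^ 57 * m ^ 2 * s ^ 3) := by ring
      _ ≤ (3 * Z) * (Z ^ 57 * m ^ 2 * s ^ 3) := by gcongr; linarith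
      _ = 3 * (Z ^ 58 * m ^ 2 * s ^ 3) := by ring
      _ ≤ _ := by linarith
  have := le_of_mul_le_mul_left b3 (by positivity)
  linarith

theorem ca_num {Z Θ m ζ s x M β : ℝ} (hZ : 10 ^ 20 ≤ Z) (hm : 0 < m) (hζ : Z ^ 4 ≤ ζ)
    (hΘ : Z ^ 60 * m ^ 4 ≤ Θ) (hs : 0 < s) (hsm : s ≤ m) (h2 : s ^ 3 ≤ Z ^ 2 * m ^ 2)
    (hM : 3 * Θ / 8 ≤ M * s ^ 3) (hx0 : 0 < x) (hx : M * s ≤ 16 * Z * m ^ 2 * x)
    (hβ : M * s < 40 * Z * β)
    (h : β ≤ 8 * Z ^ 2 * (2 * s / ζ) * M ∨ (x / Z ^ 9) ^ 3 ≤ 16 * Z ^ 4 * M ∨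
      β * (x / Z ^ 9) ^ 2 ≤ 64 * Z ^ 2 * (4 * x) * m * M) : False := by
  have hZ1 : 1 ≤ Z := le_trans (by norm_num) hZ
  have hZ0 : 0 < Z := by linarith
  have hζ0 : 0 < ζ := lt_of_lt_of_le (by positivity) hζ
  have hΘ0 : 0 < Z ^ 60 * m ^ 4 := by positivity
  have hM0 : 0 < M := pos_of_mul_pos_left (show 0 < M * s ^ 3 by linarith) (by positivity)
  have hT : Z ^ 59 * m ^ 4 ≤ M * s ^ 3 := by
    have : 8 * (Z ^ 59 * m ^ 4) ≤ Z * (Z ^ 59 * m ^ 4) := by gcongr; linarith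
    linarith
  rcases h with h | h | h
  · have b1 : 2 * s / ζ ≤ 2 * s / Z ^ 4 := div_le_div_of_nonneg_left (by linarith) (by positivity) hζ
    have b2 : β ≤ 8 * Z ^ 2 * (2 * s / Z ^ 4) * M := h.trans (by gcongr)
    have b3 : 40 * Z * β ≤ 40 * Z * (8 * Z ^ 2 * (2 * s / Z ^ 4) * M) := by gcongr
    have b4 : 40 * Z * (8 * Z ^ 2 * (2 * s / Z ^ 4) * M) = 640 / Z * (M * s) := by
      field_simp; ring
    have b5 : 640 / Z * (M * s) ≤ 1 * (M * s) := by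
      refine mul_le_mul_of_nonneg_right ?_ (by positivity)
      rw [div_le_iff₀ hZ0]; linarith
    linarith
  · rw [div_pow, div_le_iff₀ (by positivity)] at h
    have b1 : (M * s) ^ 3 ≤ (16 * Z * m ^ 2 * x) ^ 3 := by gcongr
    have b2 : (16 * Z * m ^ 2) ^ 3 * x ^ 3
        ≤ (16 * Z * m ^ 2) ^ 3 * (16 * Z ^ 4 * M * (Z ^ 9) ^ 3) := by gcongr
    have b3 : M * (M ^ 2 * s ^ 3) ≤ M * (65536 * Z ^ 34 * m ^ 6) := by linarith
    have b4 := le_of_mul_le_mul_left b3 hM0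
    have b5 : (Z ^ 59 * m ^ 4) ^ 2 ≤ (M * s ^ 3) ^ 2 := by gcongr
    have b6 : M ^ 2 * s ^ 3 * s ^ 3 ≤ 65536 * Z ^ 34 * m ^ 6 * (Z ^ 2 * m ^ 2) := by gcongr
    have b7 : 65537 * (Z ^ 36 * m ^ 8) ≤ Z ^ 82 * (Z ^ 36 * m ^ 8) := by
      gcongr
      exact le_trans (by linarith) (le_self_pow₀ hZ1 (by norm_num))
    have b8 : 0 < Z ^ 36 * m ^ 8 := by positivity
    linarith
  · rw [div_pow, ← mul_div_assoc, div_le_iff₀ (by positivity)] at h
    have b1 : M * s * x ^ 2 ≤ 40 * Z * β * x ^ 2 := by gcongr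
    have b2 : 40 * Z * (β * x ^ 2) ≤ 40 * Z * (64 * Z ^ 2 * (4 * x) * m * M * (Z ^ 9) ^ 2) := by
      gcongr
    have b3 : (M * x) * (s * x) ≤ (M * x) * (10240 * Z ^ 21 * m) := by linarith
    have b4 := le_of_mul_le_mul_left b3 (by positivity)
    have b5 : M * s * s * s ≤ 16 * Z * m ^ 2 * x * s * m := by gcongr
    have b6 : 16 * Z * m ^ 3 * (s * x) ≤ 16 * Z * m ^ 3 * (10240 * Z ^ 21 * m) := by gcongr
    have b7 : 163841 * (Z ^ 22 * m ^ 4) ≤ Z ^ 37 * (Z ^ 22 * m ^ 4) := by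
      gcongr
      exact le_trans (by linarith) (le_self_pow₀ hZ1 (by norm_num))
    have b8 : 0 < Z ^ 22 * m ^ 4 := by positivity
    linarith

/-- Hint: `beck` gives at least `|G| s / 4` good flags; `dyadic` on the number of good flags of
a pin gives `x₀` and a mass `F₁ ≥ |G| s / (4 Z)`; put `x = (x₀ + 1) / 2`; `study` with `a = 4 x`,
`b = 2 s / ζ`, `y = x / Z⁹` shows that the bad flags are at most `F₁ / 10`. Keep the pins where
at least half of the flags are good, and choose `x` of them. -/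
theorem critA {Z N Θ m ζ s : ℝ} (hZ : 10 ^ 20 ≤ Z) (hG : GProp Z N) (hlog : LogB Z N)
    (hm : Z ^ 40 ≤ m) (hN : m ^ 6 ≤ N) (hζ : Z ^ 4 ≤ ζ) (hΘ : Z ^ 60 * m ^ 4 ≤ Θ)
    {A B : Finset V3} (hA : (A.card : ℝ) ≤ m) (hB : (B.card : ℝ) ≤ m) (hs : 0 < s)
    (h1 : m ^ 2 ≤ s ^ 3) (h2 : s ^ 3 ≤ Z ^ 2 * m ^ 2) {G : Finset (V3 → V3)}
    {Y : (V3 → V3) → Finset V3} (hF : Fam A B ζ s G Y) (hY : ∀ g ∈ G, ((Y g).card : ℝ) ≤ 2 * s)
    (hM : 3 * Θ / 8 ≤ G.card * s ^ 3) : ∃ x W X, Pins Z s A B G Y x W X := by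
  have hZ1 : 1 ≤ Z := le_trans (by norm_num) hZ
  have hZ0 : 0 < Z := by linarith
  have hm1 : 1 ≤ m := le_trans (one_le_pow₀ hZ1) hm
  have hm0 : 0 < m := by linarith
  have hζ1 : Z ≤ ζ := le_trans (le_self_pow₀ hZ1 (by norm_num)) hζ
  have hΘ0 : 0 < Θ := lt_of_lt_of_le (by positivity) hΘ
  set good : (V3 → V3) → Finset V3 :=
    fun g => (Y g).filter fun p => ((Y g).card : ℝ) ≤ 10 ^ 12 * dirs (Y g) p with hgood
  set X₀ : V6 → Finset (V3 → V3) := fun w => G.filter fun g => w.1 ∈ good g ∧ g w.1 = w.2 with hX₀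
  set W₀ := (A ×ˢ B).filter fun w => 1 ≤ (X₀ w).card with hW₀
  have hAB : ((A ×ˢ B).card : ℝ) ≤ m ^ 2 := by
    rw [card_product, sq]; push_cast
    exact mul_le_mul hA hB (Nat.cast_nonneg _) hm0.le
  have s1 : G.card * s ≤ 4 * ∑ w ∈ W₀, ((X₀ w).card : ℝ) := by
    have e1 : ∑ w ∈ W₀, ((X₀ w).card : ℝ) = ∑ w ∈ A ×ˢ B, ((X₀ w).card : ℝ) := by
      refine sum_filter_of_ne fun w _ h => ?_
      exact Nat.one_le_iff_ne_zero.2 fun e => h (by rw [e, Nat.cast_zero])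
    have e2 : ∑ w ∈ A ×ˢ B, (X₀ w).card
        = ∑ g ∈ G, ((A ×ˢ B).filter fun w => w.1 ∈ good g ∧ g w.1 = w.2).card := by
      simp only [hX₀, card_filter]
      exact sum_comm
    have e3 : ∀ g ∈ G, s ≤ 4 * (((A ×ˢ B).filter fun w => w.1 ∈ good g ∧ g w.1 = w.2).card : ℝ) := by
      intro g hg
      obtain ⟨-, a2, a3, a4, a5⟩ := hF g hg
      have b1 := beck (by linarith) a4
      have b2 : (good g).card ≤ ((A ×ˢ B).filter fun w => w.1 ∈ good g ∧ g w.1 = w.2).card := by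
        refine card_le_card_of_injOn (fun p => (p, g p)) (fun p hp => ?_)
          (fun p _ q _ e => congrArg Prod.fst e)
        have hp' := (mem_filter.1 (mem_coe.1 hp)).1
        exact mem_coe.2 (mem_filter.2 ⟨mem_product.2 ⟨a2 hp', a3 p hp'⟩, hp, rfl⟩)
      have b3 : (_ : ℝ) ≤ _ := Nat.cast_le.2 (b1.trans (Nat.mul_le_mul_left 4 b2))
      push_cast at b3
      linarith
    rw [e1, ← Nat.cast_sum, e2, Nat.cast_sum, mul_sum]
    have := card_nsmul_le_sum G _ s e3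
    rwa [nsmul_eq_mul] at this
  have hGN : (G.card : ℝ) ≤ N := by
    have b2 := hF.card_le (by linarith) hs
    have b3 : (G.card : ℝ) ≤ (A.card : ℝ) ^ 3 * (B.card : ℝ) ^ 3 := by exact_mod_cast b2
    refine b3.trans (le_trans ?_ hN)
    rw [show m ^ 6 = m ^ 3 * m ^ 3 by ring]
    gcongr
  obtain ⟨a, ha1, ha⟩ := dyadic W₀ (fun w => (X₀ w).card) (fun w => ((X₀ w).card : ℝ)) hlog
    (fun w hw => ⟨(mem_filter.1 hw).2,
      le_trans (Nat.cast_le.2 (card_le_card (filter_subset _ _))) hGN⟩)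
    (fun w _ => Nat.cast_nonneg _)
  set W₁ := W₀.filter fun w => a ≤ (X₀ w).card ∧ (X₀ w).card < 2 * a with hW₁
  set F₁ := ∑ w ∈ W₁, ((X₀ w).card : ℝ) with hF₁
  set x := (a + 1) / 2 with hx
  have hW₁s : W₁ ⊆ A ×ˢ B := (filter_subset _ _).trans (filter_subset _ _)
  have hW₁c : (W₁.card : ℝ) ≤ m ^ 2 := le_trans (Nat.cast_le.2 (card_le_card hW₁s)) hAB
  have hX4 : ∀ w ∈ W₁, ((X₀ w).card : ℝ) ≤ 4 * x := by
    intro w hw
    have := (mem_filter.1 hw).2.2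
    have b : (X₀ w).card ≤ 4 * x := by omega
    exact_mod_cast b
  have hx0 : (0 : ℝ) < x := by
    have : 0 < x := by omega
    exact_mod_cast this
  have s2 : G.card * s ≤ 4 * Z * F₁ := by linarith
  have s3 : G.card * s ≤ 16 * Z * m ^ 2 * x := by
    have b1 := sum_le_card_nsmul W₁ _ _ hX4
    rw [nsmul_eq_mul] at b1
    have b2 : (W₁.card : ℝ) * (4 * x) ≤ m ^ 2 * (4 * x) := by gcongr
    have b3 : 4 * Z * F₁ ≤ 4 * Z * (m ^ 2 * (4 * x)) := by gcongr; exact b1.trans b2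
    linarith
  have s4 := ca_x hZ hm0 hΘ hs h2 hM s3
  have hs1 : 1 ≤ s := by
    by_contra hc
    push Not at hc
    have b1 : s ^ 3 < 1 := pow_lt_one₀ hs.le hc (by norm_num)
    have b2 := one_le_pow₀ (n := 2) hm1
    linarith
  have s5 : Z ^ 56 ≤ x := le_trans (le_mul_of_one_le_right (by positivity) hs1) s4
  have hsm : s ≤ m := by
    have hne : G.Nonempty := by
      rw [nonempty_iff_ne_empty]
      rintro rfl
      simp only [card_empty, Nat.cast_zero, zero_mul] at hM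
      linarith
    obtain ⟨g, hg⟩ := hne
    obtain ⟨-, a2, -, -, a5⟩ := hF g hg
    exact a5.trans (le_trans (Nat.cast_le.2 (card_le_card a2)) hA)
  set bad : V6 → Finset (V3 → V3) := fun w => (X₀ w).filter fun g => ∃ l : Sub,
    finrank ℝ l = 2 ∧ pt g ≤ l ∧
      x / Z ^ 9 ≤ (((X₀ w).filter fun g' => pt g' ≤ l).card : ℝ) with hbad
  have hy1 : 16 * Z ^ 18 ≤ x := by
    refine le_trans ?_ s5
    rw [show Z ^ 56 = Z ^ 38 * Z ^ 18 by ring]
    gcongr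
    exact le_trans (by linarith) (le_self_pow₀ hZ1 (by norm_num))
  have hst := study (a := 4 * x) (b := 2 * s / ζ) (y := x / Z ^ 9) hZ hG hlog A hA G
    (fun g hg => (hF g hg).1) W₁ X₀ (fun w hw => (mem_product.1 (hW₁s hw)).1)
    (fun w hw => ⟨filter_subset _ _, hX4 w hw, fun g hg => (mem_filter.1 hg).2.2⟩)
    (fun g hg T hT h => by
      have b1 := (hF g hg).2.2.2.1 T (fun p hp => (mem_filter.1 (mem_filter.1 (h p hp).2).2.1).1) hT
      rw [le_div_iff₀ (by linarith)]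
      linarith [hY g hg])
    (div_nonneg (by linarith) (by linarith))
    (by
      rw [div_pow, le_div_iff₀ (by positivity)]
      have := mul_le_mul_of_nonneg_left hy1 hx0.le
      linarith)
    (by
      rw [le_div_iff₀ (by positivity)]
      have : Z ^ 9 ≤ Z ^ 18 := pow_le_pow_right₀ hZ1 (by norm_num)
      have : 0 < Z ^ 18 := by positivity
      linarith)
    (by
      rw [show 2 * (4 * (x : ℝ)) / (x / Z ^ 9) = 8 * Z ^ 9 by field_simp; norm_num]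
      have b1 : 8 * Z ^ 9 ≤ m ^ 4 := by
        refine le_trans ?_ (hm.trans (le_self_pow₀ hm1 (by norm_num)))
        rw [show Z ^ 40 = Z ^ 31 * Z ^ 9 by ring]
        gcongr
        exact le_trans (by linarith) (le_self_pow₀ hZ1 (by norm_num))
      refine le_trans ?_ hN
      rw [show m ^ 6 = m ^ 2 * m ^ 4 by ring]
      gcongr)
    ((le_self_pow₀ hm1 (by norm_num)).trans hN) (β := ∑ w ∈ W₁, ((bad w).card : ℝ)) rfl
  have s6 : 10 * ∑ w ∈ W₁, ((bad w).card : ℝ) ≤ F₁ := by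
    by_contra hc
    push Not at hc
    refine ca_num hZ hm0 hζ hΘ hs hsm h2 hM hx0 s3 ?_ hst
    have := mul_lt_mul_of_pos_left hc (show 0 < 4 * Z by linarith)
    linarith
  set W₂ := W₁.filter fun w => 2 * (bad w).card ≤ (X₀ w).card with hW₂
  have hch : ∀ w ∈ W₂, ∃ T ⊆ X₀ w \ bad w, T.card = x := by
    intro w hw
    refine exists_subset_card_eq ?_
    rw [card_sdiff_of_subset (show bad w ⊆ X₀ w from filter_subset _ _)]
    have b1 := (mem_filter.1 hw).2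
    have b2 := (mem_filter.1 (mem_filter.1 hw).1).2.1
    omega
  choose! X hX1 hX2 using hch
  have hX3 : ∀ w ∈ W₂, X w ⊆ X₀ w := fun w hw => (hX1 w hw).trans sdiff_subset
  refine ⟨x, W₂, X, (filter_subset _ _).trans hW₁s,
    fun w hw => (hX3 w hw).trans (filter_subset _ _), hX2, fun w hw g hg => ?_,
    fun w hw l hl' => ?_, ?_⟩
  · obtain ⟨b1, b2, b3⟩ := mem_filter.1 (hX3 w hw hg)
    obtain ⟨b4, b5⟩ := mem_filter.1 b2
    refine ⟨b4, b3, (hF g b1).2.2.2.2.trans (b5.trans ?_)⟩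
    gcongr
    linarith
  · by_contra hc
    push Not at hc
    have b1 : 0 < ((X w).filter fun g => pt g ≤ l).card := by
      rcases Nat.eq_zero_or_pos ((X w).filter fun g => pt g ≤ l).card with h | h
      · rw [h, Nat.cast_zero, mul_zero] at hc
        linarith
      · exact h
    obtain ⟨g, hg⟩ := card_pos.1 b1
    obtain ⟨b2, b3⟩ := mem_filter.1 hg
    refine (mem_sdiff.1 (hX1 w hw b2)).2 (mem_filter.2 ⟨hX3 w hw b2, l, hl', b3, ?_⟩)
    rw [div_le_iff₀' (by positivity)]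
    refine hc.le.trans ?_
    gcongr
    exact hX3 w hw
  · have b1 := sum_filter_add_sum_filter_not W₁ (fun w => 2 * (bad w).card ≤ (X₀ w).card)
      (fun w => ((X₀ w).card : ℝ))
    have b2 := sum_le_card_nsmul W₂ (fun w => ((X₀ w).card : ℝ)) _
      fun w hw => hX4 w (mem_filter.1 hw).1
    rw [nsmul_eq_mul] at b2
    have b3 : ∑ w ∈ W₁.filter (fun w => ¬ 2 * (bad w).card ≤ (X₀ w).card), ((X₀ w).card : ℝ)
        ≤ ∑ w ∈ W₁, 2 * ((bad w).card : ℝ) := by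
      refine le_trans (sum_le_sum fun w hw => ?_) (sum_le_sum_of_subset_of_nonneg
        (filter_subset _ _) fun w _ _ => mul_nonneg zero_le_two (Nat.cast_nonneg _))
      have := (not_le.1 (mem_filter.1 hw).2).le
      exact_mod_cast this
    rw [← mul_sum] at b3
    have b4 : F₁ ≤ 5 * (x * W₂.card) := by linarith
    have b5 := mul_le_mul_of_nonneg_left b4 (show 0 ≤ 4 * Z by linarith)
    linarith

end Vale.Agent.P054
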