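import Mathlib

/-!
Definitions for distinct distances in three dimensions.
-/

namespace Vale.Agent.P054

open Finset Module
open scoped Classical

abbrev E := Fin 4 → ℝ
abbrev V3 := Fin 3 → ℝ
abbrev V6 := V3 × V3
abbrev Sub := Submodule ℝ E

section Proj

variable {F : Type*} [AddCommGroup F] [Module ℝ F]

/-- Two projective subspaces meet. -/
def meet (a b : Submodule ℝ F) : Prop := a ⊓ b ≠ ⊥

/-- All members have dimension `k` (points: 1, lines: 2, planes: 3). -/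
def Dim (k : ℕ) (L : Finset (Submodule ℝ F)) : Prop := ∀ a ∈ L, finrank ℝ a = k

/-- Number of members containing `x`. -/
noncomputable def thru (L : Finset (Submodule ℝ F)) (x : Submodule ℝ F) : ℕ :=
  (L.filter fun l => x ≤ l).card

/-- Number of members contained in `p`. -/
noncomputable def inpl (L : Finset (Submodule ℝ F)) (p : Submodule ℝ F) : ℕ :=
  (L.filter fun l => l ≤ p).card

/-- Number of incidences. -/
noncomputable def inc (P L : Finset (Submodule ℝ F)) : ℕ :=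
  ((P ×ˢ L).filter fun q => q.1 ≤ q.2).card

/-- Ordered pairs of distinct meeting lines. -/
noncomputable def mp (L : Finset (Submodule ℝ F)) : Finset (Submodule ℝ F × Submodule ℝ F) :=
  (L ×ˢ L).filter fun q => q.1 ≠ q.2 ∧ meet q.1 q.2

theorem meet_comm {a b : Submodule ℝ F} : meet a b ↔ meet b a := by
  unfold meet; rw [inf_comm]

theorem meet_iff {a b : Submodule ℝ F} : meet a b ↔ ∃ x, x ≠ 0 ∧ x ∈ a ∧ x ∈ b := by
  unfold meet
  rw [Submodule.ne_bot_iff]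
  constructor
  · rintro ⟨x, hx, h0⟩; exact ⟨x, h0, hx.1, hx.2⟩
  · rintro ⟨x, h0, h1, h2⟩; exact ⟨x, ⟨h1, h2⟩, h0⟩

@[simp] theorem mem_mp {L : Finset (Submodule ℝ F)} {q : Submodule ℝ F × Submodule ℝ F} :
    q ∈ mp L ↔ q.1 ∈ L ∧ q.2 ∈ L ∧ q.1 ≠ q.2 ∧ meet q.1 q.2 := by
  simp only [mp, mem_filter, mem_product, and_assoc]

theorem Dim.mono {k : ℕ} {L L' : Finset (Submodule ℝ F)} (h : Dim k L) (h' : L' ⊆ L) :
    Dim k L' := fun a ha => h a (h' ha)

theorem thru_mono {L L' : Finset (Submodule ℝ F)} (h : L' ⊆ L) (x : Submodule ℝ F) :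
    thru L' x ≤ thru L x := card_le_card (filter_subset_filter _ h)

theorem inpl_mono {L L' : Finset (Submodule ℝ F)} (h : L' ⊆ L) (x : Submodule ℝ F) :
    inpl L' x ≤ inpl L x := card_le_card (filter_subset_filter _ h)

end Proj

/-- The lines of `S` form the two rulings of a quadric. -/
def Reg (S : Finset Sub) : Prop :=
  ∀ l ∈ S, ∃ a ∈ S, ∃ b ∈ S, ∃ c ∈ S, ¬ meet a b ∧ ¬ meet a c ∧ ¬ meet b c ∧
    ¬ (meet l a ∧ meet l b ∧ meet l c) ∧
    ∀ l' ∈ S, l' ≠ l → meet l l' → meet l' a ∧ meet l' b ∧ meet l' c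

/-- Three skew lines of `S` have few common transversals in `S`. -/
def K3 (Z : ℝ) (S : Finset Sub) : Prop :=
  ∀ a ∈ S, ∀ b ∈ S, ∀ c ∈ S, ¬ meet a b → ¬ meet a c → ¬ meet b c →
    ((S.filter fun l => meet l a ∧ meet l b ∧ meet l c).card : ℝ) ≤ Z

/-- Vector field property. -/
def VF (Z : ℝ) (S : Finset Sub) : Prop :=
  ∀ J₁ J₂ : E →ₗ[ℝ] E, Z < ((S.filter fun l => l.map J₁ ≤ l).card : ℝ) →
    Z < ((S.filter fun l => l.map J₂ ≤ l).card : ℝ) →
    ∃ x : E, x ≠ 0 ∧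
      Submodule.span ℝ ({x, J₁ x, J₂ x, J₁ (J₂ x) - J₂ (J₁ x)} : Set E) ≠ ⊤

/-- What we use about the lines on an irreducible surface that is neither a plane nor a cone. -/
structure Surf (Z : ℝ) (S : Finset Sub) : Prop where
  pl : ∀ p : Sub, finrank ℝ p = 3 → (inpl S p : ℝ) ≤ Z
  pt : ∀ x : Sub, finrank ℝ x = 1 → (thru S x : ℝ) ≤ Z
  vf : VF Z S
  rk : Reg S ∨ K3 Z S

/-- The structure theorem for intersecting pairs of at most `N` lines, with loss `Z`. -/
def GProp (Z N : ℝ) : Prop :=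
  ∀ L : Finset Sub, Dim 2 L → (L.card : ℝ) ≤ N → ∀ τ : ℝ, Z * √(L.card : ℝ) ≤ τ →
    ∃ (FF : Finset (Finset Sub)) (sf : Sub → Finset Sub),
      (∀ S ∈ FF, S ⊆ L ∧ Surf Z S) ∧ ∑ S ∈ FF, S.card ≤ 2 * L.card ∧
      (∀ l, sf l = ∅ ∨ (sf l ∈ FF ∧ l ∈ sf l)) ∧
      (((mp L).filter fun q => (thru L (q.1 ⊓ q.2) : ℝ) < τ ∧ (inpl L (q.1 ⊔ q.2) : ℝ) < τ ∧
        q.2 ∉ sf q.1).card : ℝ) ≤ Z * τ * L.card

/-- The number of dyadic scales up to `N` is at most `Z`. -/
def LogB (Z N : ℝ) : Prop := ∀ k : ℕ, (k : ℝ) ≤ N → (Nat.log 2 k : ℝ) + 1 ≤ Z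

/-- A polynomial vanishes on a subspace. -/
def van {n : ℕ} (f : MvPolynomial (Fin n) ℝ) (l : Submodule ℝ (Fin n → ℝ)) : Prop :=
  ∀ x ∈ l, MvPolynomial.eval x f = 0

/-- Irreducible form of degree at most `D`. -/
def IrrH {n : ℕ} (D : ℕ) (f : MvPolynomial (Fin n) ℝ) : Prop :=
  Irreducible f ∧ ∃ a ≤ D, f.IsHomogeneous a

/-- Meeting pairs that are neither at a `b`-rich point nor in a `b`-rich surface. -/
noncomputable def gp (D : ℕ) (b : ℝ) (L : Finset Sub) : Finset (Sub × Sub) :=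
  (mp L).filter fun q => (thru L (q.1 ⊓ q.2) : ℝ) < b ∧
    ∀ f : MvPolynomial (Fin 4) ℝ, IrrH D f → van f q.1 → van f q.2 →
      ((L.filter fun l => van f l).card : ℝ) < b

section Aff

variable {F : Type*} [AddCommGroup F] [Module ℝ F]

/-- Collinear finite sets. -/
def Col (T : Finset F) : Prop := ∃ p v : F, ∀ q ∈ T, ∃ r : ℝ, q = p + r • v

/-- Coplanar finite sets. -/
def Copl (T : Finset F) : Prop := ∃ p v w : F, ∀ q ∈ T, ∃ a b : ℝ, q = p + a • v + b • w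

/-- At most a fraction `1 / ζ` of the points lie on a line. -/
def ND (ζ : ℝ) (Y : Finset F) : Prop := ∀ T ⊆ Y, Col T → ζ * T.card ≤ Y.card

/-- The points of `Y` on the line through `p` and `q`. -/
noncomputable def ln (Y : Finset F) (p q : F) : Finset F :=
  Y.filter fun y => y - p ∈ Submodule.span ℝ {q - p}

@[simp] theorem mem_ln {Y : Finset F} {p q y : F} :
    y ∈ ln Y p q ↔ y ∈ Y ∧ y - p ∈ Submodule.span ℝ {q - p} := mem_filter

variable [DecidableEq F]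

/-- The number of directions from `p` to the other points of `Y`. -/
noncomputable def dirs (Y : Finset F) (p : F) : ℕ :=
  ((Y.erase p).image fun q => Submodule.span ℝ {q - p}).card

/-- The traces on `Y` of the lines with at least `c` points (and at least two points). -/
noncomputable def rich (Y : Finset F) (c : ℝ) : Finset (Finset F) :=
  (Y.offDiag.image fun q => ln Y q.1 q.2).filter fun T => c ≤ (T.card : ℝ)

end Aff

/-- The split form on `V6`. -/
def Bf (a b : V6) : ℝ := a.1 ⬝ᵥ b.1 - a.2 ⬝ᵥ b.2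

/-- Right multiplication of a quaternion by the pure quaternion `u`. -/
def rm (u : V3) : E →ₗ[ℝ] E :=
  Matrix.mulVecLin !![0, -u 0, -u 1, -u 2; u 0, 0, u 2, -u 1; u 1, -u 2, 0, u 0; u 2, u 1, -u 0, 0]

/-- Left multiplication of a quaternion by the pure quaternion `u`. -/
def lm (u : V3) : E →ₗ[ℝ] E :=
  Matrix.mulVecLin !![0, -u 0, -u 1, -u 2; u 0, 0, -u 2, u 1; u 1, u 2, 0, -u 0; u 2, -u 1, u 0, 0]

/-- The rotations taking `a.1` to `a.2`: a line in projective space when `a` is null. -/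
def hl (a : V6) : Sub := LinearMap.ker (rm a.1 - lm a.2)

/-- The point of projective space attached to a motion. -/
def pt (g : V3 → V3) : Sub := ⨅ p : V3, ⨅ q : V3, hl (p - q, g p - g q)

/-- Orientation preserving rigid motions. -/
def Mot (g : V3 → V3) : Prop := pt g ≠ ⊥

/-- Study lift of the projective space of motions through the pin `w`. -/
def lift (w : V6) : E →ₗ[ℝ] E × E := LinearMap.prod LinearMap.id (lm w.2 - rm w.1)

/-- A family of motions, each matching a nondegenerate set of at least `s` points. -/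
def Fam (A B : Finset V3) (ζ s : ℝ) (G : Finset (V3 → V3)) (Y : (V3 → V3) → Finset V3) : Prop :=
  ∀ g ∈ G, Mot g ∧ Y g ⊆ A ∧ (∀ p ∈ Y g, g p ∈ B) ∧ ND ζ (Y g) ∧ s ≤ (Y g).card

/-- The bound for rich motions. -/
def RB (Θ m ζ : ℝ) : Prop :=
  ∀ A B : Finset V3, (A.card : ℝ) ≤ m → (B.card : ℝ) ≤ m → ∀ s : ℝ, 0 < s → m ^ 2 ≤ s ^ 3 →
    ∀ (G : Finset (V3 → V3)) (Y : (V3 → V3) → Finset V3), Fam A B ζ s G Y →
      (G.card : ℝ) * s ^ 3 ≤ Θ

/-- Neighbours of a vertex. -/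
noncomputable def nb (A B : Finset V3) (v : V6) : Finset V6 :=
  (A ×ˢ B).filter fun y => y ≠ v ∧ Bf (y - v) (y - v) = 0

/-- The lines seen from a vertex. -/
noncomputable def lv (P : Finset V3) (v : V6) : Finset Sub :=
  (nb P P v).image fun y => hl (y - v)

/-- Triangles, possibly degenerate. -/
noncomputable def tri (P : Finset V3) : Finset (V6 × V6 × V6) :=
  ((P ×ˢ P) ×ˢ (P ×ˢ P) ×ˢ (P ×ˢ P)).filter fun t =>
    t.2.1 ∈ nb P P t.1 ∧ t.2.2 ∈ nb P P t.1 ∧ Bf (t.2.2 - t.2.1) (t.2.2 - t.2.1) = 0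

/-- The direction space of a triangle. -/
def tw (t : V6 × V6 × V6) : Submodule ℝ V6 := Submodule.span ℝ {t.2.1 - t.1, t.2.2 - t.1}

/-- Vertices in the flat through `v` with directions `W`. -/
noncomputable def fl (P : Finset V3) (v : V6) (W : Submodule ℝ V6) : Finset V6 :=
  (P ×ˢ P).filter fun y => y - v ∈ W

/-- The direction space recovered from two lines. -/
def wof (l l' : Sub) : Submodule ℝ V6 :=
  Submodule.span ℝ {a | a ≠ 0 ∧ Bf a a = 0 ∧ (hl a = l ∨ hl a = l')}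

/-- Number of distinct distances. -/
noncomputable def nd (P : Finset V3) : ℕ :=
  (P.offDiag.image fun q => (q.1 - q.2) ⬝ᵥ (q.1 - q.2)).card

/-- The lines from the pin `w` to the vertices of `S`. -/
noncomputable def lns (S : Finset V6) (w : V6) : Finset Sub := S.image fun y => hl (y - w)

/-- The regular system of pins extracted from an extremal family of motions. -/
structure Pins (Z s : ℝ) (A B : Finset V3) (G : Finset (V3 → V3)) (Y : (V3 → V3) → Finset V3)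
    (x : ℕ) (W : Finset V6) (X : V6 → Finset (V3 → V3)) : Prop where
  sub : W ⊆ A ×ˢ B
  subG : ∀ w ∈ W, X w ⊆ G
  card : ∀ w ∈ W, (X w).card = x
  mem : ∀ w ∈ W, ∀ g ∈ X w, w.1 ∈ Y g ∧ g w.1 = w.2 ∧ s ≤ Z * dirs (Y g) w.1
  col : ∀ w ∈ W, ∀ l : Sub, finrank ℝ l = 2 →
    Z ^ 9 * (((X w).filter fun g => pt g ≤ l).card : ℝ) ≤ x
  big : G.card * s ≤ 20 * Z * x * W.card

/-- The vertex `v` is adjacent to a rich line of `Y g` through the pin `w`. -/
def lin (e : ℝ) (Y : (V3 → V3) → Finset V3) (g : V3 → V3) (w v : V6) : Prop :=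
  g v.1 ≠ v.2 ∧ ∃ q ∈ Y g, q ≠ w.1 ∧ e ^ 2 / 2 ≤ ((ln (Y g) w.1 q).card : ℝ) ∧
    Bf (v - w) ((q, g q) - w) = 0

/-- The choice of a surface for every line at every vertex. -/
def SfOK (Z : ℝ) (P : Finset V3) (sf : V6 → Sub → Finset Sub) : Prop :=
  ∀ v ∈ P ×ˢ P, ∀ l, sf v l = ∅ ∨ (Surf Z (sf v l) ∧ sf v l ⊆ lv P v ∧ l ∈ sf v l)

/-- Meeting pairs of lines outside the chosen surface. -/
noncomputable def UU (P : Finset V3) (sf : V6 → Sub → Finset Sub) : ℕ :=
  ∑ v ∈ P ×ˢ P, ((mp (lv P v)).filter fun q => q.2 ∉ sf v q.1).card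

/-- Meeting pairs of lines inside a chosen surface that is not a regulus. -/
noncomputable def UK (P : Finset V3) (sf : V6 → Sub → Finset Sub) : ℕ :=
  ∑ v ∈ P ×ˢ P, ((mp (lv P v)).filter fun q => q.2 ∈ sf v q.1 ∧ ¬ Reg (sf v q.1)).card

/-- Number of ordered edges. -/
noncomputable def EE (P : Finset V3) : ℕ := ∑ v ∈ P ×ˢ P, (nb P P v).card

/-- Number of cherries. -/
noncomputable def SS (P : Finset V3) : ℕ := ∑ v ∈ P ×ˢ P, (nb P P v).card ^ 2

@[simp] theorem mem_nb {A B : Finset V3} {v y : V6} :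
    y ∈ nb A B v ↔ y.1 ∈ A ∧ y.2 ∈ B ∧ y ≠ v ∧ Bf (y - v) (y - v) = 0 := by
  simp only [nb, mem_filter, mem_product, and_assoc]

theorem mem_lv {P : Finset V3} {v : V6} {l : Sub} :
    l ∈ lv P v ↔ ∃ y ∈ nb P P v, hl (y - v) = l := mem_image

theorem mem_lns {S : Finset V6} {w : V6} {l : Sub} :
    l ∈ lns S w ↔ ∃ y ∈ S, hl (y - w) = l := mem_image

@[simp] theorem mem_fl {P : Finset V3} {v y : V6} {W : Submodule ℝ V6} :
    y ∈ fl P v W ↔ y.1 ∈ P ∧ y.2 ∈ P ∧ y - v ∈ W := by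
  simp only [fl, mem_filter, mem_product, and_assoc]

theorem mem_tri {P : Finset V3} {t : V6 × V6 × V6} :
    t ∈ tri P ↔ t.1.1 ∈ P ∧ t.1.2 ∈ P ∧ t.2.1 ∈ nb P P t.1 ∧ t.2.2 ∈ nb P P t.1 ∧
      Bf (t.2.2 - t.2.1) (t.2.2 - t.2.1) = 0 := by
  simp only [tri, mem_filter, mem_product, mem_nb]
  tauto

end Vale.Agent.P054
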