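import Vale.Agent.P054.Regu

/-!
Lines on an irreducible surface.
-/

namespace Vale.Agent.P054

open Finset Module
open scoped Classical

/-- The derivative of `f` along the linear vector field `J`. -/
noncomputable def vd (J : E →ₗ[ℝ] E) (f : MvPolynomial (Fin 4) ℝ) : MvPolynomial (Fin 4) ℝ :=
  ∑ i, lf ((LinearMap.proj i).comp J) * MvPolynomial.pderiv i f

theorem surf_eval_vd (J : E →ₗ[ℝ] E) (f : MvPolynomial (Fin 4) ℝ) (x : E) :
    MvPolynomial.eval x (vd J f) = ∑ i, J x i * MvPolynomial.eval x (MvPolynomial.pderiv i f) := by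
  simp [vd, eval_lf]

theorem surf_vd_C (J : E →ₗ[ℝ] E) (c : ℝ) : vd J (MvPolynomial.C c) = 0 := by
  simp [vd]

theorem surf_vd_add (J : E →ₗ[ℝ] E) (f g : MvPolynomial (Fin 4) ℝ) :
    vd J (f + g) = vd J f + vd J g := by
  simp only [vd, map_add, mul_add, sum_add_distrib]

theorem surf_vd_mul (J : E →ₗ[ℝ] E) (f g : MvPolynomial (Fin 4) ℝ) :
    vd J (f * g) = vd J f * g + f * vd J g := by
  simp only [vd, MvPolynomial.pderiv_mul, sum_mul, mul_sum, ← sum_add_distrib]
  exact sum_congr rfl fun i _ => by ring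

theorem surf_vd_X (J : E →ₗ[ℝ] E) (i : Fin 4) :
    vd J (MvPolynomial.X i) = lf ((LinearMap.proj i).comp J) := by
  simp [vd, MvPolynomial.pderiv_X, Pi.single_apply]

theorem surf_vd_lf (J : E →ₗ[ℝ] E) (φ : E →ₗ[ℝ] ℝ) : vd J (lf φ) = lf (φ.comp J) := by
  refine MvPolynomial.funext fun x => ?_
  rw [surf_eval_vd, eval_lf, LinearMap.comp_apply, ← eval_lf φ (J x)]
  simp [lf, MvPolynomial.pderiv_X, Pi.single_apply, mul_comm, Fin.sum_univ_four]

theorem surf_comm (J₁ J₂ : E →ₗ[ℝ] E) (f : MvPolynomial (Fin 4) ℝ) :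
    vd J₂ (vd J₁ f) - vd J₁ (vd J₂ f) = vd (J₁ ∘ₗ J₂ - J₂ ∘ₗ J₁) f := by
  induction f using MvPolynomial.induction_on with
  | C c => simp [vd]
  | add f g h1 h2 =>
    simp only [surf_vd_add]
    rw [← h1, ← h2]
    ring
  | mul_X f i h =>
    have h1 : lf ((LinearMap.proj i).comp (J₁ ∘ₗ J₂ - J₂ ∘ₗ J₁)) =
        lf (((LinearMap.proj i).comp J₁).comp J₂) - lf (((LinearMap.proj i).comp J₂).comp J₁) :=
      MvPolynomial.funext fun x => by simp [eval_lf]
    simp only [surf_vd_mul, surf_vd_add, surf_vd_X, surf_vd_lf]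
    rw [← h, h1]
    ring

theorem surf_deriv (y v : E) (f : MvPolynomial (Fin 4) ℝ) :
    Polynomial.derivative (bezaL y v f) =
      bezaL y v (∑ i, MvPolynomial.C (v i) * MvPolynomial.pderiv i f) := by
  induction f using MvPolynomial.induction_on with
  | C c => simp [bezaL]
  | add f g h1 h2 => simp only [map_add, mul_add, sum_add_distrib, h1, h2]
  | mul_X f i h =>
    have h1 : ∑ j, MvPolynomial.C (v j) * MvPolynomial.pderiv j (f * MvPolynomial.X i) =
        (∑ j, MvPolynomial.C (v j) * MvPolynomial.pderiv j f) * MvPolynomial.X i +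
          f * MvPolynomial.C (v i) := by
      have h2 : ∀ j, MvPolynomial.pderiv j (f * MvPolynomial.X i) =
          MvPolynomial.pderiv j f * MvPolynomial.X i + if i = j then f else 0 := fun j => by
        rw [MvPolynomial.pderiv_mul, MvPolynomial.pderiv_X, Pi.single_apply, mul_ite, mul_one,
          mul_zero]
      simp only [h2, mul_add, sum_add_distrib, sum_mul, mul_assoc, mul_ite, mul_zero, sum_ite_eq,
        mem_univ, if_true]
      rw [mul_comm f]
    rw [h1, map_mul, Polynomial.derivative_mul, h, map_add, map_mul, map_mul]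
    simp [bezaL]

theorem surf_tan {f : MvPolynomial (Fin 4) ℝ} {l : Sub} (h : van f l) {y v : E} (hy : y ∈ l)
    (hv : v ∈ l) : ∑ i, v i * MvPolynomial.eval y (MvPolynomial.pderiv i f) = 0 := by
  have h1 : bezaL y v f = 0 := Polynomial.funext fun t => by
    rw [beza_L_eval, h _ (add_mem hy (l.smul_mem t hv)), Polynomial.eval_zero]
  have h2 := congrArg (Polynomial.eval 0) (surf_deriv y v f)
  rw [h1, beza_L_eval, zero_smul, add_zero] at h2
  simpa using h2.symm

theorem surf_low {D a : ℕ} {f g : MvPolynomial (Fin 4) ℝ} (hf : IrrH D f)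
    (hfa : f.IsHomogeneous a) (hg : g.IsHomogeneous (a - 1)) (S : Finset Sub) (hS : Dim 2 S)
    (hb : D ^ 2 < S.card) (h : ∀ l ∈ S, van f l ∧ van g l) : g = 0 := by
  obtain ⟨hi, a', ha, hfa'⟩ := id hf
  obtain rfl := hfa.inj_right hfa' hi.ne_zero
  by_contra h0
  by_cases h1 : f ∣ g
  · obtain ⟨c, hc, h2⟩ := factor_homog hg h0 h1
    have := hfa.inj_right h2 hi.ne_zero
    have := bez_pos hi hfa
    omega
  · exact hb.not_ge (bezout hf h1 (hg.totalDegree_le.trans (by omega)) S hS h)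

theorem surf_eig {D : ℕ} {f : MvPolynomial (Fin 4) ℝ} (hf : IrrH D f)
    (S : Finset Sub) (hS : Dim 2 S) (h : ∀ l ∈ S, van f l) (J : E →ₗ[ℝ] E)
    (hb : D ^ 2 < (S.filter fun l => l.map J ≤ l).card) :
    ∃ c : ℝ, vd J f = MvPolynomial.C c * f := by
  obtain ⟨hi, a, ha, hfa⟩ := id hf
  have h1 : (vd J f).IsHomogeneous a := MvPolynomial.IsHomogeneous.sum _ _ _ fun i _ => by
    have h2 := (lf_homog ((LinearMap.proj i).comp J)).mul (hfa.pderiv (i := i))
    have := bez_pos hi hfa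
    rwa [show 1 + (a - 1) = a by omega] at h2
  have h2 : f ∣ vd J f := by
    by_contra h3
    refine hb.not_ge (bezout hf h3 (h1.totalDegree_le.trans ha) _ (hS.mono (filter_subset _ _))
      fun l hl => ?_)
    obtain ⟨h4, h5⟩ := mem_filter.1 hl
    refine ⟨h l h4, fun y hy => ?_⟩
    rw [surf_eval_vd]
    exact surf_tan (h l h4) hy (h5 (Submodule.mem_map_of_mem hy))
  rcases eq_or_ne (vd J f) 0 with h0 | h0
  · exact ⟨0, by rw [h0, map_zero, zero_mul]⟩
  · obtain ⟨u, hu⟩ := h2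
    obtain ⟨c, -, h3⟩ := factor_homog h1 h0 ⟨f, hu.trans (mul_comm _ _)⟩
    have h4 := h1.inj_right (hu ▸ hfa.mul h3) h0
    obtain rfl : c = 0 := by omega
    exact ⟨u.coeff 0, by rw [← MvPolynomial.totalDegree_eq_zero_iff_eq_C.1
      ((MvPolynomial.totalDegree_zero_iff_isHomogeneous _).2 h3), hu, mul_comm]⟩

theorem surf_plane {D : ℕ} (hD : 2 ≤ D) {f : MvPolynomial (Fin 4) ℝ} (hf : IrrH D f) {p : Sub}
    (hp : finrank ℝ p = 3) (S : Finset Sub) (hS : Dim 2 S) (h : ∀ l ∈ S, van f l ∧ l ≤ p)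
    (hb : D ^ 2 < S.card) {l : Sub} (hl : van f l) : l ≤ p := by
  obtain ⟨φ, h0, hφ⟩ := p.exists_le_ker_of_lt_top (lt_top_iff_ne_top.2 fun e => by
    rw [e, finrank_top, Module.finrank_fin_fun] at hp
    omega)
  have h1 : p = LinearMap.ker φ := Submodule.eq_of_le_of_finrank_le hφ (by
    have h2 := Submodule.finrank_lt (s := LinearMap.ker φ) (by rwa [Ne, LinearMap.ker_eq_top])
    rw [Module.finrank_fin_fun] at h2
    rw [hp]
    exact Nat.lt_succ_iff.1 h2)
  have h2 : f ∣ lf φ := by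
    by_contra h3
    exact hb.not_ge (bezout hf h3 ((lf_homog φ).totalDegree_le.trans (by omega)) S hS fun u hu =>
      ⟨(h u hu).1, fun x hx => (eval_lf φ x).trans (hφ ((h u hu).2 hx))⟩)
  obtain ⟨u, hu⟩ := h2
  intro x hx
  rw [h1, LinearMap.mem_ker, ← eval_lf, hu, map_mul, hl x hx, zero_mul]

/-- If a surface contains a plane, all its lines lie in that plane. Hint: the plane contains
more than `D²` lines, so `f` divides the linear form. -/
theorem plane_of_van {D : ℕ} (hD : 2 ≤ D) {f : MvPolynomial (Fin 4) ℝ} (hf : IrrH D f) {p : Sub}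
    (hp : finrank ℝ p = 3) (h : van f p) {l : Sub} (hl : van f l) : l ≤ p := by
  let b := Module.finBasisOfFinrankEq ℝ p hp
  have hi : ∀ α β γ : ℝ, α • (b 0 : E) + β • (b 1 : E) + γ • (b 2 : E) = 0 →
      α = 0 ∧ β = 0 ∧ γ = 0 := fun α β γ e => by
    have h1 := Fintype.linearIndependent_iff.1 b.linearIndependent ![α, β, γ]
      (Subtype.ext (by simpa [Fin.sum_univ_three] using e))
    exact ⟨h1 0, h1 1, h1 2⟩
  let m : ℕ → Sub := fun t => Submodule.span ℝ {(b 0 : E), (b 1 : E) + (t : ℝ) • (b 2 : E)}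
  have h1 : Function.Injective m := fun s t e => by
    have h2 : (b 1 : E) + (s : ℝ) • (b 2 : E) ∈ m t := e ▸ Submodule.subset_span (by simp)
    obtain ⟨α, β, h3⟩ := Submodule.mem_span_pair.1 h2
    obtain ⟨-, h4, h5⟩ := hi α (β - 1) (β * t - s) (by linear_combination (norm := module) h3)
    have h6 : (s : ℝ) = t := by linear_combination t * h4 - h5
    exact_mod_cast h6
  have h2 : ∀ t, finrank ℝ (m t) = 2 := fun t => by
    have h3 : LinearIndependent ℝ ![(b 0 : E), (b 1 : E) + (t : ℝ) • (b 2 : E)] :=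
      LinearIndependent.pair_iff.2 fun α β e => by
        obtain ⟨h4, h5, -⟩ := hi α β (β * t) (by linear_combination (norm := module) e)
        exact ⟨h4, h5⟩
    have h4 := finrank_span_eq_card h3
    rwa [Matrix.range_cons_cons_empty] at h4
  have h3 : ∀ t, m t ≤ p := fun t => Submodule.span_le.2 (Set.pair_subset (b 0).2
    (add_mem (b 1).2 (p.smul_mem _ (b 2).2)))
  refine surf_plane hD hf hp ((range (D ^ 2 + 1)).image m) (fun u hu => ?_) (fun u hu => ?_) ?_ hl
  · obtain ⟨t, -, rfl⟩ := mem_image.1 hu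
    exact h2 t
  · obtain ⟨t, -, rfl⟩ := mem_image.1 hu
    exact ⟨fun x hx => h x (h3 t hx), h3 t⟩
  · rw [card_image_of_injective _ h1, card_range]
    omega

/-- Hint: the derivative along `x` vanishes on all lines through `x`, so it is divisible by `f`,
so it is zero, so `f` is invariant under translation by `x`. -/
theorem cone {D : ℕ} (hD : 2 ≤ D) {f : MvPolynomial (Fin 4) ℝ} (hf : IrrH D f)
    (S : Finset Sub) (hS : Dim 2 S) (h : ∀ l ∈ S, van f l) {x : Sub} (hx : finrank ℝ x = 1)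
    (hb : D ^ 2 < thru S x) :
    (∃ p : Sub, finrank ℝ p = 3 ∧ ∀ l ∈ S, l ≤ p) ∨ ∀ l ∈ S, x ≤ l := by
  obtain ⟨v, hv, hv0⟩ := exists_vec hx
  obtain ⟨hi, a, ha, hfa⟩ := id hf
  have h1 : ∑ i, MvPolynomial.C (v i) * MvPolynomial.pderiv i f = 0 := by
    refine surf_low hf hfa (MvPolynomial.IsHomogeneous.sum _ _ _ fun i _ => hfa.pderiv.C_mul _)
      (S.filter fun l => x ≤ l) (hS.mono (filter_subset _ _)) hb fun l hl => ?_
    obtain ⟨h2, h3⟩ := mem_filter.1 hl
    refine ⟨h l h2, fun y hy => ?_⟩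
    simpa using surf_tan (h l h2) hy (h3 hv)
  have h2 : ∀ (y : E) (t : ℝ), MvPolynomial.eval (y + t • v) f = MvPolynomial.eval y f := by
    intro y t
    have h3 := surf_deriv y v f
    rw [h1, map_zero] at h3
    have h4 := Polynomial.eq_C_of_derivative_eq_zero h3
    rw [← beza_L_eval, h4, Polynomial.eval_C, Polynomial.coeff_zero_eq_eval_zero, beza_L_eval,
      zero_smul, add_zero]
  rw [or_iff_not_imp_right]
  intro h3
  push Not at h3
  obtain ⟨l, hl, h3⟩ := h3
  refine ⟨x ⊔ l, sup_pt_line hx (hS l hl) h3, fun u hu =>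
    plane_of_van hD hf (sup_pt_line hx (hS l hl) h3) (fun z hz => ?_) (h u hu)⟩
  obtain ⟨w, hw, y, hy, rfl⟩ := Submodule.mem_sup.1 hz
  obtain ⟨t, rfl⟩ := Submodule.mem_span_singleton.1
    (pt_le_of_mem hx hv hv0 (Submodule.mem_span_singleton_self v) hw)
  rw [add_comm, h2, h l hl y hy]

/-- Hint: `vd Jᵢ f = cᵢ f` by Bezout and degrees, the commutator gives zero, Euler gives the
identity field. If the four vectors span everywhere, all first derivatives vanish on all
lines of `S`, so they are zero and `f` is constant. -/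
theorem vf_of_van {D : ℕ} (hD : 2 ≤ D) {f : MvPolynomial (Fin 4) ℝ} (hf : IrrH D f)
    (S : Finset Sub) (hS : Dim 2 S) (h : ∀ l ∈ S, van f l) : VF ((D : ℝ) ^ 2) S := by
  intro J₁ J₂ h1 h2
  obtain ⟨hi, a, ha, hfa⟩ := id hf
  have h1' : D ^ 2 < (S.filter fun l => l.map J₁ ≤ l).card := by exact_mod_cast h1
  obtain ⟨c₁, e₁⟩ := surf_eig hf S hS h J₁ h1'
  obtain ⟨c₂, e₂⟩ := surf_eig hf S hS h J₂ (by exact_mod_cast h2)
  have e₃ : vd (J₁ ∘ₗ J₂ - J₂ ∘ₗ J₁) f = 0 := by
    rw [← surf_comm, e₁, e₂, surf_vd_mul, surf_vd_mul, surf_vd_C, surf_vd_C, e₁, e₂]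
    ring
  by_contra h3
  push Not at h3
  have h4 : ∀ i, MvPolynomial.pderiv i f = 0 := fun i => by
    refine surf_low hf hfa hfa.pderiv _ (hS.mono (filter_subset _ _)) h1' fun l hl => ?_
    have h5 := (mem_filter.1 hl).1
    refine ⟨h l h5, ?_⟩
    have h6 : ∀ x ∈ l, x ≠ 0 → MvPolynomial.eval x (MvPolynomial.pderiv i f) = 0 := by
      intro x hx hx0
      let g : E →ₗ[ℝ] ℝ := ∑ j, MvPolynomial.eval x (MvPolynomial.pderiv j f) • LinearMap.proj j
      have hg : ∀ J : E →ₗ[ℝ] E, g (J x) = MvPolynomial.eval x (vd J f) := fun J => by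
        simp [g, surf_eval_vd, mul_comm]
      have h7 : Submodule.span ℝ ({x, J₁ x, J₂ x, J₁ (J₂ x) - J₂ (J₁ x)} : Set E) ≤
          LinearMap.ker g := by
        refine Submodule.span_le.2 fun z hz => ?_
        rcases hz with rfl | rfl | rfl | rfl
        · have h8 := surf_tan (h l h5) hx hx
          simpa [g, mul_comm] using h8
        · exact (hg J₁).trans (by rw [e₁, map_mul, h l h5 x hx, mul_zero])
        · exact (hg J₂).trans (by rw [e₂, map_mul, h l h5 x hx, mul_zero])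
        · exact (hg (J₁ ∘ₗ J₂ - J₂ ∘ₗ J₁)).trans (by rw [e₃, map_zero])
      rw [h3 x hx0] at h7
      have h8 : g (Pi.single i 1) = 0 := h7 Submodule.mem_top
      simpa [g, Pi.single_apply] using h8
    intro x hx
    rcases eq_or_ne x 0 with rfl | hx0
    · obtain ⟨y, hy, hy0⟩ := exists_vec (hS l h5)
      rw [← zero_smul ℝ y, eval_smul_homog hfa.pderiv, h6 y hy hy0, mul_zero]
    · exact h6 x hx hx0
  have h5 := hfa.sum_X_mul_pderiv
  simp only [h4, mul_zero, sum_const_zero] at h5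
  exact smul_ne_zero (bez_pos hi hfa) hi.ne_zero h5.symm

theorem surf_tri {D : ℕ} (hD : 2 ≤ D) {f : MvPolynomial (Fin 4) ℝ} (hf : IrrH D f)
    (S : Finset Sub) (hS : Dim 2 S) (h : ∀ l ∈ S, van f l) :
    (∃ p : Sub, finrank ℝ p = 3 ∧ ∀ l ∈ S, l ≤ p) ∨
      (∃ x : Sub, finrank ℝ x = 1 ∧ ∀ l ∈ S, x ≤ l) ∨ Surf ((D : ℝ) ^ 2) S := by
  by_cases h1 : ∃ p : Sub, finrank ℝ p = 3 ∧ D ^ 2 < inpl S p
  · obtain ⟨p, hp, h1⟩ := h1
    exact Or.inl ⟨p, hp, fun l hl => surf_plane hD hf hp _ (hS.mono (filter_subset _ _))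
      (fun u hu => ⟨h u (mem_filter.1 hu).1, (mem_filter.1 hu).2⟩) h1 (h l hl)⟩
  by_cases h2 : ∃ x : Sub, finrank ℝ x = 1 ∧ D ^ 2 < thru S x
  · obtain ⟨x, hx, h2⟩ := h2
    exact (cone hD hf S hS h hx h2).imp_right fun h3 => Or.inl ⟨x, hx, h3⟩
  push Not at h1 h2
  exact Or.inr (Or.inr ⟨fun p hp => by exact_mod_cast h1 p hp, fun x hx => by exact_mod_cast h2 x hx,
    vf_of_van hD hf S hS h, reg_or_k3 hD hf S hS h⟩)

theorem Surf.mono {Z Z' : ℝ} {S : Finset Sub} (h : Surf Z S) (hZ : Z ≤ Z') : Surf Z' S := by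
  exact ⟨fun p hp => (h.pl p hp).trans hZ, fun x hx => (h.pt x hx).trans hZ,
    fun J₁ J₂ h1 h2 => h.vf J₁ J₂ (hZ.trans_lt h1) (hZ.trans_lt h2),
    h.rk.imp_right fun h1 a ha b hb c hc e1 e2 e3 => (h1 a ha b hb c hc e1 e2 e3).trans hZ⟩

end Vale.Agent.P054
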