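import Vale.Agent.P054.ThmG
import Vale.Agent.P054.Surf

/-!
The structure theorem in the form that is used.
-/

namespace Vale.Agent.P054

open Finset Module
open scoped Classical

theorem gp_main {D : ℕ} (hD : 2 ≤ D) {L : Finset Sub} (hL : Dim 2 L) {b τ : ℝ} (hb : 0 < b)
    (h4 : 4 * (D : ℝ) ^ 2 * L.card ≤ b ^ 2) (hs : √(L.card : ℝ) ≤ τ) :
    ∃ (FF : Finset (Finset Sub)) (sf : Sub → Finset Sub),
      (∀ S ∈ FF, S ⊆ L ∧ Surf ((D : ℝ) ^ 2) S) ∧ ∑ S ∈ FF, S.card ≤ 2 * L.card ∧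
      (∀ l, sf l = ∅ ∨ (sf l ∈ FF ∧ l ∈ sf l)) ∧
      (((mp L).filter fun q => (thru L (q.1 ⊓ q.2) : ℝ) < τ ∧ (inpl L (q.1 ⊔ q.2) : ℝ) < τ ∧
        q.2 ∉ sf q.1).card : ℝ) ≤ (gp D b L).card + (4 + 2 * D ^ 2) * (τ * L.card) := by
  have hτ : 0 ≤ τ := (Real.sqrt_nonneg _).trans hs
  have hD' : (2 : ℝ) ≤ D := by exact_mod_cast hD
  have h5 : 4 * (L.card : ℝ) ≤ b ^ 2 := by
    refine le_trans ?_ h4
    have : (1 : ℝ) ≤ (D : ℝ) ^ 2 := by nlinarith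
    nlinarith [(Nat.cast_nonneg L.card : (0 : ℝ) ≤ _)]
  obtain ⟨FF, hFF⟩ : ∃ FF : Finset (Finset Sub), ∀ S, S ∈ FF ↔
      S ∈ bigS D b L ∧ Surf ((D : ℝ) ^ 2) S := ⟨_, fun S => mem_filter⟩
  have hsum : ∑ S ∈ FF, S.card ≤ 2 * L.card :=
    (sum_le_sum_of_subset fun S hS => ((hFF S).1 hS).1).trans (bigS_sum hL hb h4)
  have hsum' : ((∑ S ∈ FF, S.card : ℕ) : ℝ) ≤ 2 * L.card := by exact_mod_cast hsum
  have hcard : (FF.card : ℝ) ≤ τ := by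
    have h1 : (FF.card : ℝ) * b ≤ 2 * L.card := by
      refine le_trans ?_ hsum'
      rw [Nat.cast_sum, ← nsmul_eq_mul]
      exact card_nsmul_le_sum _ _ _ fun S hS => (mem_filter.1 ((hFF S).1 hS).1).2.1
    have h2 : 2 * √(L.card : ℝ) ≤ b := by
      refine (pow_le_pow_iff_left₀ (by positivity) hb.le two_ne_zero).1 ?_
      rw [mul_pow, Real.sq_sqrt (Nat.cast_nonneg _)]
      linarith
    refine le_trans (le_of_mul_le_mul_right (h1.trans ?_) hb) hs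
    nlinarith [Real.sq_sqrt (Nat.cast_nonneg L.card : (0 : ℝ) ≤ _), Real.sqrt_nonneg (L.card : ℝ)]
  have h0 : ∀ l : Sub, ∃ S : Finset Sub, (S = ∅ ∧ ∀ T ∈ FF, l ∉ T) ∨ (S ∈ FF ∧ l ∈ S) := fun l => by
    by_cases h1 : ∃ T ∈ FF, l ∈ T
    · exact h1.imp fun _ => Or.inr
    · push Not at h1
      exact ⟨∅, Or.inl ⟨rfl, h1⟩⟩
  choose sf hsf using h0
  refine ⟨FF, sf, fun S hS => ⟨mem_powerset.1 (mem_filter.1 ((hFF S).1 hS).1).1, ((hFF S).1 hS).2⟩,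
    hsum, fun l => (hsf l).imp_left And.left, ?_⟩
  have h1 := thmg_pts hL hτ hb h5 ((mp L).filter fun q =>
    b ≤ thru L (q.1 ⊓ q.2) ∧ (thru L (q.1 ⊓ q.2) : ℝ) ≤ τ) fun q hq => mem_filter.1 hq
  have h2 := thmg_big hL hτ hb h4 ((mp L).filter fun q =>
    ∃ S ∈ bigS D b L, q.1 ∈ S ∧ q.2 ∈ S ∧ (S.card : ℝ) ≤ τ) fun q hq => (mem_filter.1 hq).2
  have h3 := thmg_cov ((mp L).filter fun q => ∃ z ∈ FF ×ˢ FF, q.1 ∈ z.1 ∩ z.2 ∧ q.2 ∈ z.2 ∧
    ((z.1 ∩ z.2).card : ℝ) ≤ (D : ℝ) ^ 2) (FF ×ˢ FF) (fun z => z.1 ∩ z.2) (fun z => z.2)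
    (sq_nonneg (D : ℝ)) fun q hq => (mem_filter.1 hq).2
  have h6 : ((∑ z ∈ FF ×ˢ FF, z.2.card : ℕ) : ℝ) ≤ τ * (2 * L.card) := by
    rw [sum_product' FF FF fun _ S => S.card, sum_const, smul_eq_mul, Nat.cast_mul]
    exact mul_le_mul hcard hsum' (Nat.cast_nonneg _) hτ
  have h7 := thmg_union (le_refl ((gp D b L).card : ℝ)) (thmg_union h1 (thmg_union h2
    (h3.trans (mul_le_mul_of_nonneg_left h6 (sq_nonneg _)))))
  refine le_trans (Nat.cast_le.2 (card_le_card fun q hq => ?_)) (h7.trans (le_of_eq (by ring)))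
  obtain ⟨h8, h9, h10, h11⟩ := mem_filter.1 hq
  obtain ⟨a1, a2, a3, a4⟩ := mem_mp.1 h8
  rw [mem_union, mem_union, mem_union, or_iff_not_imp_left]
  intro h12
  rcases thmg_not h8 h12 with h13 | ⟨f, hf, h13, h14, h15⟩
  · exact Or.inl (mem_filter.2 ⟨h8, h13, h9.le⟩)
  have b1 : q.1 ∈ L.filter fun l => van f l := mem_filter.2 ⟨a1, h13⟩
  have b2 : q.2 ∈ L.filter fun l => van f l := mem_filter.2 ⟨a2, h14⟩
  have b3 := filter_subset (fun l => van f l) L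
  have h16 := surf_tri hD hf _ (hL.mono b3) fun l hl => (mem_filter.1 hl).2
  generalize (L.filter fun l => van f l) = S at h15 b1 b2 b3 h16
  rcases h16 with ⟨p, hp, h16⟩ | ⟨x, hx, h16⟩ | h16
  · refine Or.inr (Or.inl (mem_filter.2 ⟨h8, S, h15, b1, b2, le_trans (Nat.cast_le.2 ?_) h10.le⟩))
    rw [sup_eq_of_two (hL _ a1) (hL _ a2) hp a3 (h16 _ b1) (h16 _ b2)]
    exact card_le_card fun l hl => mem_filter.2 ⟨b3 hl, h16 l hl⟩
  · refine Or.inr (Or.inl (mem_filter.2 ⟨h8, S, h15, b1, b2, le_trans (Nat.cast_le.2 ?_) h9.le⟩))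
    rw [← Submodule.eq_of_le_of_finrank_eq (le_inf (h16 _ b1) (h16 _ b2))
      (hx.trans (thmg_one hL h8).symm)]
    exact card_le_card fun l hl => mem_filter.2 ⟨b3 hl, h16 l hl⟩
  · have h17 := (hFF S).2 ⟨h15, h16⟩
    obtain ⟨h18, h19⟩ := (hsf q.1).resolve_left fun e => e.2 S h17 b1
    refine Or.inr (Or.inr (mem_filter.2 ⟨h8, (sf q.1, S), mem_product.2 ⟨h18, h17⟩,
      mem_inter.2 ⟨h19, b1⟩, b2, ?_⟩))
    exact_mod_cast bigS_inter hL ((hFF _).1 h18).1 h15 fun e => h11 (e ▸ b2)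

/-- Hint: `b = |L| ^ (1/2 + η)`; `FF` = members of `bigS` with `Surf`; `sf l` = a member of `FF`
containing `l`, if any. A counted pair is in `gp`, or at a `b`-rich point, or in a rich surface
that is a plane or a cone (each at most `2 τ |L|` pairs), or in a member of `FF` other than
`sf l` (at most `|FF| D² · 2 |L|` pairs). Small `L` is trivial. -/
theorem gprop {η : ℝ} (h0 : 0 < η) :
    ∃ K : ℝ, 0 < K ∧ ∀ Z N : ℝ, 1 ≤ N → K * N ^ η ≤ Z → GProp Z N := by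
  obtain ⟨D, K, hD, hK, hG⟩ := thmG (η := min η (1 / 2)) (lt_min h0 (by norm_num)) (min_le_right _ _)
  have hη : 0 < min η (1 / 2) := lt_min h0 (by norm_num)
  have hη1 := min_le_left η (1 / 2)
  have hη2 := min_le_right η (1 / 2)
  generalize min η (1 / 2) = ε at hG hη hη1 hη2
  have hD' : (2 : ℝ) ≤ D := by exact_mod_cast hD
  have hc : (1 : ℝ) ≤ 4 * (D : ℝ) ^ 2 := by nlinarith
  refine ⟨K * (4 * D ^ 2) ^ 2 + 4 + 2 * D ^ 2, by positivity, fun Z N hN hZ L hL hLN τ hτ => ?_⟩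
  have e1 : 1 ≤ N ^ η := Real.one_le_rpow hN h0.le
  have e2 : K * (4 * D ^ 2) ^ 2 * N ^ η + 4 + 2 * D ^ 2 ≤ Z := by
    refine le_trans ?_ hZ
    nlinarith [sq_nonneg (D : ℝ)]
  have e3 : 0 ≤ K * (4 * D ^ 2) ^ 2 * N ^ η := by positivity
  rcases L.eq_empty_or_nonempty with rfl | hne
  · exact ⟨∅, fun _ => ∅, by simp, by simp, by simp, by simp [mp]⟩
  have hn : (1 : ℝ) ≤ L.card := by exact_mod_cast hne.card_pos
  have hs : √(L.card : ℝ) ≤ τ := by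
    refine le_trans (le_mul_of_one_le_left (Real.sqrt_nonneg _) ?_) hτ
    nlinarith [sq_nonneg (D : ℝ)]
  have hτ0 : 0 ≤ τ := (Real.sqrt_nonneg _).trans hs
  have hM : 1 ≤ 4 * (D : ℝ) ^ 2 * L.card := one_le_mul_of_one_le_of_one_le hc hn
  have h1 := hG (4 * D ^ 2 * L.card) L hL (le_mul_of_one_le_left (by positivity) hc)
  have hb : 0 < (4 * (D : ℝ) ^ 2 * L.card) ^ (1 / 2 + ε) := by positivity
  have h4 : 4 * (D : ℝ) ^ 2 * L.card ≤ ((4 * (D : ℝ) ^ 2 * L.card) ^ (1 / 2 + ε)) ^ 2 := by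
    rw [← Real.rpow_natCast _ 2, ← Real.rpow_natCast _ 2, ← Real.rpow_mul (by positivity)]
    conv_lhs => rw [← Real.rpow_one (4 * _ * _)]
    refine Real.rpow_le_rpow_of_exponent_le (by exact_mod_cast hM) ?_
    push_cast
    linarith
  have h2 : K * (4 * (D : ℝ) ^ 2 * L.card) ^ (3 / 2 + ε) ≤
      K * (4 * D ^ 2) ^ 2 * N ^ η * τ * L.card := by
    have h3 : (4 * (D : ℝ) ^ 2) ^ (3 / 2 + ε) ≤ (4 * D ^ 2) ^ 2 := by
      rw [← Real.rpow_natCast (4 * (D : ℝ) ^ 2) 2]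
      refine Real.rpow_le_rpow_of_exponent_le hc ?_
      push_cast
      linarith
    have h5 : (L.card : ℝ) ^ ε ≤ N ^ η :=
      (Real.rpow_le_rpow (by positivity) hLN hη.le).trans (Real.rpow_le_rpow_of_exponent_le hN hη1)
    rw [Real.mul_rpow (by positivity) (by positivity), show (L.card : ℝ) ^ (3 / 2 + ε) =
      L.card ^ ε * √L.card * L.card by
        rw [Real.sqrt_eq_rpow, ← Real.rpow_add (by linarith), ← Real.rpow_add_one (by linarith)]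
        congr 1
        ring]
    calc _ ≤ K * ((4 * D ^ 2) ^ 2 * (N ^ η * τ * L.card)) := by gcongr
      _ = _ := by ring
  generalize (4 * (D : ℝ) ^ 2 * L.card) ^ (1 / 2 + ε) = b at h1 hb h4
  obtain ⟨FF, sf, h5, h6, h7, h8⟩ := gp_main hD hL hb h4 hs
  refine ⟨FF, sf, fun S hS => ⟨(h5 S hS).1, (h5 S hS).2.mono ?_⟩, h6, h7, ?_⟩
  · nlinarith [sq_nonneg (D : ℝ)]
  · have h9 := mul_le_mul_of_nonneg_right e2 (by positivity : 0 ≤ τ * L.card)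
    linarith

end Vale.Agent.P054
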