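import Vale.Agent.P054.Top
import Vale.Agent.P054.Crit
import Vale.Agent.P054.GP
import Vale.Agent.P041.Main

/-!
The theorem.
-/

namespace Vale.Agent.P054

open Finset Module
open scoped Classical

theorem fin_dot_nonneg (u : V3) : 0 ≤ u ⬝ᵥ u := Finset.sum_nonneg fun _ _ => mul_self_nonneg _

theorem fin_unit (u : V3) : ∃ r : ℝ, (u ⬝ᵥ (r • u)) ^ 2 = u ⬝ᵥ u := by
  refine ⟨(√(u ⬝ᵥ u))⁻¹, ?_⟩
  rw [dotProduct_smul, smul_eq_mul, mul_pow, inv_pow, Real.sq_sqrt (fin_dot_nonneg u)]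
  by_cases h : u ⬝ᵥ u = 0
  · simp [h]
  · field_simp

theorem fin_gs (v w : V3) : ∃ e₁ e₂ : V3, ∀ a b : ℝ,
    (a • v + b • w) ⬝ᵥ (a • v + b • w)
      = ((a • v + b • w) ⬝ᵥ e₁) ^ 2 + ((a • v + b • w) ⬝ᵥ e₂) ^ 2 := by
  set c := (w ⬝ᵥ v) / (v ⬝ᵥ v) with hc
  set w' := w - c • v with hw'
  have h0 : w' ⬝ᵥ v = 0 := by
    rw [hw', sub_dotProduct, smul_dotProduct, smul_eq_mul, hc]
    by_cases h : v ⬝ᵥ v = 0
    · have : v = 0 := dotProduct_self_eq_zero.1 h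
      simp [this]
    · field_simp; ring
  have h0' : v ⬝ᵥ w' = 0 := by rw [dotProduct_comm, h0]
  obtain ⟨r, hr⟩ := fin_unit v
  obtain ⟨r', hr'⟩ := fin_unit w'
  refine ⟨r • v, r' • w', fun a b => ?_⟩
  have e : a • v + b • w = (a + b * c) • v + b • w' := by rw [hw']; module
  rw [e]
  simp only [add_dotProduct, dotProduct_add, smul_dotProduct, dotProduct_smul, smul_eq_mul, h0,
    h0'] at hr hr' ⊢
  linear_combination (-(a + b * c) ^ 2) * hr - b ^ 2 * hr'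

/-- Coplanar sets, from the planar theorem. -/
theorem copl_le {ε : ℝ} (hε : 0 < ε) : ∃ n₀ : ℕ, ∀ P T : Finset V3, T ⊆ P → Copl T →
    n₀ ≤ T.card → (T.card : ℝ) ^ (1 - ε) ≤ nd P := by
  obtain ⟨n₀, h⟩ := Vale.Agent.P041.pinned ε hε
  refine ⟨n₀, fun P T hT ⟨p, v, w, hc⟩ hn => ?_⟩
  obtain ⟨e₁, e₂, he⟩ := fin_gs v w
  let ψ : V3 → Vale.Agent.P041.Pl := fun q => WithLp.toLp 2 ![q ⬝ᵥ e₁, q ⬝ᵥ e₂]
  have key : ∀ q ∈ T, ∀ q' ∈ T, ‖ψ q - ψ q'‖ ^ 2 = (q - q') ⬝ᵥ (q - q') := by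
    intro q hq q' hq'
    obtain ⟨a, b, rfl⟩ := hc q hq
    obtain ⟨a', b', rfl⟩ := hc q' hq'
    have e : p + a • v + b • w - (p + a' • v + b' • w) = (a - a') • v + (b - b') • w := by module
    rw [e, he, ← e, EuclideanSpace.norm_sq_eq, Fin.sum_univ_two]
    simp [ψ, sub_dotProduct]
  have inj : Set.InjOn ψ T := by
    intro q hq q' hq' e
    have := key q hq q' hq'
    rw [e, sub_self, norm_zero] at this
    exact sub_eq_zero.1 (dotProduct_self_eq_zero.1 (by linarith))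
  have hcard : (T.image ψ).card = T.card := card_image_of_injOn inj
  obtain ⟨x, hx, hle⟩ := h (T.image ψ) (by rwa [hcard])
  rw [hcard] at hle
  refine hle.trans ?_
  obtain ⟨q₀, hq₀, rfl⟩ := mem_image.1 hx
  unfold nd
  rw [← Set.ncard_coe_finset]
  refine Nat.cast_le.2 (Set.ncard_le_ncard_of_injOn (fun r => r ^ 2) ?_ ?_ (finite_toSet _))
  · rintro r ⟨y, ⟨hy, hne⟩, rfl⟩
    obtain ⟨q, hq, rfl⟩ := mem_image.1 (mem_coe.1 hy)
    refine mem_coe.2 (mem_image.2 ⟨(q, q₀), mem_offDiag.2 ⟨hT hq, hT hq₀, ?_⟩,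
      (key q hq q₀ hq₀).symm⟩)
    intro e
    exact hne (congrArg ψ e)
  · rintro r ⟨y, -, rfl⟩ r' ⟨y', -, rfl⟩ e
    exact (pow_left_inj₀ (norm_nonneg _) (norm_nonneg _) two_ne_zero).1 e

theorem fin_log {t : ℝ} {J : ℕ} (ht : (24 * J + 1 : ℝ) ^ 2 ≤ t) : LogB (2 * t) ((t ^ J) ^ 6) := by
  intro k hk
  have hJ : (0 : ℝ) ≤ J := Nat.cast_nonneg _
  have ht1 : 1 ≤ t := le_trans (one_le_pow₀ (by linarith)) ht
  have s1 : 24 * J + 1 ≤ √t := Real.le_sqrt_of_sq_le ht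
  have s2 : √t ^ 2 = t := Real.sq_sqrt (by linarith)
  rcases Nat.eq_zero_or_pos k with rfl | hk0
  · simp; linarith
  have a1 : (2 : ℝ) ^ Nat.log 2 k ≤ k := by exact_mod_cast Nat.pow_log_le_self 2 hk0.ne'
  have a2 := Real.log_le_log (by positivity) (a1.trans hk)
  rw [Real.log_pow, Real.log_pow, Real.log_pow] at a2
  have a3 : Real.log t ≤ 2 * √t := by
    have := Real.log_le_sub_one_of_pos (show 0 < √t by linarith)
    rw [Real.log_sqrt (by linarith)] at this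
    linarith
  have a4 : 1 / 2 ≤ Real.log 2 := by have := Real.log_two_gt_d9; linarith
  have a5 : (Nat.log 2 k : ℝ) * (1 / 2) ≤ Nat.log 2 k * Real.log 2 := by gcongr
  have a6 : (J : ℝ) * Real.log t ≤ J * (2 * √t) := by gcongr
  have a7 : (24 * J + 1) * √t ≤ √t * √t := by gcongr
  push_cast at a2
  nlinarith

theorem main {ε : ℝ} (hε : 0 < ε) : ∃ n₀ : ℕ, ∀ P : Finset V3, n₀ ≤ P.card →
    (P.card : ℝ) ^ (2 / 3 - ε) ≤ nd P := by
  wlog h2 : ε ≤ 1 / 2 generalizing ε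
  · obtain ⟨n₀, h⟩ := this (ε := 1 / 2) (by norm_num) le_rfl
    refine ⟨max n₀ 1, fun P hP => le_trans ?_ (h P (le_of_max_le_left hP))⟩
    refine Real.rpow_le_rpow_of_exponent_le ?_ (by linarith)
    exact_mod_cast le_of_max_le_right hP
  obtain ⟨J, hJ⟩ := exists_nat_ge (142 / ε)
  have hJε : 142 ≤ J * ε := by rwa [div_le_iff₀ hε] at hJ
  have hJ1 : (1 : ℝ) ≤ J := by nlinarith
  have hJ0 : (0 : ℝ) < J := by linarith
  obtain ⟨K, hK0, hK⟩ := gprop (η := 1 / (12 * J)) (by positivity)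
  obtain ⟨n₁, h₁⟩ := copl_le (ε := 1 / J) (by positivity)
  have ev : ∀ C : ℝ, ∀ᶠ n : ℕ in Filter.atTop, C ≤ (n : ℝ) ^ (1 / J : ℝ) := fun C =>
    ((tendsto_rpow_atTop (by positivity)).comp tendsto_natCast_atTop_atTop).eventually_ge_atTop C
  obtain ⟨n₀, hn₀⟩ := Filter.eventually_atTop.1 ((ev (10 ^ 20)).and ((ev (10 ^ (12 * J))).and
    ((ev (K ^ 2)).and ((ev n₁).and ((ev ((24 * J + 1) ^ 2)).and (Filter.eventually_ge_atTop 2))))))
  refine ⟨n₀, fun P hP => ?_⟩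
  obtain ⟨t1, t2, t3, t4, t5, hn⟩ := hn₀ P.card hP
  by_contra hcon
  push Not at hcon
  have hn2 : (2 : ℝ) ≤ P.card := by exact_mod_cast hn
  have hn0 : (0 : ℝ) < P.card := by linarith
  set t := (P.card : ℝ) ^ (1 / J : ℝ) with ht
  have ht0 : 0 < t := Real.rpow_pos_of_pos hn0 _
  have htJ : t ^ J = P.card := by
    rw [ht, ← Real.rpow_natCast, ← Real.rpow_mul hn0.le, one_div_mul_cancel hJ0.ne', Real.rpow_one]
  have hZ : 10 ^ 20 ≤ 2 * t := by linarith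
  have hZ1 : 1 ≤ 2 * t := by linarith
  have hlog : LogB (2 * t) ((P.card : ℝ) ^ 6) := htJ ▸ fin_log t5
  have hG : GProp (2 * t) ((P.card : ℝ) ^ 6) := by
    refine hK _ _ (one_le_pow₀ (by linarith)) ?_
    have e : ((P.card : ℝ) ^ 6) ^ (1 / (12 * J) : ℝ) = √t := by
      rw [Real.sqrt_eq_rpow, ht, ← Real.rpow_natCast, ← Real.rpow_mul hn0.le,
        ← Real.rpow_mul hn0.le]
      congr 1
      push_cast
      field_simp
      norm_num
    rw [e]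
    have b1 : K ≤ √t := Real.le_sqrt_of_sq_le t3
    have b2 : K * √t ≤ √t * √t := by gcongr
    rw [Real.mul_self_sqrt ht0.le] at b2
    linarith
  have h8 : (8 : ℝ) ^ J ≤ 2 * t := by
    refine le_trans ?_ (t2.trans (by linarith))
    rw [pow_mul]
    gcongr
    norm_num
  have hRB := levels hZ hG hlog J h8 (m := P.card) hn0.le (by
    rw [show 2 * t / 2 = t by ring, htJ]
    exact le_mul_of_one_le_left hn0.le (one_le_pow₀ hZ1)) le_rfl
  have hRB' : RB ((2 * t) ^ 201 * (P.card : ℝ) ^ 4) P.card (8 ^ J * (2 * t) ^ 4) := by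
    refine hRB.mono ?_
    rw [show (2 * t) ^ 201 = (2 * t) * (2 * t) ^ 200 by ring]
    gcongr
    linarith
  set K' := (P.card : ℝ) ^ (2 / 3 - ε) with hK'
  have hK1 : 1 ≤ K' := Real.one_le_rpow (by linarith) (by linarith)
  set R := (P.card : ℝ) ^ (2 / 3 : ℝ) with hR
  have hR3 : R ^ 3 = (P.card : ℝ) ^ 2 := by
    rw [hR, ← Real.rpow_natCast, ← Real.rpow_mul hn0.le, ← Real.rpow_natCast]
    norm_num
  have hKR : (2 * t) ^ 71 * K' ≤ R := by
    have e : R = (P.card : ℝ) ^ ε * K' := by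
      rw [hR, hK', ← Real.rpow_add hn0]; congr 1; ring
    rw [e]
    gcongr
    have b1 : (2 * t) ^ 71 ≤ (t * t) ^ 71 := by gcongr; linarith
    have b2 : (t * t) ^ 71 = t ^ (142 : ℝ) := by
      rw [show (142 : ℝ) = ((142 : ℕ) : ℝ) by norm_num, Real.rpow_natCast]; ring
    have b3 : (P.card : ℝ) ^ ε = t ^ (J * ε) := by
      rw [Real.rpow_mul ht0.le, Real.rpow_natCast, htJ]
    rw [b3]
    exact b1.trans (b2 ▸ Real.rpow_le_rpow_of_exponent_le (by linarith) hJε)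
  have hc : ∀ T ⊆ P, Copl T → (T.card : ℝ) ≤ t * K' := by
    intro T hT hcT
    rcases le_or_gt n₁ T.card with h | h
    · have b1 := h₁ P T hT hcT h
      rcases Nat.eq_zero_or_pos T.card with h0 | h0
      · rw [h0, Nat.cast_zero]; positivity
      have hT0 : (0 : ℝ) < T.card := by exact_mod_cast h0
      have b2 : (T.card : ℝ) = (T.card : ℝ) ^ (1 / J : ℝ) * (T.card : ℝ) ^ (1 - 1 / J : ℝ) := by
        rw [← Real.rpow_add hT0, add_sub_cancel, Real.rpow_one]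
      have b3 : (T.card : ℝ) ^ (1 / J : ℝ) ≤ t :=
        Real.rpow_le_rpow hT0.le (by exact_mod_cast card_le_card hT) (by positivity)
      exact b2.le.trans (mul_le_mul b3 (b1.trans hcon.le) (Real.rpow_nonneg hT0.le _) ht0.le)
    · have b1 : (T.card : ℝ) ≤ n₁ := by exact_mod_cast h.le
      have b2 := le_mul_of_one_le_right ht0.le hK1
      linarith
  have := top P hZ hG hlog (pow_le_pow_right₀ (by linarith) (by norm_num)) hn hRB'
    (by positivity) (by rw [show (2 * t) ^ 5 = (2 * t) * (2 * t) ^ 4 by ring]; gcongr)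
    (by positivity) hR3 hc (by
      refine le_trans ?_ hKR
      rw [← mul_assoc]
      gcongr
      calc (2 * t) ^ 5 * t ≤ (2 * t) ^ 5 * (2 * t) := by gcongr; linarith
        _ = (2 * t) ^ 6 := by ring
        _ ≤ _ := pow_le_pow_right₀ hZ1 (by norm_num))
  have b : (2 * t) ^ 71 * (nd P : ℝ) ≤ (2 * t) ^ 71 * K' := by gcongr
  linarith

theorem main' (ε : ℝ) (hε : 0 < ε) :
    ∃ n₀ : ℕ, ∀ P : Finset (EuclideanSpace ℝ (Fin 3)), n₀ ≤ P.card →
      (P.card : ℝ) ^ (2 / 3 - ε) ≤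
        (Set.ncard {r : ℝ | ∃ p ∈ P, ∃ q ∈ P, p ≠ q ∧ r = dist p q} : ℝ) := by
  obtain ⟨n₀, h⟩ := main hε
  refine ⟨n₀, fun P hP => ?_⟩
  have hcard : (P.image WithLp.ofLp).card = P.card :=
    card_image_of_injective _ (WithLp.ofLp_injective 2)
  have h1 := h (P.image WithLp.ofLp) (by rwa [hcard])
  rw [hcard] at h1
  refine h1.trans (Nat.cast_le.2 ?_)
  have fin : {r : ℝ | ∃ p ∈ P, ∃ q ∈ P, p ≠ q ∧ r = dist p q}.Finite := by
    refine ((P ×ˢ P).image fun q => dist q.1 q.2).finite_toSet.subset ?_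
    rintro r ⟨p, hp, q, hq, -, rfl⟩
    exact mem_coe.2 (mem_image.2 ⟨(p, q), mem_product.2 ⟨hp, hq⟩, rfl⟩)
  unfold nd
  rw [← Set.ncard_coe_finset]
  refine le_trans (Set.ncard_le_ncard ?_ (fin.image fun r => r ^ 2)) (Set.ncard_image_le fin)
  intro z hz
  obtain ⟨⟨a, b⟩, hab, rfl⟩ := mem_image.1 (mem_coe.1 hz)
  obtain ⟨ha, hb, hne⟩ := mem_offDiag.1 hab
  obtain ⟨p, hp, rfl⟩ := mem_image.1 ha
  obtain ⟨q, hq, rfl⟩ := mem_image.1 hb
  refine ⟨dist p q, ⟨p, hp, q, hq, fun e => hne (by rw [e]), rfl⟩, ?_⟩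
  show dist p q ^ 2 = _
  rw [EuclideanSpace.dist_sq_eq]
  simp [dotProduct, Real.dist_eq, sq]

end Vale.Agent.P054
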