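import Vale.Agent.P054.Lin

/-!
A weighted bipartite form of the structure theorem.
-/

namespace Vale.Agent.P054

open Finset Module
open scoped Classical

theorem g2_pt (L B A : Finset Sub) (hL : Dim 2 L) {b u : ℝ} (hb : 0 < b) (hu : 0 ≤ u)
    (h4 : 4 * (L.card : ℝ) ≤ b ^ 2) (Q : Finset (Sub × Sub))
    (hQ : ∀ q ∈ Q, finrank ℝ ↥(q.1 ⊓ q.2) = 1 ∧ q.1 ∈ B ∧ q.2 ∈ A ∧ b ≤ thru L (q.1 ⊓ q.2) ∧
      (thru B (q.1 ⊓ q.2) : ℝ) * thru A (q.1 ⊓ q.2) ≤ u * thru L (q.1 ⊓ q.2)) :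
    (Q.card : ℝ) ≤ u * (2 * L.card) := by
  set X : Finset Sub := Q.image fun q => q.1 ⊓ q.2 with hX
  have h1 := card_le_sum_classes Q (fun q => q.1 ⊓ q.2) X (fun x => B.filter fun l => x ≤ l)
    (fun x => A.filter fun l => x ≤ l) (fun q hq => ⟨mem_image_of_mem _ hq,
      mem_filter.2 ⟨(hQ q hq).2.1, inf_le_left⟩, mem_filter.2 ⟨(hQ q hq).2.2.1, inf_le_right⟩⟩)
  have h2 := bigThru L X hL (fun x hx => by
    obtain ⟨q, hq, rfl⟩ := mem_image.1 hx; exact (hQ q hq).1) hb h4 (fun x hx => by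
    obtain ⟨q, hq, rfl⟩ := mem_image.1 hx; exact (hQ q hq).2.2.2.1)
  have h3 : (Q.card : ℝ) ≤ ∑ x ∈ X, (thru B x : ℝ) * thru A x := by exact_mod_cast h1
  have h5 : ∑ x ∈ X, (thru L x : ℝ) ≤ 2 * L.card := by exact_mod_cast h2
  calc (Q.card : ℝ) ≤ ∑ x ∈ X, u * (thru L x : ℝ) := h3.trans (sum_le_sum fun x hx => by
        obtain ⟨q, hq, rfl⟩ := mem_image.1 hx; exact (hQ q hq).2.2.2.2)
    _ ≤ _ := by rw [← mul_sum]; exact mul_le_mul_of_nonneg_left h5 hu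

theorem g2_pl (L B A : Finset Sub) (hL : Dim 2 L) {b u : ℝ} (hb : 0 < b) (hu : 0 ≤ u)
    (h4 : 4 * (L.card : ℝ) ≤ b ^ 2) (Q : Finset (Sub × Sub))
    (hQ : ∀ q ∈ Q, finrank ℝ ↥(q.1 ⊔ q.2) = 3 ∧ q.1 ∈ B ∧ q.2 ∈ A ∧ b ≤ inpl L (q.1 ⊔ q.2) ∧
      (inpl B (q.1 ⊔ q.2) : ℝ) * inpl A (q.1 ⊔ q.2) ≤ u * inpl L (q.1 ⊔ q.2)) :
    (Q.card : ℝ) ≤ u * (2 * L.card) := by
  set X : Finset Sub := Q.image fun q => q.1 ⊔ q.2 with hX
  have h1 := card_le_sum_classes Q (fun q => q.1 ⊔ q.2) X (fun x => B.filter fun l => l ≤ x)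
    (fun x => A.filter fun l => l ≤ x) (fun q hq => ⟨mem_image_of_mem _ hq,
      mem_filter.2 ⟨(hQ q hq).2.1, le_sup_left⟩, mem_filter.2 ⟨(hQ q hq).2.2.1, le_sup_right⟩⟩)
  have h2 := bigInpl (k := 2) L X hL (fun x hx => by
    obtain ⟨q, hq, rfl⟩ := mem_image.1 hx; exact (hQ q hq).1) hb h4 (fun x hx => by
    obtain ⟨q, hq, rfl⟩ := mem_image.1 hx; exact (hQ q hq).2.2.2.1)
  have h3 : (Q.card : ℝ) ≤ ∑ x ∈ X, (inpl B x : ℝ) * inpl A x := by exact_mod_cast h1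
  have h5 : ∑ x ∈ X, (inpl L x : ℝ) ≤ 2 * L.card := by exact_mod_cast h2
  calc (Q.card : ℝ) ≤ ∑ x ∈ X, u * (inpl L x : ℝ) := h3.trans (sum_le_sum fun x hx => by
        obtain ⟨q, hq, rfl⟩ := mem_image.1 hx; exact (hQ q hq).2.2.2.2)
    _ ≤ _ := by rw [← mul_sum]; exact mul_le_mul_of_nonneg_left h5 hu

theorem g2_three {α : Type*} (Q : Finset α) (p₁ p₂ : α → Prop) :
    (Q.card : ℝ) ≤ (Q.filter fun q => ¬ p₁ q ∧ ¬ p₂ q).card + (Q.filter p₁).card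
      + (Q.filter p₂).card := by
  have : Q ⊆ (Q.filter fun q => ¬ p₁ q ∧ ¬ p₂ q) ∪ Q.filter p₁ ∪ Q.filter p₂ := by
    intro q hq
    simp only [mem_union, mem_filter]
    tauto
  have h1 := card_le_card this
  have h2 := card_union_le ((Q.filter fun q => ¬ p₁ q ∧ ¬ p₂ q) ∪ Q.filter p₁) (Q.filter p₂)
  have h3 := card_union_le (Q.filter fun q => ¬ p₁ q ∧ ¬ p₂ q) (Q.filter p₁)
  exact_mod_cast (by omega : Q.card ≤ (Q.filter fun q => ¬ p₁ q ∧ ¬ p₂ q).card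
    + (Q.filter p₁).card + (Q.filter p₂).card)

/-- Two families, `|B| ≤ t`, `|A| ≤ t`. -/
theorem g2_group {Z N t : ℝ} (hZ : 2 ≤ Z) (hG : GProp Z N) (hN : 2 * t ≤ N) (A B : Finset Sub)
    (hA : Dim 2 A) (hB : Dim 2 B) (hAt : (A.card : ℝ) ≤ t) (hBt : (B.card : ℝ) ≤ t) :
    ∃ sf : Sub → Finset Sub, (∀ l, ∀ x : Sub, finrank ℝ x = 1 → (thru (sf l) x : ℝ) ≤ Z) ∧
      (((B ×ˢ A).filter fun q => q.1 ≠ q.2 ∧ meet q.1 q.2 ∧ q.2 ∉ sf q.1 ∧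
        (thru A (q.1 ⊓ q.2) : ℝ) < 2 * √t ∧ (inpl A (q.1 ⊔ q.2) : ℝ) < 2 * √t).card : ℝ)
        ≤ 8 * Z ^ 2 * (t * √t) := by
  have ht0 : 0 ≤ t := (Nat.cast_nonneg _).trans hAt
  rcases ht0.eq_or_lt with rfl | ht
  · have : A = ∅ := card_eq_zero.1 (by exact_mod_cast le_antisymm hAt (Nat.cast_nonneg _))
    subst this
    refine ⟨fun _ => ∅, fun l x _ => ?_, ?_⟩
    · simp only [thru, filter_empty, card_empty, Nat.cast_zero]; linarith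
    · simp
  set L := A ∪ B with hL
  have hLd : Dim 2 L := fun a ha => (mem_union.1 ha).elim (hA a) (hB a)
  have hLc : (L.card : ℝ) ≤ 2 * t := by
    have : (L.card : ℝ) ≤ A.card + B.card := by exact_mod_cast card_union_le A B
    linarith
  have hs : 0 < √t := Real.sqrt_pos.2 ht
  have hss : √t ^ 2 = t := Real.sq_sqrt ht0
  have hL0 : (0 : ℝ) ≤ L.card := Nat.cast_nonneg _
  have hτ : Z * √(L.card : ℝ) ≤ 2 * Z * √t := by
    have : √(L.card : ℝ) ≤ 2 * √t := Real.sqrt_le_iff.2 ⟨by positivity, by nlinarith⟩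
    nlinarith
  obtain ⟨FF, sf, f1, -, f3, f4⟩ := hG L hLd (hLc.trans hN) (2 * Z * √t) hτ
  refine ⟨sf, fun l x hx => ?_, ?_⟩
  · rcases f3 l with h | h
    · rw [h]; simp only [thru, filter_empty, card_empty, Nat.cast_zero]; linarith
    · exact (f1 _ h.1).2.pt x hx
  set Q := (B ×ˢ A).filter fun q => q.1 ≠ q.2 ∧ meet q.1 q.2 ∧ q.2 ∉ sf q.1 ∧
    (thru A (q.1 ⊓ q.2) : ℝ) < 2 * √t ∧ (inpl A (q.1 ⊔ q.2) : ℝ) < 2 * √t with hQ
  have hmem : ∀ q ∈ Q, q.1 ∈ B ∧ q.2 ∈ A ∧ q.1 ≠ q.2 ∧ meet q.1 q.2 ∧ q.2 ∉ sf q.1 ∧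
      (thru A (q.1 ⊓ q.2) : ℝ) < 2 * √t ∧ (inpl A (q.1 ⊔ q.2) : ℝ) < 2 * √t := by
    intro q hq
    simpa only [hQ, mem_filter, mem_product, and_assoc] using hq
  have hb : 0 < 2 * Z * √t := by positivity
  have h4 : 4 * (L.card : ℝ) ≤ (2 * Z * √t) ^ 2 := by
    have : (2 * Z * √t) ^ 2 = 4 * (Z ^ 2 * t) := by rw [mul_pow, hss]; ring
    have h2 : 4 * t ≤ Z ^ 2 * t := mul_le_mul_of_nonneg_right (by nlinarith) ht0
    linarith
  have k0 := g2_three Q (fun q => 2 * Z * √t ≤ thru L (q.1 ⊓ q.2))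
    (fun q => 2 * Z * √t ≤ inpl L (q.1 ⊔ q.2))
  have k1 : ((Q.filter fun q => ¬ 2 * Z * √t ≤ thru L (q.1 ⊓ q.2) ∧
      ¬ 2 * Z * √t ≤ inpl L (q.1 ⊔ q.2)).card : ℝ) ≤ Z * (2 * Z * √t) * L.card := by
    refine le_trans (Nat.cast_le.2 (card_le_card fun q hq => ?_)) f4
    obtain ⟨a1, a2, a3⟩ := mem_filter.1 hq
    obtain ⟨b1, b2, b3, b4, b5, -⟩ := hmem q a1
    exact mem_filter.2 ⟨mem_mp.2 ⟨mem_union_right _ b1, mem_union_left _ b2, b3, b4⟩,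
      not_le.1 a2, not_le.1 a3, b5⟩
  have k2 := g2_pt L B A hLd hb (u := 2 * √t) (by positivity) h4
    (Q.filter fun q => 2 * Z * √t ≤ thru L (q.1 ⊓ q.2)) (fun q hq => by
      obtain ⟨a1, a2⟩ := mem_filter.1 hq
      obtain ⟨b1, b2, b3, b4, -, b6, -⟩ := hmem q a1
      refine ⟨inf_one (hB _ b1) (hA _ b2) b3 b4, b1, b2, a2, ?_⟩
      have : (thru B (q.1 ⊓ q.2) : ℝ) ≤ thru L (q.1 ⊓ q.2) :=
        Nat.cast_le.2 (thru_mono subset_union_right _)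
      rw [mul_comm]
      exact mul_le_mul b6.le this (Nat.cast_nonneg _) (by positivity))
  have k3 := g2_pl L B A hLd hb (u := 2 * √t) (by positivity) h4
    (Q.filter fun q => 2 * Z * √t ≤ inpl L (q.1 ⊔ q.2)) (fun q hq => by
      obtain ⟨a1, a2⟩ := mem_filter.1 hq
      obtain ⟨b1, b2, b3, b4, -, -, b7⟩ := hmem q a1
      refine ⟨sup_three (hB _ b1) (hA _ b2) b3 b4, b1, b2, a2, ?_⟩
      have : (inpl B (q.1 ⊔ q.2) : ℝ) ≤ inpl L (q.1 ⊔ q.2) :=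
        Nat.cast_le.2 (inpl_mono subset_union_right _)
      rw [mul_comm]
      exact mul_le_mul b7.le this (Nat.cast_nonneg _) (by positivity))
  have m1 : Z * (2 * Z * √t) * L.card ≤ Z * (2 * Z * √t) * (2 * t) := by gcongr
  have m2 : 2 * √t * (2 * L.card) ≤ 2 * √t * (2 * (2 * t)) := by gcongr
  have m3 : 4 * (t * √t) ≤ Z ^ 2 * (t * √t) :=
    mul_le_mul_of_nonneg_right (by nlinarith) (by positivity)
  nlinarith

/-- One class: `A` has `t` lines, `M` is cut into groups of size `t`. -/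
theorem g2_class {Z N k : ℝ} (hZ : 2 ≤ Z) (hG : GProp Z N) (A M : Finset Sub) (hA : Dim 2 A)
    (hM : Dim 2 M) (hN : 2 * (A.card : ℝ) ≤ N)
    (h1 : ∀ x : Sub, finrank ℝ x = 1 → (thru M x : ℝ) ≤ k)
    (h2 : ∀ p : Sub, finrank ℝ p = 3 → (inpl M p : ℝ) ≤ k) :
    ∃ sf : Sub → Finset Sub, (∀ l, ∀ x : Sub, finrank ℝ x = 1 → (thru (sf l) x : ℝ) ≤ Z) ∧
      (((M ×ˢ A).filter fun q => q.1 ≠ q.2 ∧ meet q.1 q.2 ∧ q.2 ∉ sf q.1).card : ℝ)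
        ≤ 8 * Z ^ 2 * ((M.card + A.card) * √(A.card : ℝ)) + 4 * k * A.card := by
  have hk : 0 ≤ k := by
    have := h1 (Submodule.span ℝ {(fun _ => 1 : E)}) (finrank_span_singleton (by
      intro h; have := congrFun h 0; simp at this))
    exact (Nat.cast_nonneg _).trans this
  rcases A.eq_empty_or_nonempty with rfl | hne
  · refine ⟨fun _ => ∅, fun l x _ => ?_, ?_⟩
    · simp only [thru, filter_empty, card_empty, Nat.cast_zero]; linarith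
    · simp
  have ht1 : 1 ≤ A.card := hne.card_pos
  set t : ℝ := (A.card : ℝ) with ht
  have ht0 : 0 < t := by rw [ht]; exact_mod_cast ht1
  obtain ⟨gr, g1, g2⟩ := grouping M A.card ht1
  have hex := fun i : ℕ => g2_group hZ hG hN A (M.filter fun a => gr a = i) hA
    (hM.mono (filter_subset _ _)) le_rfl (by rw [ht]; exact_mod_cast g2 i)
  choose sfi s1 s2 using hex
  refine ⟨fun l => sfi (gr l) l, fun l x hx => s1 _ l x hx, ?_⟩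
  set Q := (M ×ˢ A).filter fun q => q.1 ≠ q.2 ∧ meet q.1 q.2 ∧ q.2 ∉ sfi (gr q.1) q.1 with hQ
  have hmem : ∀ q ∈ Q, q.1 ∈ M ∧ q.2 ∈ A ∧ q.1 ≠ q.2 ∧ meet q.1 q.2 ∧
      q.2 ∉ sfi (gr q.1) q.1 := by
    intro q hq
    simpa only [hQ, mem_filter, mem_product, and_assoc] using hq
  have hs : 0 < √t := Real.sqrt_pos.2 ht0
  have hss : √t ^ 2 = t := Real.sq_sqrt ht0.le
  have hb : 0 < 2 * √t := by positivity
  have h4 : 4 * (A.card : ℝ) ≤ (2 * √t) ^ 2 := by rw [mul_pow, hss]; linarith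
  have k0 := g2_three Q (fun q => 2 * √t ≤ thru A (q.1 ⊓ q.2))
    (fun q => 2 * √t ≤ inpl A (q.1 ⊔ q.2))
  have k2 := g2_pt A M A hA hb hk h4
    (Q.filter fun q => 2 * √t ≤ thru A (q.1 ⊓ q.2)) (fun q hq => by
      obtain ⟨a1, a2⟩ := mem_filter.1 hq
      obtain ⟨b1, b2, b3, b4, -⟩ := hmem q a1
      have := inf_one (hM _ b1) (hA _ b2) b3 b4
      exact ⟨this, b1, b2, a2, mul_le_mul_of_nonneg_right (h1 _ this) (Nat.cast_nonneg _)⟩)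
  have k3 := g2_pl A M A hA hb hk h4
    (Q.filter fun q => 2 * √t ≤ inpl A (q.1 ⊔ q.2)) (fun q hq => by
      obtain ⟨a1, a2⟩ := mem_filter.1 hq
      obtain ⟨b1, b2, b3, b4, -⟩ := hmem q a1
      have := sup_three (hM _ b1) (hA _ b2) b3 b4
      exact ⟨this, b1, b2, a2, mul_le_mul_of_nonneg_right (h2 _ this) (Nat.cast_nonneg _)⟩)
  set Q₁ := Q.filter fun q => ¬ 2 * √t ≤ thru A (q.1 ⊓ q.2) ∧ ¬ 2 * √t ≤ inpl A (q.1 ⊔ q.2)
    with hQ₁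
  have k1 : (Q₁.card : ℝ) ≤ ∑ i ∈ range (M.card / A.card + 1), 8 * Z ^ 2 * (t * √t) := by
    rw [card_eq_sum_card_fiberwise (f := fun q : Sub × Sub => gr q.1)
      (t := range (M.card / A.card + 1)) (fun q hq => mem_coe.2 (mem_range.2 (Nat.lt_succ_of_le
        (g1 _ (hmem q (mem_filter.1 (mem_coe.1 hq)).1).1))))]
    push_cast
    refine sum_le_sum fun i _ => le_trans (Nat.cast_le.2 (card_le_card fun q hq => ?_)) (s2 i)
    obtain ⟨a1, a2⟩ := mem_filter.1 hq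
    obtain ⟨a3, a4, a5⟩ := mem_filter.1 a1
    obtain ⟨b1, b2, b3, b4, b5⟩ := hmem q a3
    exact mem_filter.2 ⟨mem_product.2 ⟨mem_filter.2 ⟨b1, a2⟩, b2⟩, b3, b4, a2 ▸ b5,
      not_le.1 a4, not_le.1 a5⟩
  rw [sum_const, card_range, nsmul_eq_mul] at k1
  have m1 : ((M.card / A.card + 1 : ℕ) : ℝ) * t ≤ M.card + t := by
    have : ((M.card / A.card * A.card : ℕ) : ℝ) ≤ M.card := Nat.cast_le.2 (Nat.div_mul_le_self _ _)
    push_cast at this ⊢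
    rw [← ht] at this
    linarith
  have m2 : ((M.card / A.card + 1 : ℕ) : ℝ) * t * (8 * Z ^ 2 * √t)
      ≤ (M.card + t) * (8 * Z ^ 2 * √t) := by gcongr
  rw [← ht] at k2 k3
  nlinarith

theorem g2_num {Z k s₂ x m a t : ℝ} (hZ : 10 ^ 20 ≤ Z) (hk : 0 ≤ k) (hs0 : 0 ≤ s₂) (hx : 0 ≤ x)
    (hm : 0 ≤ m) (ha : 1 ≤ a) (ht : 0 ≤ t) (hxs : x * s₂ ≤ k ^ 2) (h1 : a * t ≤ x * s₂)
    (h2 : a ^ 2 * t ≤ 2 * x ^ 2) :
    Z * (2 * a * (8 * Z ^ 2 * ((m + t) * √t) + 4 * k * t) + x * m * Z)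
      ≤ Z ^ 4 * x * (m + k * s₂) := by
  have hZ0 : 0 ≤ Z := by linarith [show (0 : ℝ) ≤ 10 ^ 20 by positivity]
  have hZ1 : 100 ≤ Z := by linarith [show (100 : ℝ) ≤ 10 ^ 20 by norm_num]
  have hss : √t ^ 2 = t := Real.sq_sqrt ht
  have e1 : a * √t ≤ 2 * x := by
    refine abs_le_of_sq_le_sq' ?_ (by positivity) |>.2
    rw [mul_pow, hss]; nlinarith
  have e2 : √t ≤ k := Real.sqrt_le_iff.2 ⟨hk, by nlinarith⟩
  have e3 : a * t * √t ≤ x * s₂ * k := by gcongr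
  have e4 : Z ^ 2 * m * (a * √t) ≤ Z ^ 2 * m * (2 * x) := by gcongr
  have e5 : Z ^ 2 * (a * t * √t) ≤ Z ^ 2 * (x * s₂ * k) := by gcongr
  have e6 : k * (a * t) ≤ k * (x * s₂) := by gcongr
  have e7 : 32 * Z ^ 2 + Z ≤ Z ^ 3 := by nlinarith
  have e8 : 16 * Z ^ 2 + 8 ≤ Z ^ 3 := by nlinarith
  have e9 : (32 * Z ^ 2 + Z) * (x * m) ≤ Z ^ 3 * (x * m) := by gcongr
  have e10 : (16 * Z ^ 2 + 8) * (x * s₂ * k) ≤ Z ^ 3 * (x * s₂ * k) := by gcongr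
  have : 2 * a * (8 * Z ^ 2 * ((m + t) * √t) + 4 * k * t) + x * m * Z
      ≤ Z ^ 3 * x * (m + k * s₂) := by nlinarith
  calc _ ≤ Z * (Z ^ 3 * x * (m + k * s₂)) := by gcongr
    _ = _ := by ring

theorem g2_sq {ι : Type*} (X : Finset ι) (P : ι → Sub) (hP : Set.InjOn P X)
    (hX : ∀ g ∈ X, finrank ℝ (P g) = 1) (S : ι → Finset Sub)
    (hS : ∀ g ∈ X, ∀ l ∈ S g, P g ≤ l) (A : Finset Sub) (hA : Dim 2 A) (a : ℕ)
    (ha : ∀ u ∈ A, a ≤ (X.filter fun g => u ∈ S g).card) :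
    a * (a - 1) * A.card ≤ X.card ^ 2 := by
  have h := pairs_le X A (fun g u => u ∈ S g) (fun g hg g' hg' hne l hl l' hl' b1 b2 b3 b4 =>
    eq_of_two (hX g hg) (hX g' hg') (hA l hl) (hA l' hl') (fun e => hne (hP hg hg' e))
      (hS g hg l b1) (hS g' hg' l b2) (hS g hg l' b3) (hS g' hg' l' b4))
  refine le_trans ?_ h
  rw [mul_comm, ← smul_eq_mul]
  exact card_nsmul_le_sum A _ _ fun u hu =>
    Nat.mul_le_mul (ha u hu) (Nat.sub_le_sub_right (ha u hu) 1)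

theorem g2_lin {ι : Type*} (X : Finset ι) (S : ι → Finset Sub) (A : Finset Sub) (a : ℕ)
    (ha : ∀ u ∈ A, a ≤ (X.filter fun g => u ∈ S g).card) :
    a * A.card ≤ ∑ g ∈ X, (S g).card := by
  calc a * A.card ≤ ∑ u ∈ A, (X.filter fun g => u ∈ S g).card := by
        rw [mul_comm, ← smul_eq_mul]
        exact card_nsmul_le_sum A _ _ ha
    _ = ∑ g ∈ X, (A.filter fun u => u ∈ S g).card := by
        simp only [card_filter]
        exact sum_comm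
    _ ≤ _ := sum_le_sum fun g _ => card_le_card fun u hu => (mem_filter.1 hu).2

theorem g2_split {ι : Type*} (X : Finset ι) (P : ι → Sub) (S : ι → Finset Sub)
    (hS : ∀ g ∈ X, ∀ l ∈ S g, P g ≤ l) (A M : Finset Sub) (sf : Sub → Finset Sub) (b : ℕ)
    (hb : ∀ u ∈ A, (X.filter fun g => u ∈ S g).card ≤ b) :
    ∑ u ∈ A, ((X ×ˢ M).filter fun z => u ∈ S z.1 ∧ ¬ P z.1 ≤ z.2 ∧ meet z.2 u).card
      ≤ b * ((M ×ˢ A).filter fun q => q.1 ≠ q.2 ∧ meet q.1 q.2 ∧ q.2 ∉ sf q.1).card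
        + ∑ z ∈ X ×ˢ M, thru (sf z.2) (P z.1) := by
  have e1 : ∀ u ∈ A, ((X ×ˢ M).filter fun z => u ∈ S z.1 ∧ ¬ P z.1 ≤ z.2 ∧ meet z.2 u).card
      ≤ b * (M.filter fun l => l ≠ u ∧ meet l u ∧ u ∉ sf l).card
        + ((X ×ˢ M).filter fun z => u ∈ sf z.2 ∧ P z.1 ≤ u).card := by
    intro u hu
    have : ((X ×ˢ M).filter fun z => u ∈ S z.1 ∧ ¬ P z.1 ≤ z.2 ∧ meet z.2 u) ⊆
        ((X.filter fun g => u ∈ S g) ×ˢ (M.filter fun l => l ≠ u ∧ meet l u ∧ u ∉ sf l))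
          ∪ ((X ×ˢ M).filter fun z => u ∈ sf z.2 ∧ P z.1 ≤ u) := by
      intro z hz
      obtain ⟨a1, a2, a3, a4⟩ := mem_filter.1 hz
      obtain ⟨a5, a6⟩ := mem_product.1 a1
      have a7 := hS _ a5 u a2
      by_cases h : u ∈ sf z.2
      · exact mem_union_right _ (mem_filter.2 ⟨a1, h, a7⟩)
      · refine mem_union_left _ (mem_product.2 ⟨mem_filter.2 ⟨a5, a2⟩,
          mem_filter.2 ⟨a6, fun e => a3 (e ▸ a7), a4, h⟩⟩)
    refine (card_le_card this).trans ((card_union_le _ _).trans ?_)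
    rw [card_product]
    exact Nat.add_le_add_right (Nat.mul_le_mul_right _ (hb u hu)) _
  refine (sum_le_sum e1).trans ?_
  rw [sum_add_distrib, ← mul_sum]
  refine Nat.add_le_add (le_of_eq ?_) ?_
  · congr 1
    simp only [card_filter]
    rw [sum_product_right]
  · calc ∑ u ∈ A, ((X ×ˢ M).filter fun z => u ∈ sf z.2 ∧ P z.1 ≤ u).card
        = ∑ z ∈ X ×ˢ M, (A.filter fun u => u ∈ sf z.2 ∧ P z.1 ≤ u).card := by
          simp only [card_filter]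
          exact sum_comm
      _ ≤ _ := sum_le_sum fun z _ => card_le_card fun u hu => mem_filter.2 (mem_filter.1 hu).2

theorem g2_swap {ι : Type*} (X : Finset ι) (P : ι → Sub) (S : ι → Finset Sub) (M : Finset Sub) :
    ∑ g ∈ X, ∑ l ∈ M.filter (fun l => ¬ P g ≤ l), ((S g).filter fun u => meet l u).card
      = ∑ u ∈ X.biUnion S,
        ((X ×ˢ M).filter fun z => u ∈ S z.1 ∧ ¬ P z.1 ≤ z.2 ∧ meet z.2 u).card := by
  have e : ∑ u ∈ X.biUnion S,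
        ((X ×ˢ M).filter fun z => u ∈ S z.1 ∧ ¬ P z.1 ≤ z.2 ∧ meet z.2 u).card
      = ∑ z ∈ X ×ˢ M,
        ((X.biUnion S).filter fun u => u ∈ S z.1 ∧ ¬ P z.1 ≤ z.2 ∧ meet z.2 u).card := by
    simp only [card_filter]
    exact sum_comm
  rw [e, sum_product]
  refine sum_congr rfl fun g hg => ?_
  rw [sum_filter]
  refine sum_congr rfl fun l _ => ?_
  split_ifs with h
  · rw [filter_false_of_mem (fun u _ hu => hu.2.1 h), card_empty]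
  · congr 1
    ext u
    simp only [mem_filter, mem_biUnion]
    exact ⟨fun hu => ⟨⟨g, hg, hu.1⟩, hu.1, h, hu.2⟩, fun hu => ⟨hu.2.1, hu.2.2.2⟩⟩

/-- Hint: dyadic classes of the number `ω` of `g` with `l' ∈ S g`; a class of `t` lines has
`ω t ≤ x s₂` and `ω² t ≤ 2 x²`. -/
theorem g2 {ι : Type*} {Z N k s₂ : ℝ} (hZ : 10 ^ 20 ≤ Z) (hG : GProp Z N) (hlog : LogB Z N)
    (X : Finset ι) (P : ι → Sub) (hP : Set.InjOn P X) (hX : ∀ g ∈ X, finrank ℝ (P g) = 1)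
    (S : ι → Finset Sub)
    (hS : ∀ g ∈ X, Dim 2 (S g) ∧ ((S g).card : ℝ) ≤ s₂ ∧ ∀ l ∈ S g, P g ≤ l)
    (hN : 2 * ((X.biUnion S).card : ℝ) ≤ N) (hN' : (X.card : ℝ) ≤ N) (M : Finset Sub)
    (hM : Dim 2 M) (h1 : ∀ x : Sub, finrank ℝ x = 1 → (thru M x : ℝ) ≤ k)
    (h2 : ∀ p : Sub, finrank ℝ p = 3 → (inpl M p : ℝ) ≤ k) (hk : 0 ≤ k) (hs0 : 0 ≤ s₂)
    (hs : s₂ ≤ X.card) (hxs : X.card * s₂ ≤ k ^ 2) :
    ((∑ g ∈ X, ∑ l ∈ M.filter (fun l => ¬ P g ≤ l), ((S g).filter fun u => meet l u).card : ℕ) : ℝ)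
      ≤ Z ^ 4 * X.card * (M.card + k * s₂) := by
  have hZ2 : 2 ≤ Z := by linarith [show (2 : ℝ) ≤ 10 ^ 20 by norm_num]
  rw [g2_swap]
  push_cast
  obtain ⟨a, ha1, hd⟩ := dyadic (X.biUnion S) (fun u => (X.filter fun g => u ∈ S g).card)
    (fun u => (((X ×ˢ M).filter fun z : ι × Sub =>
      u ∈ S z.1 ∧ ¬ P z.1 ≤ z.2 ∧ meet z.2 u).card : ℝ)) hlog
    (fun u hu => by
      obtain ⟨g, hg, hu⟩ := mem_biUnion.1 hu
      exact ⟨card_pos.2 ⟨g, mem_filter.2 ⟨hg, hu⟩⟩,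
        le_trans (Nat.cast_le.2 (card_filter_le _ _)) hN'⟩) (fun _ _ => Nat.cast_nonneg _)
  refine hd.trans ?_
  set A := (X.biUnion S).filter fun u => a ≤ (X.filter fun g => u ∈ S g).card ∧
    (X.filter fun g => u ∈ S g).card < 2 * a with hA
  have hAd : Dim 2 A := fun u hu => by
    obtain ⟨g, hg, hu⟩ := mem_biUnion.1 (mem_filter.1 hu).1
    exact (hS g hg).1 u hu
  have hAc : (A.card : ℝ) ≤ (X.biUnion S).card := Nat.cast_le.2 (card_filter_le _ _)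
  obtain ⟨sf, s1, s2⟩ := g2_class hZ2 hG A M hAd hM (by linarith) h1 h2
  have k1 := g2_split X P S (fun g hg => (hS g hg).2.2) A M sf (2 * a)
    (fun u hu => (mem_filter.1 hu).2.2.le)
  have k2 := g2_lin X S A a (fun u hu => (mem_filter.1 hu).2.1)
  have k3 := g2_sq X P hP hX S (fun g hg => (hS g hg).2.2) A hAd a
    (fun u hu => (mem_filter.1 hu).2.1)
  have k4 : (a : ℝ) * A.card ≤ X.card * s₂ := by
    have c1 : (a : ℝ) * A.card ≤ ∑ g ∈ X, ((S g).card : ℝ) := by exact_mod_cast k2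
    have c2 := sum_le_card_nsmul X (fun g => ((S g).card : ℝ)) s₂ (fun g hg => (hS g hg).2.1)
    rw [nsmul_eq_mul] at c2
    exact c1.trans c2
  have hx0 : (0 : ℝ) ≤ X.card := Nat.cast_nonneg _
  have ht0 : (0 : ℝ) ≤ A.card := Nat.cast_nonneg _
  have k5 : (a : ℝ) ^ 2 * A.card ≤ 2 * (X.card : ℝ) ^ 2 := by
    obtain ⟨n, rfl⟩ := Nat.exists_eq_add_of_le' ha1
    rw [Nat.add_sub_cancel] at k3
    have c1 : ((n : ℝ) + 1) * n * A.card ≤ (X.card : ℝ) ^ 2 := by exact_mod_cast k3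
    have c2 : (X.card : ℝ) * s₂ ≤ X.card * X.card := by gcongr
    push_cast at k4 ⊢
    nlinarith
  have k6 : ∑ z ∈ X ×ˢ M, (thru (sf z.2) (P z.1) : ℝ) ≤ X.card * M.card * Z := by
    have := sum_le_card_nsmul (X ×ˢ M) (fun z => (thru (sf z.2) (P z.1) : ℝ)) Z
      (fun z hz => s1 _ _ (hX _ (mem_product.1 hz).1))
    rwa [nsmul_eq_mul, card_product, Nat.cast_mul] at this
  have k7 : ∑ u ∈ A,
      (((X ×ˢ M).filter fun z => u ∈ S z.1 ∧ ¬ P z.1 ≤ z.2 ∧ meet z.2 u).card : ℝ)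
      ≤ 2 * a * (((M ×ˢ A).filter fun q => q.1 ≠ q.2 ∧ meet q.1 q.2 ∧ q.2 ∉ sf q.1).card : ℝ)
        + ∑ z ∈ X ×ˢ M, (thru (sf z.2) (P z.1) : ℝ) := by exact_mod_cast k1
  refine le_trans ?_ (g2_num hZ hk hs0 hx0 (Nat.cast_nonneg M.card) (a := a)
    (by exact_mod_cast ha1) ht0 hxs k4 k5)
  refine mul_le_mul_of_nonneg_left (k7.trans (add_le_add ?_ k6)) (by linarith)
  exact mul_le_mul_of_nonneg_left s2 (by positivity)

end Vale.Agent.P054
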