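import Vale.Agent.P054.Comb

/-!
Linear algebra of points, lines and planes.
-/

namespace Vale.Agent.P054

open Finset Module
open scoped Classical

set_option linter.unusedSectionVars false

variable {F : Type*} [AddCommGroup F] [Module ℝ F] [FiniteDimensional ℝ F]

theorem lin_lt_sup {k : ℕ} {x y : Submodule ℝ F} (hx : finrank ℝ x = k)
    (hy : finrank ℝ y = k) (hne : x ≠ y) : k < finrank ℝ ↥(x ⊔ y) := by
  have h : x < x ⊔ y := by
    refine lt_of_le_of_ne le_sup_left fun h => hne ?_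
    have : y ≤ x := h ▸ le_sup_right
    exact (Submodule.eq_of_le_of_finrank_eq this (hy.trans hx.symm)).symm
  have := Submodule.finrank_lt_finrank_of_lt h
  omega

theorem lin_pos {a : Submodule ℝ F} (h : a ≠ ⊥) : 0 < finrank ℝ a := by
  rw [Nat.pos_iff_ne_zero, Ne, Submodule.finrank_eq_zero]; exact h

theorem sup_eq_of_two {k : ℕ} {x y a : Submodule ℝ F} (hx : finrank ℝ x = k)
    (hy : finrank ℝ y = k) (ha : finrank ℝ a = k + 1) (hne : x ≠ y) (h1 : x ≤ a) (h2 : y ≤ a) :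
    x ⊔ y = a := by
  refine Submodule.eq_of_le_of_finrank_le (sup_le h1 h2) ?_
  have := lin_lt_sup hx hy hne
  omega

/-- Two points determine a line, two lines determine a plane. -/
theorem eq_of_two {k : ℕ} {x y a b : Submodule ℝ F} (hx : finrank ℝ x = k)
    (hy : finrank ℝ y = k) (ha : finrank ℝ a = k + 1) (hb : finrank ℝ b = k + 1) (hne : x ≠ y)
    (h1 : x ≤ a) (h2 : y ≤ a) (h3 : x ≤ b) (h4 : y ≤ b) : a = b := by
  rw [← sup_eq_of_two hx hy ha hne h1 h2, ← sup_eq_of_two hx hy hb hne h3 h4]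

theorem inf_one {a b : Submodule ℝ F} (ha : finrank ℝ a = 2) (hb : finrank ℝ b = 2)
    (hne : a ≠ b) (hm : meet a b) : finrank ℝ ↥(a ⊓ b) = 1 := by
  have h1 := lin_lt_sup ha hb hne
  have h2 := Submodule.finrank_sup_add_finrank_inf_eq a b
  have h3 := lin_pos hm
  omega

theorem sup_three {a b : Submodule ℝ F} (ha : finrank ℝ a = 2) (hb : finrank ℝ b = 2)
    (hne : a ≠ b) (hm : meet a b) : finrank ℝ ↥(a ⊔ b) = 3 := by
  have h1 := inf_one ha hb hne hm
  have h2 := Submodule.finrank_sup_add_finrank_inf_eq a b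
  omega

theorem sup_two {x y : Submodule ℝ F} (hx : finrank ℝ x = 1) (hy : finrank ℝ y = 1)
    (hne : x ≠ y) : finrank ℝ ↥(x ⊔ y) = 2 := by
  have h1 := lin_lt_sup hx hy hne
  have h2 := Submodule.finrank_sup_add_finrank_inf_eq x y
  omega

theorem sup_pt_line {x l : Submodule ℝ F} (hx : finrank ℝ x = 1) (hl : finrank ℝ l = 2)
    (h : ¬ x ≤ l) : finrank ℝ ↥(x ⊔ l) = 3 := by
  have h1 : l < x ⊔ l := lt_of_le_of_ne le_sup_right fun e => h (e ▸ le_sup_left)
  have h2 := Submodule.finrank_lt_finrank_of_lt h1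
  have h3 := Submodule.finrank_sup_add_finrank_inf_eq x l
  omega

theorem meet_of_pt {x a b : Submodule ℝ F} (hx : finrank ℝ x = 1) (h1 : x ≤ a) (h2 : x ≤ b) :
    meet a b := by
  intro h
  have : x = ⊥ := le_bot_iff.1 (h ▸ le_inf h1 h2)
  rw [this, finrank_bot] at hx
  omega

theorem meet_of_le_plane {a b p : Submodule ℝ F} (ha : finrank ℝ a = 2) (hb : finrank ℝ b = 2)
    (hp : finrank ℝ p = 3) (h1 : a ≤ p) (h2 : b ≤ p) : meet a b := by
  intro h
  have h3 := Submodule.finrank_sup_add_finrank_inf_eq a b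
  have h4 := Submodule.finrank_mono (sup_le h1 h2)
  rw [h, finrank_bot] at h3
  omega

theorem lin_le_of_not {x l q : Submodule ℝ F} (hl : finrank ℝ l = 2) (hx : x ≤ l) (y : Submodule ℝ F)
    (hy : y ≤ l) (hx0 : x ≠ ⊥) (hy0 : y ≠ ⊥) (hxy : x ⊓ y = ⊥) (h1 : x ≤ q) (h2 : y ≤ q) :
    l ≤ q := by
  have a1 := lin_pos hx0
  have a2 := lin_pos hy0
  have a3 := Submodule.finrank_sup_add_finrank_inf_eq x y
  rw [hxy, finrank_bot] at a3
  have : x ⊔ y = l := Submodule.eq_of_le_of_finrank_le (sup_le hx hy) (by omega)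
  rw [← this]
  exact sup_le h1 h2

theorem meet_two {a b l : Submodule ℝ F} (ha : finrank ℝ a = 2) (hb : finrank ℝ b = 2)
    (hl : finrank ℝ l = 2) (hne : a ≠ b) (hm : meet a b) (h1 : meet l a) (h2 : meet l b) :
    a ⊓ b ≤ l ∨ l ≤ a ⊔ b := by
  by_cases h : l ⊓ a ⊓ (l ⊓ b) = ⊥
  · right
    exact lin_le_of_not hl inf_le_left (l ⊓ b) inf_le_left h1 h2 h
      (inf_le_right.trans le_sup_left) (inf_le_right.trans le_sup_right)
  · left
    have a1 := lin_pos h
    have a2 := inf_one ha hb hne hm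
    have a3 : l ⊓ a ⊓ (l ⊓ b) ≤ a ⊓ b := inf_le_inf inf_le_right inf_le_right
    have := Submodule.eq_of_le_of_finrank_le a3 (by omega)
    rw [← this]
    exact inf_le_left.trans inf_le_left

theorem le_sup_of_meet {x l u : Submodule ℝ F} (hx : finrank ℝ x = 1) (hl : finrank ℝ l = 2)
    (hu : finrank ℝ u = 2) (h : ¬ x ≤ l) (h1 : x ≤ u) (h2 : meet l u) : u ≤ x ⊔ l := by
  have hx0 : x ≠ ⊥ := by
    rintro rfl
    exact h bot_le
  refine lin_le_of_not hu h1 (l ⊓ u) inf_le_right hx0 h2 ?_ le_sup_left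
    (inf_le_left.trans le_sup_right)
  by_contra hc
  have a1 := lin_pos hc
  have := Submodule.eq_of_le_of_finrank_le (inf_le_left : x ⊓ (l ⊓ u) ≤ x) (by omega)
  exact h (this ▸ inf_le_right.trans inf_le_left)

theorem inf_planes {p q : Sub} (hp : finrank ℝ p = 3) (hq : finrank ℝ q = 3) (hne : p ≠ q) :
    finrank ℝ ↥(p ⊓ q) = 2 := by
  have h1 := lin_lt_sup hp hq hne
  have h2 := Submodule.finrank_sup_add_finrank_inf_eq p q
  have h3 := Submodule.finrank_le (p ⊔ q)
  rw [Module.finrank_fin_fun] at h3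
  omega

/-- A point is spanned by any of its nonzero vectors. -/
theorem pt_le_of_mem {x a : Submodule ℝ F} (hx : finrank ℝ x = 1) {y : F} (hy : y ∈ x)
    (h0 : y ≠ 0) (ha : y ∈ a) : x ≤ a := by
  have : Submodule.span ℝ {y} = x := by
    refine Submodule.eq_of_le_of_finrank_eq ((Submodule.span_singleton_le_iff_mem _ _).2 hy) ?_
    rw [finrank_span_singleton h0, hx]
  rw [← this]
  exact (Submodule.span_singleton_le_iff_mem _ _).2 ha

theorem exists_vec {x : Submodule ℝ F} {k : ℕ} (hx : finrank ℝ x = k + 1) :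
    ∃ y ∈ x, y ≠ 0 := by
  refine (Submodule.ne_bot_iff x).1 ?_
  rintro rfl
  rw [finrank_bot] at hx
  omega

theorem exists_pair {l : Submodule ℝ F} (hl : finrank ℝ l = 2) :
    ∃ a b : F, LinearIndependent ℝ ![a, b] ∧ l = Submodule.span ℝ {a, b} := by
  let b := Module.finBasisOfFinrankEq ℝ l hl
  have e : ![(b 0 : F), (b 1 : F)] = l.subtype ∘ b := by
    funext i; fin_cases i <;> rfl
  have li : LinearIndependent ℝ ![(b 0 : F), (b 1 : F)] := by
    rw [e]; exact b.linearIndependent.map' _ (Submodule.ker_subtype l)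
  refine ⟨b 0, b 1, li, (Submodule.eq_of_le_of_finrank_eq ?_ ?_).symm⟩
  · rw [Submodule.span_le]
    rintro z (rfl | rfl)
    · exact (b 0).2
    · exact (b 1).2
  · have := finrank_span_eq_card li
    rw [Matrix.range_cons, Matrix.range_cons, Matrix.range_empty, Set.union_empty,
      Set.singleton_union] at this
    rw [this, hl]; simp

theorem bigThru (L X : Finset (Submodule ℝ F)) (hL : Dim 2 L) (hX : Dim 1 X) {b : ℝ}
    (hb : 0 < b) (h4 : 4 * (L.card : ℝ) ≤ b ^ 2) (h : ∀ x ∈ X, b ≤ thru L x) :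
    ∑ x ∈ X, thru L x ≤ 2 * L.card := by
  refine inclExcl X (fun x => L.filter fun l => x ≤ l) L (c := 1) hb zero_le_one
    (fun x _ => filter_subset _ _) h (fun x hx y hy hne => ?_) (by linarith)
  have : ((L.filter fun l => x ≤ l) ∩ (L.filter fun l => y ≤ l)).card ≤ 1 := by
    rw [card_le_one]
    intro a ha b hb
    simp only [mem_inter, mem_filter] at ha hb
    exact eq_of_two (hX x hx) (hX y hy) (hL a ha.1.1) (hL b hb.1.1) hne ha.1.2 ha.2.2 hb.1.2 hb.2.2
  exact_mod_cast this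

theorem bigInpl {k : ℕ} (L X : Finset (Submodule ℝ F)) (hL : Dim k L) (hX : Dim (k + 1) X)
    {b : ℝ} (hb : 0 < b) (h4 : 4 * (L.card : ℝ) ≤ b ^ 2) (h : ∀ x ∈ X, b ≤ inpl L x) :
    ∑ x ∈ X, inpl L x ≤ 2 * L.card := by
  refine inclExcl X (fun x => L.filter fun l => l ≤ x) L (c := 1) hb zero_le_one
    (fun x _ => filter_subset _ _) h (fun x hx y hy hne => ?_) (by linarith)
  have : ((L.filter fun l => l ≤ x) ∩ (L.filter fun l => l ≤ y)).card ≤ 1 := by
    rw [card_le_one]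
    intro a ha b hb
    simp only [mem_inter, mem_filter] at ha hb
    by_contra hab
    exact hne (eq_of_two (hL a ha.1.1) (hL b hb.1.1) (hX x hx) (hX y hy) hab ha.1.2 hb.1.2
      ha.2.2 hb.2.2)
  exact_mod_cast this

/-- Generic projection. Hint: induction on `k`; pick a functional outside the annihilators of
the nonzero members (`Submodule.exists_forall_notMem_of_forall_ne_top`), replace `u` by
`u ⊓ ker`. -/
theorem genProj (k : ℕ) (U : Finset (Submodule ℝ F)) (hU : ∀ u ∈ U, finrank ℝ u ≤ k) :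
    ∃ φ : F →ₗ[ℝ] (Fin k → ℝ), ∀ u ∈ U, u ⊓ LinearMap.ker φ = ⊥ := by
  induction k generalizing U with
  | zero =>
    refine ⟨0, fun u hu => ?_⟩
    have : u = ⊥ := Submodule.finrank_eq_zero.1 (Nat.le_zero.1 (hU u hu))
    simp [this]
  | succ k ih =>
    have : Finite {u // u ∈ U.filter (· ≠ ⊥)} := (U.filter (· ≠ ⊥)).finite_toSet.to_subtype
    obtain ⟨ψ, hψ⟩ := Submodule.exists_forall_notMem_of_forall_ne_top
      (fun u : {u // u ∈ U.filter (· ≠ ⊥)} => u.1.dualAnnihilator) (fun u h => by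
        have := (mem_filter.1 u.2).2
        exact this (Submodule.dualAnnihilator_eq_top_iff.1 h))
    obtain ⟨φ, hφ⟩ := ih (U.image fun u => u ⊓ LinearMap.ker ψ) (by
      intro v hv
      obtain ⟨u, hu, rfl⟩ := mem_image.1 hv
      by_cases h0 : u = ⊥
      · subst h0
        rw [bot_inf_eq, finrank_bot]
        exact Nat.zero_le _
      · have h1 := hψ ⟨u, mem_filter.2 ⟨hu, h0⟩⟩
        have h2 : u ⊓ LinearMap.ker ψ < u := by
          refine lt_of_le_of_ne inf_le_left fun e => h1 ?_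
          rw [Submodule.mem_dualAnnihilator]
          intro w hw
          have : w ∈ u ⊓ LinearMap.ker ψ := e.symm ▸ hw
          exact this.2
        have := Submodule.finrank_lt_finrank_of_lt h2
        have := hU u hu
        omega)
    refine ⟨LinearMap.pi (Fin.cons ψ fun j => (LinearMap.proj j).comp φ), fun u hu => ?_⟩
    rw [eq_bot_iff, ← hφ _ (mem_image_of_mem _ hu)]
    rintro x ⟨h1, h2⟩
    have h3 : ∀ i, (Fin.cons ψ (fun j => (LinearMap.proj j).comp φ) :
      Fin (k + 1) → F →ₗ[ℝ] ℝ) i x = 0 := fun i => congrFun h2 i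
    refine ⟨⟨h1, by simpa using h3 0⟩, ?_⟩
    show φ x = 0
    funext j
    simpa using h3 j.succ

theorem finrank_map_eq {G : Type*} [AddCommGroup G] [Module ℝ G] (φ : F →ₗ[ℝ] G)
    {u : Submodule ℝ F} (h : u ⊓ LinearMap.ker φ = ⊥) : finrank ℝ (u.map φ) = finrank ℝ u := by
  have h1 := LinearMap.finrank_range_add_finrank_ker (φ.domRestrict u)
  have h2 : LinearMap.ker (φ.domRestrict u) = ⊥ := by
    rw [eq_bot_iff]
    intro x hx
    have : (x : F) ∈ u ⊓ LinearMap.ker φ := ⟨x.2, hx⟩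
    rw [h] at this
    exact Subtype.ext this
  rw [h2, finrank_bot, LinearMap.range_domRestrict] at h1
  omega

theorem map_le_map_iff_of {G : Type*} [AddCommGroup G] [Module ℝ G] (φ : F →ₗ[ℝ] G)
    {a b : Submodule ℝ F} (h : (a ⊔ b) ⊓ LinearMap.ker φ = ⊥) : a.map φ ≤ b.map φ ↔ a ≤ b := by
  refine ⟨fun h1 x hx => ?_, Submodule.map_mono⟩
  obtain ⟨y, hy, e⟩ := h1 (Submodule.mem_map_of_mem hx)
  have : x - y ∈ (a ⊔ b) ⊓ LinearMap.ker φ :=
    ⟨sub_mem (Submodule.mem_sup_left hx) (Submodule.mem_sup_right hy), by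
      show φ (x - y) = 0
      rw [map_sub, e, sub_self]⟩
  rw [h, Submodule.mem_bot, sub_eq_zero] at this
  exact this ▸ hy

theorem meet_map_iff {G : Type*} [AddCommGroup G] [Module ℝ G] (φ : F →ₗ[ℝ] G)
    {a b : Submodule ℝ F} (h : (a ⊔ b) ⊓ LinearMap.ker φ = ⊥) :
    meet (a.map φ) (b.map φ) ↔ meet a b := by
  rw [meet_iff, meet_iff]
  constructor
  · rintro ⟨z, h0, ⟨x, hx, rfl⟩, ⟨y, hy, e⟩⟩
    have : x - y ∈ (a ⊔ b) ⊓ LinearMap.ker φ :=
      ⟨sub_mem (Submodule.mem_sup_left hx) (Submodule.mem_sup_right hy), by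
        show φ (x - y) = 0
        rw [map_sub, e, sub_self]⟩
    rw [h, Submodule.mem_bot, sub_eq_zero] at this
    refine ⟨x, ?_, hx, this ▸ hy⟩
    rintro rfl
    exact h0 (map_zero φ)
  · rintro ⟨x, h0, h1, h2⟩
    refine ⟨φ x, fun e => h0 ?_, Submodule.mem_map_of_mem h1, Submodule.mem_map_of_mem h2⟩
    have : x ∈ (a ⊔ b) ⊓ LinearMap.ker φ := ⟨Submodule.mem_sup_left h1, e⟩
    rwa [h, Submodule.mem_bot] at this

theorem inc_eq_sum_inpl (P L : Finset (Submodule ℝ F)) : inc P L = ∑ l ∈ L, inpl P l := by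
  unfold inc inpl
  simp only [card_filter]
  rw [sum_product_right]

theorem inc_eq_sum_thru (P L : Finset (Submodule ℝ F)) : inc P L = ∑ p ∈ P, thru L p := by
  unfold inc thru
  simp only [card_filter]
  rw [sum_product]

end Vale.Agent.P054
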