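import Vale.Agent.P054.ST

/-!
Most lines through the points of a pin meet few of the rich lines.
-/

namespace Vale.Agent.P054

open Finset Module
open scoped Classical

theorem nl_inpl (X : Finset Sub) (p : Sub) :
    (inpl X p : ℝ) = ∑ g ∈ X, if g ≤ p then (1 : ℝ) else 0 := by
  rw [inpl, card_filter]
  push_cast
  rfl

/-- The planes spanned by a point and a line. -/
noncomputable def nlP (X L : Finset Sub) : Finset Sub :=
  ((X ×ˢ L).image fun q => q.1 ⊔ q.2).filter fun p => finrank ℝ p = 3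

theorem nl_dim (X L : Finset Sub) : Dim 3 (nlP X L) := fun _ h => (mem_filter.1 h).2

theorem nl_pt {Z b : ℝ} {s₁ : ℕ} (hZ : 0 < Z) {X L S R : Finset Sub} {g₀ g : Sub}
    (h0 : finrank ℝ g₀ = 1) (h1 : finrank ℝ g = 1) (hg : g ∈ X) (hL : Dim 2 L) (hS : S ⊆ L)
    (hc : S.card = s₁) (hS' : ∀ l ∈ S, g₀ ≤ l) (hR : Dim 2 R) (hRc : Z * R.card ≤ s₁)
    (hR' : ∀ l ∈ R, g ≤ l) :
    ((S.filter fun l => ¬ g ≤ l ∧ ∃ u ∈ R, meet l u).card : ℝ) ≤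
      s₁ * (if g ≠ g₀ ∧ Z ≤ inpl X (g₀ ⊔ g) then 1 else 0) +
      s₁ * (if ∃ u ∈ R, g₀ ≤ u ∧ (inpl X u : ℝ) < Z then 1 else 0) + s₁ / Z +
      (∑ p ∈ nlP X L, if (g₀ ≤ p ∧ 2 ≤ inpl S p ∧ (inpl X p : ℝ) < b) ∧
        g ≤ p ∧ g ≠ g₀ ∧ (inpl X (g₀ ⊔ g) : ℝ) < Z then (inpl S p : ℝ) else 0) +
      ∑ p ∈ nlP X L, if b ≤ inpl X p ∧ g₀ ≤ p ∧ g ≤ p then (inpl S p : ℝ) else 0 := by
  have n1 : (0 : ℝ) ≤ s₁ * (if g ≠ g₀ ∧ Z ≤ inpl X (g₀ ⊔ g) then 1 else 0) := by positivity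
  have n2 : (0 : ℝ) ≤ s₁ * (if ∃ u ∈ R, g₀ ≤ u ∧ (inpl X u : ℝ) < Z then 1 else 0) := by
    positivity
  have n3 : (0 : ℝ) ≤ s₁ / Z := by positivity
  have n4 : (0 : ℝ) ≤ ∑ p ∈ nlP X L, if (g₀ ≤ p ∧ 2 ≤ inpl S p ∧ (inpl X p : ℝ) < b) ∧
      g ≤ p ∧ g ≠ g₀ ∧ (inpl X (g₀ ⊔ g) : ℝ) < Z then (inpl S p : ℝ) else 0 :=
    sum_nonneg fun p _ => by positivity
  have n5 : (0 : ℝ) ≤ ∑ p ∈ nlP X L, if b ≤ inpl X p ∧ g₀ ≤ p ∧ g ≤ p then (inpl S p : ℝ) else 0 :=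
    sum_nonneg fun p _ => by positivity
  have t : ((S.filter fun l => ¬ g ≤ l ∧ ∃ u ∈ R, meet l u).card : ℝ) ≤ s₁ := by
    rw [← hc]
    exact Nat.cast_le.2 (card_filter_le _ _)
  by_cases e : g = g₀
  · rw [filter_eq_empty_iff.2 fun l hl k => k.1 (e ▸ hS' l hl), card_empty, Nat.cast_zero]
    linarith
  by_cases a : Z ≤ inpl X (g₀ ⊔ g)
  · rw [if_pos ⟨e, a⟩]
    linarith
  by_cases c : ∃ u ∈ R, g₀ ≤ u
  · obtain ⟨u, hu, k⟩ := c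
    have j := sup_eq_of_two h0 h1 (hR u hu) (Ne.symm e) k (hR' u hu)
    rw [if_pos (c := ∃ u ∈ R, g₀ ≤ u ∧ (inpl X u : ℝ) < Z) ⟨u, hu, k, j ▸ not_le.1 a⟩]
    linarith
  have sub : (S.filter fun l => ¬ g ≤ l ∧ ∃ u ∈ R, meet l u) ⊆
      ((R.filter fun u => inpl S (g₀ ⊔ u) ≤ 1).biUnion fun u => S.filter (· ≤ g₀ ⊔ u)) ∪
      (((nlP X L).filter fun p => (g₀ ≤ p ∧ 2 ≤ inpl S p ∧ (inpl X p : ℝ) < b) ∧
        g ≤ p ∧ g ≠ g₀ ∧ (inpl X (g₀ ⊔ g) : ℝ) < Z).biUnion fun p => S.filter (· ≤ p)) ∪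
      ((nlP X L).filter fun p => b ≤ inpl X p ∧ g₀ ≤ p ∧ g ≤ p).biUnion
        fun p => S.filter (· ≤ p) := by
    intro l hl
    obtain ⟨l1, l2, u, hu, l3⟩ := mem_filter.1 hl
    have d1 := sup_pt_line h1 (hL l (hS l1)) l2
    have d2 := sup_pt_line h0 (hR u hu) fun k => c ⟨u, hu, k⟩
    have d3 : g₀ ≤ g ⊔ l := (hS' l l1).trans le_sup_right
    have d4 : g₀ ⊔ u = g ⊔ l := Submodule.eq_of_le_of_finrank_eq
      (sup_le d3 (le_sup_of_meet h1 (hL l (hS l1)) (hR u hu) l2 (hR' u hu) l3)) (d2.trans d1.symm)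
    have d5 : g ⊔ l ∈ nlP X L :=
      mem_filter.2 ⟨mem_image.2 ⟨(g, l), mem_product.2 ⟨hg, hS l1⟩, rfl⟩, d1⟩
    have d6 : l ∈ S.filter (· ≤ g ⊔ l) := mem_filter.2 ⟨l1, le_sup_right⟩
    rw [mem_union, mem_union]
    by_cases i : b ≤ inpl X (g ⊔ l)
    · exact Or.inr (mem_biUnion.2 ⟨_, mem_filter.2 ⟨d5, i, d3, le_sup_left⟩, d6⟩)
    by_cases j : 2 ≤ inpl S (g ⊔ l)
    · exact Or.inl (Or.inr (mem_biUnion.2 ⟨_, mem_filter.2
        ⟨d5, ⟨d3, j, not_le.1 i⟩, le_sup_left, e, not_le.1 a⟩, d6⟩))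
    · exact Or.inl (Or.inl (mem_biUnion.2 ⟨u, mem_filter.2 ⟨hu, by rw [d4]; omega⟩, d4 ▸ d6⟩))
  have k1 : ((R.filter fun u => inpl S (g₀ ⊔ u) ≤ 1).biUnion
      fun u => S.filter (· ≤ g₀ ⊔ u)).card ≤ R.card :=
    card_biUnion_le.trans ((sum_le_card_nsmul _ _ 1 fun u hu => (mem_filter.1 hu).2).trans
      (by rw [smul_eq_mul, mul_one]; exact card_filter_le _ _))
  have k2 := (card_le_card sub).trans ((card_union_le _ _).trans (add_le_add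
    ((card_union_le _ _).trans (add_le_add k1 card_biUnion_le)) card_biUnion_le))
  have k3 : (R.card : ℝ) ≤ s₁ / Z := by rwa [le_div_iff₀ hZ, mul_comm]
  have k4 := (Nat.cast_le (α := ℝ)).2 k2
  rw [← sum_filter, ← sum_filter]
  push_cast at k4
  unfold inpl at k4 n1 n2 ⊢
  linarith

theorem nl_1 {Z : ℝ} (hZ : 2 ≤ Z) {X : Finset Sub} (hX : Dim 1 X)
    (hcol : ∀ l : Sub, finrank ℝ l = 2 → Z * inpl X l ≤ X.card) :
    ∑ g₀ ∈ X, ∑ g ∈ X, (if g ≠ g₀ ∧ Z ≤ inpl X (g₀ ⊔ g) then (1 : ℝ) else 0) ≤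
      2 * 10 ^ 10 * (X.card : ℝ) ^ 2 / Z := by
  have Z0 : 0 < Z := by linarith
  obtain ⟨T, hT⟩ : ∃ T : Finset Sub, T = ((X ×ˢ X).image fun q : Sub × Sub => q.1 ⊔ q.2).filter
    fun l : Sub => finrank ℝ l = 2 ∧ Z ≤ inpl X l := ⟨_, rfl⟩
  have h1 := richSqK (⊥ : Sub) (finrank_bot ℝ E) X T hX
    (fun l hl => (mem_filter.1 (hT ▸ hl)).2.1) (fun _ _ => bot_le) (fun _ _ => bot_le) hZ
    (M := X.card / Z) (by positivity) fun l hl => ⟨(mem_filter.1 (hT ▸ hl)).2.2, by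
      rw [le_div_iff₀ Z0, mul_comm]
      exact hcol l (mem_filter.1 (hT ▸ hl)).2.1⟩
  refine le_trans ?_ (h1.trans (le_of_eq (by ring)))
  simp only [nl_inpl X (_ : Sub), sq, sum_mul_sum]
  simp only [← nl_inpl X (_ : Sub)]
  rw [sum_comm (s := T)]
  refine sum_le_sum fun g₀ h0 => ?_
  rw [sum_comm (s := T)]
  refine sum_le_sum fun g hg => ?_
  split_ifs with h
  · refine le_trans (le_of_eq ?_) (single_le_sum (a := g₀ ⊔ g) (f := fun l =>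
      (if g₀ ≤ l then (1 : ℝ) else 0) * if g ≤ l then 1 else 0) (fun l _ => by positivity) ?_)
    · simp
    · rw [hT]
      exact mem_filter.2 ⟨mem_image.2 ⟨(g₀, g), mem_product.2 ⟨h0, hg⟩, rfl⟩,
        sup_two (hX _ h0) (hX _ hg) (Ne.symm h.1), h.2⟩
  · exact sum_nonneg fun l _ => by positivity

theorem nl_2 {Z : ℝ} {s₁ : ℕ} (hZ : 0 < Z) (X R : Finset Sub) (hR : Z * R.card ≤ s₁) :
    ∑ g₀ ∈ X, (if ∃ u ∈ R, g₀ ≤ u ∧ (inpl X u : ℝ) < Z then (1 : ℝ) else 0) ≤ s₁ := by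
  have h : ∑ g₀ ∈ X, (if ∃ u ∈ R, g₀ ≤ u ∧ (inpl X u : ℝ) < Z then (1 : ℝ) else 0) ≤
      ∑ g₀ ∈ X, ∑ u ∈ R.filter fun u => (inpl X u : ℝ) < Z, if g₀ ≤ u then (1 : ℝ) else 0 := by
    refine sum_le_sum fun g₀ _ => ?_
    split_ifs with h
    · obtain ⟨u, hu, a, b⟩ := h
      exact le_trans (le_of_eq (if_pos a).symm) (single_le_sum (a := u)
        (f := fun u => if g₀ ≤ u then (1 : ℝ) else 0) (fun l _ => by positivity)
        (mem_filter.2 ⟨hu, b⟩))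
    · exact sum_nonneg fun l _ => by positivity
  rw [sum_comm] at h
  refine h.trans ((sum_le_card_nsmul _ _ Z fun u hu => ?_).trans ?_)
  · rw [← nl_inpl]
    exact (mem_filter.1 hu).2.le
  · rw [nsmul_eq_mul, mul_comm]
    exact (mul_le_mul_of_nonneg_left (Nat.cast_le.2 (card_filter_le _ _)) hZ.le).trans hR

theorem nl_sq {S P : Finset Sub} (hS : Dim 2 S) (hP : Dim 3 P) (h : ∀ p ∈ P, 2 ≤ inpl S p) :
    ∑ p ∈ P, (inpl S p : ℝ) ^ 2 ≤ 2 * (S.card : ℝ) ^ 2 := by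
  have h1 := pairs_le S P (fun l p => l ≤ p) fun a ha a' ha' hne p hp p' hp' i j k l =>
    eq_of_two (hS a ha) (hS a' ha') (hP p hp) (hP p' hp') hne i j k l
  have h2 : ∑ p ∈ P, inpl S p ^ 2 ≤ 2 * S.card ^ 2 := by
    refine le_trans ?_ (Nat.mul_le_mul_left 2 h1)
    rw [mul_sum]
    refine sum_le_sum fun p hp => ?_
    obtain ⟨k, hk⟩ := Nat.exists_eq_add_of_le' (h p hp)
    change inpl S p ^ 2 ≤ 2 * (inpl S p * (inpl S p - 1))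
    rw [hk, show k + 2 - 1 = k + 1 from rfl]
    nlinarith
  exact_mod_cast h2

theorem nl_4 {Z : ℝ} {s₁ : ℕ} (hZ : 2 ≤ Z) {X S P : Finset Sub} {g₀ : Sub} (hX : Dim 1 X)
    (h0 : finrank ℝ g₀ = 1) (hS : Dim 2 S) (hc : S.card = s₁) (hP : Dim 3 P) (h1 : Z ≤ s₁)
    (h2 : Z ^ 6 * s₁ ≤ X.card) :
    ∑ g ∈ X, ∑ p ∈ P, (if (g₀ ≤ p ∧ 2 ≤ inpl S p ∧ (inpl X p : ℝ) < X.card / Z ^ 4) ∧
      g ≤ p ∧ g ≠ g₀ ∧ (inpl X (g₀ ⊔ g) : ℝ) < Z then (inpl S p : ℝ) else 0) ≤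
      3 * 10 ^ 10 * (X.card * s₁) / Z := by
  have Z0 : 0 < Z := by linarith
  have s0 : (0 : ℝ) < s₁ := by linarith
  have x0 : (0 : ℝ) < X.card := lt_of_lt_of_le (by positivity) h2
  obtain ⟨Q, hQ⟩ : ∃ Q : Finset Sub, Q = P.filter fun p =>
    g₀ ≤ p ∧ 2 ≤ inpl S p ∧ (inpl X p : ℝ) < X.card / Z ^ 4 := ⟨_, rfl⟩
  obtain ⟨Y, hY⟩ : ∃ Y : Finset Sub, Y = (X.filter fun g => g ≠ g₀).image (g₀ ⊔ ·) := ⟨_, rfl⟩
  have q : ∀ p ∈ Q, p ∈ P ∧ g₀ ≤ p ∧ 2 ≤ inpl S p ∧ (inpl X p : ℝ) < X.card / Z ^ 4 :=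
    fun p hp => mem_filter.1 (hQ ▸ hp)
  have a1 : ∀ p ∈ Q, ((X.filter fun g => g ≤ p ∧ g ≠ g₀ ∧ (inpl X (g₀ ⊔ g) : ℝ) < Z).card : ℝ) ≤
      Z * inpl Y p := fun p hp => by
    rw [card_eq_sum_card_fiberwise (f := (g₀ ⊔ ·)) (t := Y.filter (· ≤ p)) fun g hg => ?_]
    · push_cast
      refine (sum_le_card_nsmul _ _ Z fun l _ => ?_).trans (le_of_eq ?_)
      · rcases ((X.filter fun g => g ≤ p ∧ g ≠ g₀ ∧ (inpl X (g₀ ⊔ g) : ℝ) < Z).filter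
          fun g => g₀ ⊔ g = l).eq_empty_or_nonempty with e | ⟨g, hg⟩
        · rw [e, card_empty, Nat.cast_zero]
          exact Z0.le
        · obtain ⟨i, j⟩ := mem_filter.1 hg
          refine le_trans (Nat.cast_le.2 (card_le_card fun y hy => ?_)) (mem_filter.1 i).2.2.2.le
          obtain ⟨u, v⟩ := mem_filter.1 hy
          exact mem_filter.2 ⟨(mem_filter.1 u).1, by rw [j, ← v]; exact le_sup_right⟩
      · rw [nsmul_eq_mul, mul_comm, inpl]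
    · obtain ⟨i, j, k, -⟩ := mem_filter.1 (mem_coe.1 hg)
      rw [hY]
      exact mem_coe.2 (mem_filter.2 ⟨mem_image_of_mem _ (mem_filter.2 ⟨i, k⟩),
        sup_le (q p hp).2.1 j⟩)
  have a2 : ∀ p, inpl Y p ≤ inpl X p := fun p => by
    refine (card_le_card (t := (X.filter (· ≤ p)).image (g₀ ⊔ ·)) fun l hl => ?_).trans
      card_image_le
    obtain ⟨i, j⟩ := mem_filter.1 hl
    obtain ⟨g, hg, rfl⟩ := mem_image.1 (hY ▸ i)
    exact mem_image_of_mem _ (mem_filter.2 ⟨(mem_filter.1 hg).1, le_sup_right.trans j⟩)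
  have a3 : (Y.card : ℝ) ≤ X.card :=
    Nat.cast_le.2 (hY ▸ card_image_le.trans (card_filter_le _ _))
  have a4 := richSqK g₀ h0 Y (Q.filter fun p => Z ^ 4 ≤ inpl Y p) (fun l hl => by
      obtain ⟨g, hg, rfl⟩ := mem_image.1 (hY ▸ hl)
      exact sup_two h0 (hX g (mem_filter.1 hg).1) (Ne.symm (mem_filter.1 hg).2))
    (fun p hp => hP p (q p (mem_filter.1 hp).1).1) (fun l hl => by
      obtain ⟨g, -, rfl⟩ := mem_image.1 (hY ▸ hl)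
      exact le_sup_left) (fun p hp => (q p (mem_filter.1 hp).1).2.1) (κ := Z ^ 4)
    (M := X.card / Z ^ 4) (hZ.trans (le_self_pow₀ (by linarith) four_ne_zero)) (by positivity)
    fun p hp => ⟨(mem_filter.1 hp).2, (Nat.cast_le.2 (a2 p)).trans
      (q p (mem_filter.1 hp).1).2.2.2.le⟩
  have a5 := nl_sq hS (fun p hp => hP p (q p hp).1) fun p hp => (q p hp).2.2.1
  obtain ⟨θ, hθ⟩ : ∃ θ : ℝ, θ = X.card / (Z ^ 2 * s₁) := ⟨_, rfl⟩
  have θ0 : 0 < θ := by rw [hθ]; positivity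
  have a6 : ∀ p ∈ Q, (inpl S p : ℝ) * inpl Y p ≤ (Z ^ 4 + θ) * (inpl S p : ℝ) ^ 2 +
      θ⁻¹ * if Z ^ 4 ≤ inpl Y p then (inpl Y p : ℝ) ^ 2 else 0 := fun p hp => by
    have k : (2 : ℝ) ≤ inpl S p := by exact_mod_cast (q p hp).2.2.1
    have n : (0 : ℝ) ≤ inpl Y p := Nat.cast_nonneg _
    have z : 0 < Z ^ 4 := by positivity
    generalize (inpl S p : ℝ) = u at k
    generalize (inpl Y p : ℝ) = v at n
    split_ifs with h
    · have e : θ * u ^ 2 + θ⁻¹ * v ^ 2 - 2 * (u * v) = θ⁻¹ * (θ * u - v) ^ 2 := by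
        field_simp
        ring
      have : 0 ≤ θ⁻¹ * (θ * u - v) ^ 2 := by positivity
      nlinarith [mul_nonneg (show 0 ≤ u by linarith) n, mul_nonneg z.le (sq_nonneg u)]
    · nlinarith [mul_nonneg θ0.le (sq_nonneg u), mul_le_mul_of_nonneg_left (not_le.1 h).le
        (show 0 ≤ u by linarith), mul_nonneg z.le (show 0 ≤ u ^ 2 - u by nlinarith)]
  have a7 := sum_le_sum a6
  rw [sum_add_distrib, ← mul_sum, ← mul_sum, ← sum_filter] at a7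
  have a8 : ∑ g ∈ X, ∑ p ∈ P, (if (g₀ ≤ p ∧ 2 ≤ inpl S p ∧ (inpl X p : ℝ) < X.card / Z ^ 4) ∧
      g ≤ p ∧ g ≠ g₀ ∧ (inpl X (g₀ ⊔ g) : ℝ) < Z then (inpl S p : ℝ) else 0) ≤
      Z * ∑ p ∈ Q, (inpl S p : ℝ) * inpl Y p := by
    rw [sum_comm, mul_sum, hQ, sum_filter]
    refine sum_le_sum fun p hp => ?_
    split_ifs with h
    · simp only [h, true_and]
      rw [← sum_filter, sum_const, nsmul_eq_mul, mul_left_comm, mul_comm]
      exact mul_le_mul_of_nonneg_left (a1 p (hQ ▸ mem_filter.2 ⟨hp, h⟩)) (Nat.cast_nonneg _)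
    · simp only [h, false_and, if_false, sum_const_zero, le_refl]
  have b1 : (Y.card : ℝ) ^ 2 / Z ^ 4 + Y.card * (X.card / Z ^ 4) ≤ 2 * (X.card : ℝ) ^ 2 / Z ^ 4 := by
    have : (0 : ℝ) ≤ Y.card := Nat.cast_nonneg _
    rw [← mul_div_assoc, ← add_div]
    exact div_le_div_of_nonneg_right (by nlinarith) (by positivity)
  have b2 : Z ^ 4 ≤ θ := by
    rw [hθ, le_div_iff₀ (by positivity)]
    linarith
  have b3 := mul_le_mul (show Z ^ 4 + θ ≤ 2 * θ by linarith) a5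
    (sum_nonneg fun p _ => sq_nonneg _) (by positivity)
  have b4 := mul_le_mul_of_nonneg_left (a4.trans (mul_le_mul_of_nonneg_left b1 (by norm_num)))
    (inv_pos.2 θ0).le
  refine a8.trans ((mul_le_mul_of_nonneg_left (a7.trans (add_le_add b3 b4)) Z0.le).trans ?_)
  have e : Z * (2 * θ * (2 * (S.card : ℝ) ^ 2) + θ⁻¹ * (10 ^ 10 * (2 * (X.card : ℝ) ^ 2 / Z ^ 4))) =
      (4 + 2 * 10 ^ 10) * (X.card * s₁) / Z := by
    rw [hθ, hc]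
    field_simp
    ring
  rw [e]
  gcongr
  norm_num

theorem nl_inc {W c m s : ℝ} (hW : 1 ≤ W) (c0 : 0 < c) (hc : 3 * 10 ^ 8 ≤ c ^ 3 * W ^ 2)
    {X L : Finset Sub} (hX : Dim 1 X) (hL : Dim 2 L) {x : ℝ} (hx : (X.card : ℝ) ≤ x)
    (hm : (L.card : ℝ) ≤ m) (h1 : W ≤ s) (h2 : s ≤ x) (h3 : W ^ 2 * m ^ 2 ≤ x * s ^ 3) :
    (inc X L : ℝ) ≤ c * (x * s) := by
  have W0 : 0 < W := by linarith
  have s0 : 0 < s := by linarith
  have x0 : 0 < x := by linarith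
  have a : (0 : ℝ) ≤ X.card := Nat.cast_nonneg _
  have b : (0 : ℝ) ≤ L.card := Nat.cast_nonneg _
  obtain ⟨y, hy⟩ : ∃ y, y = x * s / W := ⟨_, rfl⟩
  have y0 : 0 < y := by rw [hy]; positivity
  have e : x * s = W * y := by rw [hy, mul_div_cancel₀ _ W0.ne']
  have z2 : W ^ 2 * (L.card : ℝ) ^ 2 ≤ x * s ^ 3 := 
    (mul_le_mul_of_nonneg_left (pow_le_pow_left₀ b hm 2) (sq_nonneg W)).trans h3
  have c1 : (X.card : ℝ) ≤ y := by
    rw [hy, le_div_iff₀ W0]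
    exact mul_le_mul hx h1 W0.le x0.le
  have c2 : (L.card : ℝ) ≤ y := by
    refine (pow_le_pow_iff_left₀ b y0.le two_ne_zero).1 ?_
    rw [hy, div_pow, le_div_iff₀ (by positivity), mul_comm]
    refine z2.trans ?_
    exact (show x * s ^ 3 = x * s ^ 2 * s by ring).trans_le ((mul_le_mul_of_nonneg_left h2
      (show 0 ≤ x * s ^ 2 by positivity)).trans_eq (by ring))
  have c3 : (X.card : ℝ) ^ 2 * (L.card : ℝ) ^ 2 ≤ W * y ^ 3 := by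
    have k := mul_le_mul (pow_le_pow_left₀ a hx 2) z2 (mul_nonneg (sq_nonneg _) (sq_nonneg _))
      (sq_nonneg _)
    rw [show x ^ 2 * (x * s ^ 3) = (x * s) ^ 3 by ring, e] at k
    refine le_of_mul_le_mul_left (a := W ^ 2) ?_ (by positivity)
    linarith
  refine (pow_le_pow_iff_left₀ (Nat.cast_nonneg _) (by positivity) three_ne_zero).1
    ((st X L hX hL).trans ?_)
  have k1 := mul_le_mul_of_nonneg_right hc (show 0 ≤ W * y ^ 3 by positivity)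
  have k2 := mul_le_mul_of_nonneg_right hW (pow_pos y0 3).le
  rw [e, show (c * (W * y)) ^ 3 = c ^ 3 * W ^ 2 * (W * y ^ 3) by ring]
  linarith [pow_le_pow_left₀ a c1 3, pow_le_pow_left₀ b c2 3]

theorem nl_5 {Z m : ℝ} {s₁ : ℕ} (hZ : 10 ^ 20 ≤ Z) {X L P : Finset Sub} (hX : Dim 1 X)
    (hL : Dim 2 L) (hP : Dim 3 P) (S : Sub → Finset Sub)
    (hS : ∀ g ∈ X, S g ⊆ L ∧ (S g).card = s₁ ∧ ∀ l ∈ S g, g ≤ l)
    (hcol : ∀ l : Sub, finrank ℝ l = 2 → Z ^ 9 * inpl X l ≤ X.card)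
    (hpl : ∀ p : Sub, finrank ℝ p = 3 → (inpl L p : ℝ) ≤ m) (h1 : Z ≤ s₁)
    (h2 : (s₁ : ℝ) ≤ X.card) (h3 : Z ^ 2 * m ^ 2 ≤ X.card * (s₁ : ℝ) ^ 3) :
    ∑ g₀ ∈ X, ∑ g ∈ X, ∑ p ∈ P, (if X.card / Z ^ 4 ≤ inpl X p ∧ g₀ ≤ p ∧ g ≤ p then
      (inpl (S g₀) p : ℝ) else 0) ≤ 2 * X.card * (1 / 10 ^ 8 * (X.card * s₁)) := by
  have Z0 : 0 < Z := by linarith
  have x0 : (0 : ℝ) < X.card := by linarith
  have a1 := inclExcl (P.filter fun p => X.card / Z ^ 4 ≤ inpl X p) (fun p => X.filter (· ≤ p)) X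
    (b := X.card / Z ^ 4) (c := X.card / Z ^ 9) (by positivity) (by positivity)
    (fun _ _ => filter_subset _ _) (fun p hp => (mem_filter.1 hp).2) (fun p hp q hq h => by
      rw [le_div_iff₀ (by positivity), mul_comm, ← filter_and]
      simp only [← le_inf_iff]
      exact hcol _ (inf_planes (hP p (mem_filter.1 hp).1) (hP q (mem_filter.1 hq).1) h)) (by
      have e : ((X.card : ℝ) / Z ^ 4) ^ 2 = Z * (X.card / Z ^ 9) * X.card := by field_simp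
      rw [e]
      gcongr
      linarith)
  have a2 : ∀ p ∈ P, ∑ g₀ ∈ X, (if g₀ ≤ p then (inpl (S g₀) p : ℝ) else 0) ≤
      1 / 10 ^ 8 * (X.card * s₁) := fun p hp => by
    refine le_trans ?_ (nl_inc (by linarith) (by norm_num) (le_trans (by norm_num)
      (mul_le_mul_of_nonneg_left (pow_le_pow_left₀ (by norm_num) hZ 2) (by norm_num)))
      (hX.mono (filter_subset (· ≤ p) X))
      (hL.mono (filter_subset (· ≤ p) L)) (Nat.cast_le.2 (card_filter_le _ _)) (hpl p (hP p hp))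
      h1 h2 h3)
    rw [inc_eq_sum_thru, ← sum_filter]
    push_cast
    refine sum_le_sum fun g hg => Nat.cast_le.2 (card_le_card fun l hl => ?_)
    obtain ⟨i, j⟩ := mem_filter.1 hl
    obtain ⟨u, -, v⟩ := hS g (mem_filter.1 hg).1
    exact mem_filter.2 ⟨mem_filter.2 ⟨u i, j⟩, v l i⟩
  have a3 : ∑ p ∈ P.filter fun p => X.card / Z ^ 4 ≤ inpl X p, (inpl X p : ℝ) ≤ 2 * X.card := by
    exact_mod_cast a1
  refine le_trans ?_ (mul_le_mul_of_nonneg_right a3 (by positivity))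
  rw [sum_congr rfl fun g₀ _ => sum_comm, sum_comm, sum_mul, sum_filter]
  refine sum_le_sum fun p hp => ?_
  split_ifs with h
  · refine le_trans (le_of_eq ?_) (mul_le_mul_of_nonneg_left (a2 p hp) (Nat.cast_nonneg _))
    rw [nl_inpl, sum_mul_sum, sum_comm]
    refine sum_congr rfl fun g _ => sum_congr rfl fun g₀ _ => ?_
    rw [nl_inpl] at h
    by_cases i : g ≤ p <;> by_cases j : g₀ ≤ p <;> simp only [h, i, j, and_true,
      and_false, if_true, if_false, one_mul, zero_mul, mul_zero]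
  · simp only [h, false_and, if_false, sum_const_zero, le_refl]

/-- Triples `(g₀, g, l)` with `l ∈ S g₀` missing `g` and meeting a line of `R g`. -/
theorem nl {Z m : ℝ} {s₁ : ℕ} (hZ : 10 ^ 20 ≤ Z) (X L : Finset Sub) (hX : Dim 1 X) (hL : Dim 2 L)
    (S R : Sub → Finset Sub) (hS : ∀ g ∈ X, S g ⊆ L ∧ (S g).card = s₁ ∧ ∀ l ∈ S g, g ≤ l)
    (hR : ∀ g ∈ X, Dim 2 (R g) ∧ Z * (R g).card ≤ s₁ ∧ ∀ l ∈ R g, g ≤ l)
    (hcol : ∀ l : Sub, finrank ℝ l = 2 → Z ^ 9 * inpl X l ≤ X.card)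
    (hpl : ∀ p : Sub, finrank ℝ p = 3 → (inpl L p : ℝ) ≤ m)
    (h1 : Z ≤ s₁) (h2 : Z ^ 6 * s₁ ≤ X.card) (h3 : Z ^ 2 * m ^ 2 ≤ X.card * (s₁ : ℝ) ^ 3) :
    10 ^ 4 * ∑ g₀ ∈ X, ∑ l ∈ S g₀, (X.filter fun g => ¬ g ≤ l ∧ ∃ u ∈ R g, meet l u).card
      ≤ X.card ^ 2 * s₁ := by
  have Z0 : 0 < Z := by linarith
  have Z1 : 1 ≤ Z := by linarith
  have s0 : (0 : ℝ) < s₁ := by linarith
  have a0 : Z * s₁ ≤ X.card :=
    (mul_le_mul_of_nonneg_right (le_self_pow₀ Z1 (by norm_num)) s0.le).trans h2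
  have a1 : (s₁ : ℝ) ≤ X.card := (le_mul_of_one_le_left s0.le Z1).trans a0
  have e : ∀ g₀, ∑ l ∈ S g₀, (X.filter fun g => ¬ g ≤ l ∧ ∃ u ∈ R g, meet l u).card =
      ∑ g ∈ X, ((S g₀).filter fun l => ¬ g ≤ l ∧ ∃ u ∈ R g, meet l u).card := fun g₀ => by
    simp only [card_filter]
    exact sum_comm
  have k0 := sum_le_sum fun g₀ (h0 : g₀ ∈ X) => sum_le_sum fun g (hg : g ∈ X) =>
    nl_pt (b := X.card / Z ^ 4) Z0 (hX _ h0) (hX _ hg) hg hL (hS _ h0).1 (hS _ h0).2.1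
      (hS _ h0).2.2 (hR _ hg).1 (hR _ hg).2.1 (hR _ hg).2.2
  simp only [sum_add_distrib, ← mul_sum, sum_const, nsmul_eq_mul] at k0
  have k1 := mul_le_mul_of_nonneg_left (nl_1 (by linarith) hX fun l hl => le_trans
    (mul_le_mul_of_nonneg_right (le_self_pow₀ Z1 (by norm_num)) (Nat.cast_nonneg _)) (hcol l hl))
    s0.le
  have k2 := sum_le_card_nsmul X _ _ fun g hg => nl_2 Z0 X (R g) (hR g hg).2.1
  rw [sum_comm, nsmul_eq_mul] at k2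
  have k2' := mul_le_mul_of_nonneg_left k2 s0.le
  have k4 := sum_le_card_nsmul X _ _ fun g hg => nl_4 (by linarith) hX (hX g hg)
    (hL.mono (hS g hg).1) (hS g hg).2.1 (nl_dim X L) h1 h2
  rw [nsmul_eq_mul] at k4
  have k5 := nl_5 hZ hX hL (nl_dim X L) S hS hcol hpl h1 a1 h3
  obtain ⟨w, hw⟩ : ∃ w : ℝ, w = (X.card : ℝ) ^ 2 * s₁ / Z := ⟨_, rfl⟩
  have w0 : 0 ≤ w := by rw [hw]; positivity
  have w1 : 10 ^ 20 * w ≤ (X.card : ℝ) ^ 2 * s₁ := by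
    refine (mul_le_mul_of_nonneg_right hZ w0).trans (le_of_eq ?_)
    rw [hw, mul_div_cancel₀ _ Z0.ne']
  have b1 : s₁ * (2 * 10 ^ 10 * (X.card : ℝ) ^ 2 / Z) = 2 * 10 ^ 10 * w := by rw [hw]; ring
  have b2 : s₁ * ((X.card : ℝ) * s₁) ≤ w := by
    rw [hw, le_div_iff₀ Z0]
    nlinarith [mul_le_mul_of_nonneg_left a0 (show (0 : ℝ) ≤ X.card * s₁ by positivity)]
  have b3 : (X.card : ℝ) * (X.card * (s₁ / Z)) = w := by rw [hw]; ring
  have b4 : (X.card : ℝ) * (3 * 10 ^ 10 * (X.card * s₁) / Z) = 3 * 10 ^ 10 * w := by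
    rw [hw]; ring
  have b5 : 2 * (X.card : ℝ) * (1 / 10 ^ 8 * (X.card * s₁)) =
      2 / 10 ^ 8 * ((X.card : ℝ) ^ 2 * s₁) := by ring
  rw [← Nat.cast_le (α := ℝ)]
  simp only [e]
  push_cast
  linarith

/-- Many lines that meet few rich lines. -/
theorem pin {ι : Type*} {Z m : ℝ} {s₁ : ℕ} (hZ : 10 ^ 20 ≤ Z) (X : Finset ι) (P : ι → Sub)
    (hP : Set.InjOn P X) (hX : ∀ g ∈ X, finrank ℝ (P g) = 1) (L : Finset Sub) (hL : Dim 2 L)
    (S R : ι → Finset Sub) (hS : ∀ g ∈ X, S g ⊆ L ∧ (S g).card = s₁ ∧ ∀ l ∈ S g, P g ≤ l)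
    (hR : ∀ g ∈ X, Dim 2 (R g) ∧ Z * (R g).card ≤ s₁ ∧ ∀ l ∈ R g, P g ≤ l)
    (hcol : ∀ l : Sub, finrank ℝ l = 2 →
      Z ^ 9 * ((X.filter fun g => P g ≤ l).card : ℝ) ≤ X.card)
    (hpl : ∀ p : Sub, finrank ℝ p = 3 → (inpl L p : ℝ) ≤ m)
    (h1 : Z ≤ s₁) (h2 : Z ^ 6 * s₁ ≤ X.card) (h3 : Z ^ 2 * m ^ 2 ≤ X.card * (s₁ : ℝ) ^ 3) :
    ∃ M ⊆ L, X.card * (s₁ : ℝ) ^ 3 ≤ Z * (M.card : ℝ) ^ 2 ∧
      ∀ l ∈ M, 100 * (X.filter fun g => ¬ P g ≤ l ∧ ∃ u ∈ R g, meet l u).card ≤ X.card := by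
  have Z1 : 1 ≤ Z := by linarith
  have s0 : (0 : ℝ) < s₁ := by linarith
  have a1 : (s₁ : ℝ) ≤ X.card := (le_mul_of_one_le_left s0.le (one_le_pow₀ Z1)).trans h2
  have x0 : 0 < X.card := by exact_mod_cast s0.trans_le a1
  obtain ⟨g₁, -⟩ := card_pos.1 x0
  have : Nonempty ι := ⟨g₁⟩
  obtain ⟨φ, hφ⟩ : ∃ φ : Sub → ι, ∀ g ∈ X, φ (P g) = g := ⟨_, fun g hg => hP.leftInvOn_invFunOn hg⟩
  have c1 : (X.image P).card = X.card := card_image_of_injOn hP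
  have c2 : ∀ (Q : Sub → Prop) [DecidablePred Q],
      ((X.image P).filter Q).card = (X.filter fun g => Q (P g)).card :=
    fun Q _ => by rw [filter_image, card_image_of_injOn (hP.mono (coe_subset.2 (filter_subset _ _)))]
  have d1 : Dim 1 (X.image P) := fun y hy => by
    obtain ⟨g, hg, rfl⟩ := mem_image.1 hy
    exact hX g hg
  have k := nl hZ (X.image P) L d1 hL (fun y => S (φ y)) (fun y => R (φ y)) (fun y hy => by
      obtain ⟨g, hg, rfl⟩ := mem_image.1 hy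
      rw [hφ g hg]
      exact hS g hg) (fun y hy => by
      obtain ⟨g, hg, rfl⟩ := mem_image.1 hy
      rw [hφ g hg]
      exact hR g hg) (fun l hl => by rw [inpl, c1, c2]; exact hcol l hl) hpl h1 (c1 ▸ h2) (c1 ▸ h3)
  obtain ⟨c, hc⟩ : ∃ c : Sub → ℕ, c = fun l =>
    (X.filter fun g => ¬ P g ≤ l ∧ ∃ u ∈ R g, meet l u).card := ⟨_, rfl⟩
  have e : ∀ l, ((X.image P).filter fun y => ¬ y ≤ l ∧ ∃ u ∈ R (φ y), meet l u).card = c l :=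
    fun l => by
      rw [c2, hc]
      exact congrArg card (filter_congr fun g hg => by rw [hφ g hg])
  simp only [e] at k
  rw [c1, sum_image hP, sum_congr rfl fun g hg => by rw [hφ g hg]] at k
  refine ⟨L.filter fun l => 100 * c l ≤ X.card, filter_subset _ _, not_lt.1 fun h => ?_,
    fun l hl => by have := (mem_filter.1 hl).2; rwa [hc] at this⟩
  have k1 := nl_inc (W := 10 ^ 10) (c := 1 / 2) (by norm_num) (by norm_num) (by norm_num) d1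
    (hL.mono (filter_subset (fun l => 100 * c l ≤ X.card) L)) (Nat.cast_le.2 c1.le) le_rfl
    (by linarith) a1 (le_trans (mul_le_mul_of_nonneg_right (by linarith) (sq_nonneg _)) h.le)
  have k2 : ∑ g ∈ X, X.card * s₁ ≤ ∑ g ∈ X, (100 * ∑ l ∈ S g, c l +
      X.card * thru (L.filter fun l => 100 * c l ≤ X.card) (P g)) := by
    refine sum_le_sum fun g hg => ?_
    obtain ⟨u, v, w⟩ := hS g hg
    have i : ((S g).filter fun l => 100 * c l ≤ X.card).card ≤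
        thru (L.filter fun l => 100 * c l ≤ X.card) (P g) := card_le_card fun l hl =>
      mem_filter.2 ⟨mem_filter.2 ⟨u (mem_filter.1 hl).1, (mem_filter.1 hl).2⟩,
        w l (mem_filter.1 hl).1⟩
    refine le_trans ?_ (Nat.add_le_add_left (Nat.mul_le_mul_left _ i) _)
    rw [← v, card_eq_sum_ones (S g), card_filter, mul_sum, mul_sum, mul_sum, ← sum_add_distrib]
    refine sum_le_sum fun l _ => ?_
    split_ifs <;> omega
  rw [sum_add_distrib, ← mul_sum, ← mul_sum, ← mul_sum, ← sum_image (f := thru _) hP,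
    ← inc_eq_sum_thru, sum_const, smul_eq_mul] at k2
  have k3 := (Nat.cast_le (α := ℝ)).2 k2
  have k4 := (Nat.cast_le (α := ℝ)).2 k
  have x1 : (0 : ℝ) < X.card := Nat.cast_pos.2 x0
  have k5 := mul_le_mul_of_nonneg_left k1 x1.le
  simp only [Nat.cast_mul, Nat.cast_add, Nat.cast_pow, Nat.cast_ofNat] at k3 k4
  nlinarith [mul_pos (mul_pos x1 x1) s0]

end Vale.Agent.P054
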