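import Vale.Agent.P054.Bez
import Vale.Agent.P342.LS

/-!
Ham sandwich theorem and polynomial partitioning.
-/

namespace Vale.Agent.P054

open Finset Module
open scoped Classical

/-- Discrete ham sandwich. Hint: use `Vale.Agent.P342.ls` with `c = N + 1` colours on the shell
of `Eu (N + 2)`. If no `u` bisects, compactness gives `δ > 0` such that every `u` of the shell
has an index `i` with more than half of `S i` above `δ` or below `-δ`. Colour `u` by an index
with more than half above `δ / 2`, or by the extra colour. -/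
theorem ham {ι : Type*} (N : ℕ) (S : Fin N → Finset ι) (y : ι → Fin (N + 2) → ℝ) :
    ∃ u : Fin (N + 2) → ℝ, u ≠ 0 ∧ ∀ i,
      2 * ((S i).filter fun a => 0 < u ⬝ᵥ y a).card ≤ (S i).card ∧
      2 * ((S i).filter fun a => u ⬝ᵥ y a < 0).card ≤ (S i).card := by
  by_contra hcon
  let Q : ℝ → P052.Eu (N + 2) → Fin N → Prop := fun δ u i =>
    (S i).card < 2 * ((S i).filter fun a => δ < u.ofLp ⬝ᵥ y a).card
  have mono : ∀ {δ δ' u u' i}, Q δ u i → (∀ a ∈ S i, δ < u.ofLp ⬝ᵥ y a → δ' < u'.ofLp ⬝ᵥ y a) →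
      Q δ' u' i := fun h h' => h.trans_le (Nat.mul_le_mul_left 2 (card_le_card fun a ha =>
        mem_filter.2 ⟨(mem_filter.1 ha).1, h' a (mem_filter.1 ha).1 (mem_filter.1 ha).2⟩))
  have opn : ∀ u i, Q 0 u i → ∀ᶠ z : ℝ × P052.Eu (N + 2) in nhds (0, u), Q z.1 z.2 i :=
    fun u i h => ((Filter.eventually_all_finset ((S i).filter fun a => 0 < u.ofLp ⬝ᵥ y a)).2
      fun a ha => ContinuousAt.eventually_lt (f := fun z : ℝ × P052.Eu (N + 2) => z.1)
        (g := fun z => z.2.ofLp ⬝ᵥ y a) (by fun_prop) (by fun_prop) (mem_filter.1 ha).2).mono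
      fun z hz => mono h fun a h1 h2 => hz a (mem_filter.2 ⟨h1, h2⟩)
  have hK : IsCompact ({u : P052.Eu (N + 2) | (1 / 2 : ℝ) ^ (N + 2) ≤ ‖u‖} ∩
      Metric.closedBall 0 1) :=
    (isCompact_closedBall _ _).inter_left (isClosed_le continuous_const continuous_norm)
  have h1 := hK.eventually_forall_of_forall_eventually (x₀ := (0 : ℝ))
    (P := fun δ u => ∃ i, Q δ u i ∨ Q δ (-u) i) fun u hu => by
      have h0 : u.ofLp ≠ 0 := fun h => absurd hu.1 (by
        rw [(WithLp.ofLp_eq_zero 2).1 h, Set.mem_ofPred_eq, norm_zero]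
        exact not_le.2 (by positivity))
      obtain ⟨i, hi⟩ := not_forall.1 fun h => hcon ⟨_, h0, h⟩
      rcases not_and_or.1 hi with h | h
      · exact (opn u i (not_le.1 h)).mono fun z hz => ⟨i, Or.inl hz⟩
      · have h2 : Q 0 (-u) i := by simpa [Q] using h
        exact (((by fun_prop : Continuous fun z : ℝ × P052.Eu (N + 2) => (z.1, -z.2)).tendsto
          (0, u)).eventually (opn _ i h2)).mono fun z hz => ⟨i, Or.inr hz⟩
  obtain ⟨δ, h2, h3⟩ := ((h1.filter_mono nhdsWithin_le_nhds).and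
    (self_mem_nhdsWithin (s := Set.Ioi 0))).exists
  have h3' : 0 < δ / 2 := half_pos h3
  obtain ⟨ε, e0, e1⟩ := Metric.eventually_nhds_iff.1 (Filter.eventually_all.2 fun i =>
    (Filter.eventually_all_finset (S i)).2 fun a _ => ContinuousAt.eventually_lt (x₀ := 0)
      (f := fun z : P052.Eu (N + 2) => |z.ofLp ⬝ᵥ y a|) (g := fun _ => δ / 2) (by fun_prop)
      (by fun_prop) (by simpa using h3))
  obtain ⟨u, hu, u', -, h4, h5⟩ := P342.ls (Nat.lt_succ_self (N + 1))
    (fun u => if h : ∃ i, Q (δ / 2) u i then h.choose.castSucc else Fin.last N) (half_pos e0)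
  have h6 : ∀ i, ∀ a ∈ S i, |u.ofLp ⬝ᵥ y a + u'.ofLp ⬝ᵥ y a| < δ / 2 := fun i a ha => by
    simpa using e1 (y := u + u') (by rw [dist_zero_right]; linarith) i a ha
  split_ifs at h5 with p1 p2 p2
  · have q1 := p1.choose_spec
    have q2 := p2.choose_spec
    rw [← Fin.castSucc_injective _ h5] at q2
    have q3 := card_le_card (union_subset (filter_subset (fun a => δ / 2 < u.ofLp ⬝ᵥ y a)
      (S p1.choose)) (filter_subset (fun a => δ / 2 < u'.ofLp ⬝ᵥ y a) _))
    rw [card_union_of_disjoint (disjoint_filter.2 fun a ha a1 a2 => by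
      linarith [(abs_lt.1 (h6 _ a ha)).2])] at q3
    simp only [Q] at q1 q2
    omega
  · exact (Fin.castSucc_lt_last _).ne h5
  · exact (Fin.castSucc_lt_last _).ne' h5
  · obtain ⟨i, h | h⟩ := h2 u ⟨hu.1, mem_closedBall_zero_iff.2 hu.2.1⟩
    · exact p1 ⟨i, mono h fun a _ h => by linarith⟩
    · refine p2 ⟨i, mono h fun a ha h => ?_⟩
      rw [WithLp.ofLp_neg, neg_dotProduct] at h
      linarith [(abs_lt.1 (h6 _ a ha)).1]

/-- Polynomial ham sandwich, with the monomials `X 0 ^ (d k - Σ e) Π X (i+1) ^ e i`, `e i < k`. -/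
theorem polyHam {ι κ : Type*} [Fintype κ] (d k : ℕ) (hk : Fintype.card κ + 2 ≤ k ^ d)
    (S : κ → Finset ι) (y : ι → Fin (d + 1) → ℝ) :
    ∃ f : MvPolynomial (Fin (d + 1)) ℝ, f ≠ 0 ∧ f.IsHomogeneous (d * k) ∧ ∀ i,
      2 * ((S i).filter fun a => 0 < MvPolynomial.eval (y a) f).card ≤ (S i).card ∧
      2 * ((S i).filter fun a => MvPolynomial.eval (y a) f < 0).card ≤ (S i).card := by
  obtain ⟨g⟩ : Nonempty (Fin (Fintype.card κ + 2) ↪ (Fin d → Fin k)) :=
    Function.Embedding.nonempty_of_card_le (by simpa using hk)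
  let m : Fin (Fintype.card κ + 2) → Fin (d + 1) →₀ ℕ := fun j =>
    Finsupp.equivFunOnFinite.symm (Fin.cons (d * k - ∑ i, (g j i : ℕ)) fun i => g j i)
  have hm : Function.Injective m := fun j j' h => g.injective (funext fun i =>
    Fin.ext (DFunLike.congr_fun h i.succ))
  obtain ⟨u, u0, hu⟩ := ham _ (fun j => S ((Fintype.equivFin κ).symm j))
    fun a j => MvPolynomial.eval (y a) (MvPolynomial.monomial (m j) 1)
  refine ⟨∑ j, MvPolynomial.monomial (m j) (u j), fun h => u0 (funext fun j => ?_),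
    MvPolynomial.IsHomogeneous.sum _ _ _ fun j _ => MvPolynomial.isHomogeneous_monomial _ ?_,
    fun i => ?_⟩
  · simpa [MvPolynomial.coeff_sum, hm.eq_iff] using congrArg (MvPolynomial.coeff (m j)) h
  · have : ∑ i, (g j i : ℕ) ≤ d * k :=
      (sum_le_card_nsmul _ _ k fun i _ => (g j i).2.le).trans_eq (by simp)
    rw [Finsupp.degree_eq_sum, Fin.sum_univ_succ]
    exact Nat.sub_add_cancel this
  · simpa [dotProduct, MvPolynomial.eval_monomial] using hu (Fintype.equivFin κ i)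

theorem part_scale {n j : ℕ} {f : Fin j → MvPolynomial (Fin n) ℝ} {a : Fin j → ℕ}
    (hf : ∀ i, (f i).IsHomogeneous (a i)) {c : ℝ} (hc : 0 ≤ c) (w : Fin n → ℝ)
    (h : MvPolynomial.eval (c • w) (∏ i, f i) ≠ 0) : MvPolynomial.eval w (∏ i, f i) ≠ 0 ∧
      (fun i => decide (0 < MvPolynomial.eval (c • w) (f i))) =
        fun i => decide (0 < MvPolynomial.eval w (f i)) := by
  simp only [map_prod, prod_ne_zero_iff, eval_smul_homog (hf _)] at h ⊢
  exact ⟨fun i hi => right_ne_zero_of_mul (h i hi), funext fun i => decide_eq_decide.2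
    (mul_pos_iff_of_pos_left ((pow_nonneg hc _).lt_of_ne' (left_ne_zero_of_mul (h i (mem_univ _)))))⟩

theorem part_line {n j : ℕ} {f : Fin j → MvPolynomial (Fin n) ℝ} {a : Fin j → ℕ}
    (hf : ∀ i, (f i).IsHomogeneous (a i)) (v w : Fin n → ℝ) :
    ∃ T : Finset (Fin j → Bool), T.card ≤ ∑ i, a i + 1 ∧ ∀ t : ℝ,
      MvPolynomial.eval (v + t • w) (∏ i, f i) ≠ 0 →
        (fun i => decide (0 < MvPolynomial.eval (v + t • w) (f i))) ∈ T := by
  let p := bezaL v w (∏ i, f i)
  let r : ℝ → ℕ := fun t => (p.roots.toFinset.filter (· < t)).card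
  have h1 : ∀ s t, s ≤ t → p.eval s ≠ 0 → p.eval t ≠ 0 → r s = r t → ∀ i,
      0 < MvPolynomial.eval (v + s • w) (f i) ↔ 0 < MvPolynomial.eval (v + t • w) (f i) :=
    fun s t hst hs ht hr i => by
      have c : ContinuousOn (fun t : ℝ => MvPolynomial.eval (v + t • w) (f i)) (Set.Icc s t) := by
        simp only [← beza_L_eval]
        fun_prop
      have z : ∀ x ∈ Set.Icc s t, MvPolynomial.eval (v + x • w) (f i) ≠ 0 := fun x hx h0 => by
        have h2 : p.eval x = 0 := by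
          rw [beza_L_eval, map_prod]
          exact prod_eq_zero (mem_univ i) h0
        refine (card_lt_card ⟨monotone_filter_right _ fun _ _ h => h.trans_le hst,
          fun h => ?_⟩).ne hr
        exact hx.1.not_gt (mem_filter.1 (h (mem_filter.2 ⟨Multiset.mem_toFinset.2
          ((Polynomial.mem_roots fun h => hs (by simp [h])).2 h2),
          hx.2.lt_of_ne fun h => ht (h ▸ h2)⟩))).2
      refine ⟨fun h => not_le.1 fun h' => ?_, fun h => not_le.1 fun h' => ?_⟩
      · obtain ⟨x, hx, h0⟩ := intermediate_value_Icc' hst c ⟨h', h.le⟩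
        exact z x hx h0
      · obtain ⟨x, hx, h0⟩ := intermediate_value_Icc hst c ⟨h', h.le⟩
        exact z x hx h0
  refine ⟨(range (∑ i, a i + 1)).image fun k i => decide (0 < MvPolynomial.eval
    (v + (Classical.epsilon fun t => p.eval t ≠ 0 ∧ r t = k) • w) (f i)),
    card_image_le.trans (card_range _).le, fun t ht => mem_image.2 ⟨r t, mem_range_succ_iff.2
      ((card_filter_le _ _).trans ((Multiset.toFinset_card_le _).trans ((Polynomial.card_roots' _).trans
        (beza_L_deg v w (MvPolynomial.IsHomogeneous.prod _ _ _ fun i _ => hf i)).1))),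
      funext fun i => decide_eq_decide.2 ?_⟩⟩
  rw [← beza_L_eval] at ht
  obtain ⟨h2, h3⟩ := Classical.epsilon_spec (p := fun s => p.eval s ≠ 0 ∧ r s = r t) ⟨t, ht, rfl⟩
  rcases le_total _ t with h | h
  · exact h1 _ _ h h2 ht h3 i
  · exact (h1 _ _ h ht h2 h3.symm i).symm

/-- Sign patterns on a line. Hint: on `t a + b` count the roots of the product below `t`. -/
theorem signs {n j : ℕ} (f : Fin j → MvPolynomial (Fin n) ℝ) (a : Fin j → ℕ)
    (hf : ∀ i, (f i).IsHomogeneous (a i)) (l : Submodule ℝ (Fin n → ℝ)) (hl : finrank ℝ l = 2) :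
    ∃ T : Finset (Fin j → Bool), T.card ≤ 2 * (∑ i, a i) + 4 ∧
      ∀ z ∈ l, MvPolynomial.eval z (∏ i, f i) ≠ 0 →
        (fun i => decide (0 < MvPolynomial.eval z (f i))) ∈ T := by
  obtain ⟨v, w, -, rfl⟩ := exists_pair hl
  obtain ⟨T1, c1, h1⟩ := part_line hf v w
  obtain ⟨T2, c2, h2⟩ := part_line hf (-v) w
  refine ⟨T1 ∪ T2 ∪ {fun i => decide (0 < MvPolynomial.eval w (f i)),
    fun i => decide (0 < MvPolynomial.eval (-w) (f i))}, (card_union_le _ _).trans
      ((add_le_add ((card_union_le _ _).trans (add_le_add c1 c2)) card_le_two).trans (by omega)),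
    fun z hz h => ?_⟩
  obtain ⟨s, t, rfl⟩ := Submodule.mem_span_pair.1 hz
  simp only [mem_union, mem_insert, mem_singleton]
  rcases lt_trichotomy s 0 with hs | rfl | hs
  · have e : s • v + t • w = (-s) • (-v + (t / -s) • w) := by
      rw [smul_add, neg_smul_neg, smul_smul, mul_div_cancel₀ _ (neg_pos.2 hs).ne']
    rw [e] at h ⊢
    obtain ⟨a1, a2⟩ := part_scale hf (neg_pos.2 hs).le _ h
    exact Or.inl (Or.inr (a2 ▸ h2 _ a1))
  · rw [zero_smul, zero_add] at h ⊢
    rcases le_total 0 t with ht | ht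
    · exact Or.inr (Or.inl (part_scale hf ht _ h).2)
    · rw [← neg_smul_neg] at h ⊢
      exact Or.inr (Or.inr (part_scale hf (neg_nonneg.2 ht) _ h).2)
  · have e : s • v + t • w = s • (v + (t / s) • w) := by
      rw [smul_add, smul_smul, mul_div_cancel₀ _ hs.ne']
    rw [e] at h ⊢
    obtain ⟨a1, a2⟩ := part_scale hf hs.le _ h
    exact Or.inl (Or.inl (a2 ▸ h1 _ a1))

theorem part_ind (d : ℕ) (hd : 1 ≤ d) {ι : Type*} (X : Finset ι) (y : ι → Fin (d + 1) → ℝ)
    (j : ℕ) : ∃ (f : Fin j → MvPolynomial (Fin (d + 1)) ℝ) (a : Fin j → ℕ),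
      (∀ i, f i ≠ 0 ∧ (f i).IsHomogeneous (a i)) ∧
      ∑ i, a i = ∑ i ∈ range j, d * 2 ^ (i / d + 2) ∧
      ∀ σ, (X.filter fun x => MvPolynomial.eval (y x) (∏ i, f i) ≠ 0 ∧
        (fun i => decide (0 < MvPolynomial.eval (y x) (f i))) = σ).card * 2 ^ j ≤ X.card := by
  induction j with
  | zero => exact ⟨Fin.elim0, Fin.elim0, fun i => i.elim0, rfl, fun σ =>
      (mul_one _).trans_le (card_filter_le _ _)⟩
  | succ j ih =>
    obtain ⟨f, a, h1, h2, h3⟩ := ih
    have hk : Fintype.card (Fin j → Bool) + 2 ≤ (2 ^ (j / d + 2)) ^ d := by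
      have e1 := Nat.lt_div_mul_add (a := j) hd
      have e2 := Nat.pow_le_pow_right two_pos (show j + 2 ≤ (j / d + 2) * d by
        rw [add_mul]
        omega)
      have e3 := Nat.one_le_two_pow (n := j)
      rw [Fintype.card_fun, Fintype.card_bool, Fintype.card_fin, ← pow_mul]
      rw [pow_add] at e2
      omega
    obtain ⟨g, g0, g1, g2⟩ := polyHam d _ hk (fun σ => X.filter fun x =>
      MvPolynomial.eval (y x) (∏ i, f i) ≠ 0 ∧
        (fun i => decide (0 < MvPolynomial.eval (y x) (f i))) = σ) y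
    refine ⟨Fin.cons g f, Fin.cons _ a, Fin.cases ⟨g0, g1⟩ h1, ?_, fun σ => ?_⟩
    · rw [Fin.sum_cons, h2, sum_range_succ_comm]
    · rw [pow_succ', ← mul_assoc, mul_comm _ 2]
      refine (Nat.mul_le_mul_right _ ?_).trans (h3 (Fin.tail σ))
      have e : ∀ x, MvPolynomial.eval (y x) (∏ i, Fin.cons (α := fun _ => _) g f i) ≠ 0 ∧
          (fun i => decide (0 < MvPolynomial.eval (y x) (Fin.cons (α := fun _ => _) g f i))) = σ →
          (MvPolynomial.eval (y x) (∏ i, f i) ≠ 0 ∧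
            (fun i => decide (0 < MvPolynomial.eval (y x) (f i))) = Fin.tail σ) ∧
          MvPolynomial.eval (y x) g ≠ 0 ∧ decide (0 < MvPolynomial.eval (y x) g) = σ 0 :=
        fun x hx => by
          rw [Fin.prod_cons, map_mul] at hx
          exact ⟨⟨right_ne_zero_of_mul hx.1, congrArg Fin.tail hx.2⟩, left_ne_zero_of_mul hx.1,
            congrFun hx.2 0⟩
      cases h0 : σ 0
      · refine (Nat.mul_le_mul_left 2 (card_le_card fun x hx => ?_)).trans (g2 _).2
        obtain ⟨a1, a2, a3⟩ := e x (mem_filter.1 hx).2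
        exact mem_filter.2 ⟨mem_filter.2 ⟨(mem_filter.1 hx).1, a1⟩,
          (not_lt.1 (of_decide_eq_false (a3.trans h0))).lt_of_ne a2⟩
      · refine (Nat.mul_le_mul_left 2 (card_le_card fun x hx => ?_)).trans (g2 _).1
        obtain ⟨a1, -, a3⟩ := e x (mem_filter.1 hx).2
        exact mem_filter.2 ⟨mem_filter.2 ⟨(mem_filter.1 hx).1, a1⟩, of_decide_eq_true (a3.trans h0)⟩

theorem part_sum (d q : ℕ) (hd : 1 ≤ d) :
    ∑ i ∈ range (d * q), d * 2 ^ (i / d + 2) ≤ 4 * d ^ 2 * 2 ^ q := by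
  induction q with
  | zero => exact Nat.zero_le _
  | succ q ih =>
    rw [mul_add_one, sum_range_add, sum_congr (s₁ := range d) rfl
      (g := fun _ => d * 2 ^ (q + 2)) fun i hi => by
        rw [Nat.mul_add_div hd, Nat.div_eq_of_lt (mem_range.1 hi)], sum_const, card_range]
    exact (Nat.add_le_add_right ih _).trans_eq (by ring)

/-- Polynomial partitioning. Hint: step `i` uses `k = 2 ^ (i / d + 2)`. -/
theorem partition (d q : ℕ) (hd : 1 ≤ d) {ι : Type*} (X : Finset ι) (y : ι → Fin (d + 1) → ℝ) :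
    ∃ (f : MvPolynomial (Fin (d + 1)) ℝ) (D : ℕ)
      (cell : (Fin (d + 1) → ℝ) → (Fin (d * q) → Bool)),
      f ≠ 0 ∧ f.IsHomogeneous D ∧ D ≤ 4 * d ^ 2 * 2 ^ q ∧
      (∀ σ, (X.filter fun i => MvPolynomial.eval (y i) f ≠ 0 ∧ cell (y i) = σ).card * 2 ^ (d * q)
        ≤ X.card) ∧
      ∀ l : Submodule ℝ (Fin (d + 1) → ℝ), finrank ℝ l = 2 →
        ∃ T : Finset (Fin (d * q) → Bool), T.card ≤ 2 * D + 4 ∧
          ∀ z ∈ l, MvPolynomial.eval z f ≠ 0 → cell z ∈ T := by
  obtain ⟨f, a, h1, h2, h3⟩ := part_ind d hd X y (d * q)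
  exact ⟨∏ i, f i, ∑ i, a i, fun z i => decide (0 < MvPolynomial.eval z (f i)),
    prod_ne_zero_iff.2 fun i _ => (h1 i).1,
    MvPolynomial.IsHomogeneous.prod _ _ _ fun i _ => (h1 i).2, h2.trans_le (part_sum d q hd), h3,
    signs f a fun i => (h1 i).2⟩

end Vale.Agent.P054
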