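import Vale.Agent.P054.Aff

/-!
The dictionary between motions and projective three space.
-/

namespace Vale.Agent.P054

open Finset Module
open scoped Classical

theorem rm_apply (u : V3) (x : E) : rm u x = ![-(u 0 * x 1) - u 1 * x 2 - u 2 * x 3,
    u 0 * x 0 + u 2 * x 2 - u 1 * x 3, u 1 * x 0 - u 2 * x 1 + u 0 * x 3,
    u 2 * x 0 + u 1 * x 1 - u 0 * x 2] := by
  ext i
  fin_cases i <;> simp [rm, Matrix.mulVec, dotProduct, Fin.sum_univ_four] <;> ring

theorem lm_apply (u : V3) (x : E) : lm u x = ![-(u 0 * x 1) - u 1 * x 2 - u 2 * x 3,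
    u 0 * x 0 - u 2 * x 2 + u 1 * x 3, u 1 * x 0 + u 2 * x 1 - u 0 * x 3,
    u 2 * x 0 - u 1 * x 1 + u 0 * x 2] := by
  ext i
  fin_cases i <;> simp [lm, Matrix.mulVec, dotProduct, Fin.sum_univ_four] <;> ring

theorem dot3 (u w : V3) : u ⬝ᵥ w = u 0 * w 0 + u 1 * w 1 + u 2 * w 2 := by
  simp [dotProduct, Fin.sum_univ_three]

theorem dot4 (u w : E) : u ⬝ᵥ w = u 0 * w 0 + u 1 * w 1 + u 2 * w 2 + u 3 * w 3 := by
  simp [dotProduct, Fin.sum_univ_four]

theorem rm_rm (u w : V3) (x : E) : rm u (rm w x) + rm w (rm u x) = (-2 * (u ⬝ᵥ w)) • x := by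
  ext i
  fin_cases i <;> simp [rm_apply, dot3] <;> ring

theorem lm_lm (u w : V3) (x : E) : lm u (lm w x) + lm w (lm u x) = (-2 * (u ⬝ᵥ w)) • x := by
  ext i
  fin_cases i <;> simp [lm_apply, dot3] <;> ring

theorem rm_lm (u w : V3) (x : E) : rm u (lm w x) = lm w (rm u x) := by
  ext i
  fin_cases i <;> simp [lm_apply, rm_apply] <;> ring

theorem rm_comm (u w : V3) (x : E) :
    rm u (rm w x) - rm w (rm u x) = (-2 : ℝ) • rm (crossProduct u w) x := by
  ext i
  fin_cases i <;> simp [rm_apply, cross_apply] <;> ring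

theorem rm_add (u w : V3) (x : E) : rm (u + w) x = rm u x + rm w x := by
  ext i
  fin_cases i <;> simp [rm_apply] <;> ring

theorem lm_add (u w : V3) (x : E) : lm (u + w) x = lm u x + lm w x := by
  ext i
  fin_cases i <;> simp [lm_apply] <;> ring

theorem rm_smul (c : ℝ) (u : V3) (x : E) : rm (c • u) x = c • rm u x := by
  ext i
  fin_cases i <;> simp [rm_apply] <;> ring

theorem lm_smul (c : ℝ) (u : V3) (x : E) : lm (c • u) x = c • lm u x := by
  ext i
  fin_cases i <;> simp [lm_apply] <;> ring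

theorem rm_sub (u w : V3) (x : E) : rm (u - w) x = rm u x - rm w x := by
  ext i
  fin_cases i <;> simp [rm_apply] <;> ring

theorem lm_sub (u w : V3) (x : E) : lm (u - w) x = lm u x - lm w x := by
  ext i
  fin_cases i <;> simp [lm_apply] <;> ring

theorem lm_neg (u : V3) (x : E) : lm (-u) x = -lm u x := by
  ext i
  fin_cases i <;> simp [lm_apply] <;> ring

theorem rm_eq_zero {u : V3} {x : E} (hx : x ≠ 0) (h : rm u x = 0) : u = 0 := by
  have := rm_rm u u x
  rw [h, map_zero, add_zero, eq_comm, smul_eq_zero] at this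
  rcases this with h1 | h1
  · exact dotProduct_self_eq_zero.1 (by linarith)
  · exact absurd h1 hx

theorem lm_eq_zero {u : V3} {x : E} (hx : x ≠ 0) (h : lm u x = 0) : u = 0 := by
  have := lm_lm u u x
  rw [h, map_zero, add_zero, eq_comm, smul_eq_zero] at this
  rcases this with h1 | h1
  · exact dotProduct_self_eq_zero.1 (by linarith)
  · exact absurd h1 hx

theorem mem_hl {a : V6} {x : E} : x ∈ hl a ↔ rm a.1 x = lm a.2 x := by
  rw [hl, LinearMap.mem_ker, LinearMap.sub_apply, sub_eq_zero]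

theorem Bf_comm (a b : V6) : Bf a b = Bf b a := by
  simp only [Bf, dotProduct_comm]

theorem Bf_sub_self (a b : V6) : Bf (a - b) (a - b) = Bf a a - 2 * Bf a b + Bf b b := by
  simp only [Bf, Prod.fst_sub, Prod.snd_sub, dot3, Pi.sub_apply]; ring

theorem Bf_neg_neg (a b : V6) : Bf (-a) (-b) = Bf a b := by
  simp only [Bf, Prod.fst_neg, Prod.snd_neg, dot3, Pi.neg_apply]; ring

theorem Bf_add_left (a b c : V6) : Bf (a + b) c = Bf a c + Bf b c := by
  simp only [Bf, Prod.fst_add, Prod.snd_add, add_dotProduct]; ring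

theorem Bf_smul_left (r : ℝ) (a c : V6) : Bf (r • a) c = r * Bf a c := by
  simp only [Bf, Prod.smul_fst, Prod.smul_snd, smul_dotProduct, smul_eq_mul]; ring

theorem fst_ne_zero {a : V6} (h0 : a ≠ 0) (h : Bf a a = 0) : a.1 ≠ 0 := by
  intro h1
  refine h0 (Prod.ext h1 (dotProduct_self_eq_zero.1 ?_))
  rw [Bf, h1] at h
  simpa using h

theorem snd_ne_zero {a : V6} (h0 : a ≠ 0) (h : Bf a a = 0) : a.2 ≠ 0 := by
  intro h1
  refine h0 (Prod.ext (dotProduct_self_eq_zero.1 ?_) h1)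
  rw [Bf, h1] at h
  simpa using h

theorem mem_hl_span {x : E} {s : Set V6} (h : ∀ a ∈ s, x ∈ hl a) {b : V6}
    (hb : b ∈ Submodule.span ℝ s) : x ∈ hl b := by
  induction hb using Submodule.span_induction with
  | mem a ha => exact h a ha
  | zero =>
    rw [mem_hl]
    ext i
    fin_cases i <;> simp [rm_apply, lm_apply]
  | add a b _ _ ha hb =>
    rw [mem_hl] at ha hb ⊢
    rw [Prod.fst_add, Prod.snd_add, rm_add, lm_add, ha, hb]
  | smul c a _ ha =>
    rw [mem_hl] at ha ⊢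
    rw [Prod.smul_fst, Prod.smul_snd, rm_smul, lm_smul, ha]

theorem Bf_of_mem {x : E} (hx : x ≠ 0) {a b : V6} (ha : x ∈ hl a) (hb : x ∈ hl b) :
    Bf a b = 0 := by
  rw [mem_hl] at ha hb
  have h1 := rm_rm a.1 b.1 x
  have h2 := lm_lm a.2 b.2 x
  rw [ha, hb, rm_lm, rm_lm, ha, hb, add_comm, h2] at h1
  have := smul_left_injective ℝ hx h1
  unfold Bf
  linarith

theorem snd_eq_of_mem {x : E} (hx : x ≠ 0) {a b : V6} (ha : x ∈ hl a) (hb : x ∈ hl b)
    (h : a.1 = b.1) : a.2 = b.2 := by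
  rw [mem_hl] at ha hb
  refine sub_eq_zero.1 (lm_eq_zero hx ?_)
  rw [lm_sub, ← ha, ← hb, h, sub_self]

theorem quat_tilde {a : V6} (h : Bf a a = 0) (y : E) : rm a.1 y + lm a.2 y ∈ hl a := by
  rw [mem_hl, map_add, map_add, rm_lm]
  have h1 := rm_rm a.1 a.1 y
  have h2 := lm_lm a.2 a.2 y
  have h3 : a.1 ⬝ᵥ a.1 = a.2 ⬝ᵥ a.2 := by unfold Bf at h; linarith
  rw [h3, ← h2] at h1
  linear_combination (norm := module) (1 / 2 : ℝ) • h1

theorem quat_bar (a b : V6) : Bf (a.1, -a.2) (b.1, -b.2) = Bf a b := by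
  simp [Bf]

theorem quat_le (a : V6) : finrank ℝ (hl a) ≤ finrank ℝ (hl (a.1, -a.2)) := by
  obtain ⟨w, hw0, hw⟩ : ∃ w : V3, w ≠ 0 ∧ w ⬝ᵥ a.2 = 0 := by
    by_cases h : a.2 0 = 0
    · refine ⟨![1, 0, 0], fun e => by simpa using congrFun e 0, by rw [dot3]; simp [h]⟩
    · refine ⟨![-a.2 1, a.2 0, 0], fun e => h (by simpa using congrFun e 1), ?_⟩
      rw [dot3]; simp; ring
  rw [← finrank_map_eq (lm w) (u := hl a) (by
    rw [eq_bot_iff]
    rintro x ⟨-, hx⟩
    by_contra h0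
    exact hw0 (lm_eq_zero h0 hx))]
  refine Submodule.finrank_mono ?_
  rintro _ ⟨x, hx, rfl⟩
  have hx' := mem_hl.1 hx
  have h1 := lm_lm w a.2 x
  rw [hw, mul_zero, zero_smul] at h1
  rw [mem_hl, rm_lm, hx', lm_neg]
  exact eq_neg_of_add_eq_zero_left h1

theorem hl_finrank {a : V6} (h0 : a ≠ 0) (h : Bf a a = 0) : finrank ℝ (hl a) = 2 := by
  have h1 := quat_le a
  have h2 : finrank ℝ (hl (a.1, -a.2)) ≤ finrank ℝ (hl a) := by
    have := quat_le (a.1, -a.2)
    have e : ((a.1, -a.2).1, -(a.1, -a.2).2) = a := by simp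
    rwa [e] at this
  have h3 : hl a ⊓ hl (a.1, -a.2) = ⊥ := by
    rw [eq_bot_iff]
    rintro x ⟨b1, b2⟩
    by_contra hx
    have b3 := snd_eq_of_mem hx b1 b2 rfl
    refine snd_ne_zero h0 h ?_
    have : (2 : ℝ) • a.2 = 0 := by
      rw [two_smul]; exact add_eq_zero_iff_eq_neg.2 b3
    exact (smul_eq_zero.1 this).resolve_left two_ne_zero
  have h4 := Submodule.finrank_sup_add_finrank_inf_eq (hl a) (hl (a.1, -a.2))
  have h5 := Submodule.finrank_le (hl a ⊔ hl (a.1, -a.2))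
  rw [Module.finrank_fin_fun] at h5
  rw [h3, finrank_bot] at h4
  have h6 := LinearMap.finrank_range_add_finrank_ker (rm a.1 - lm (-a.2))
  rw [Module.finrank_fin_fun] at h6
  have h7 : LinearMap.range (rm a.1 - lm (-a.2)) ≤ hl a := by
    rintro _ ⟨y, rfl⟩
    rw [LinearMap.sub_apply, lm_neg, sub_neg_eq_add]
    exact quat_tilde h y
  have h8 := Submodule.finrank_mono h7
  have h9 : finrank ℝ (hl (a.1, -a.2)) = finrank ℝ (LinearMap.ker (rm a.1 - lm (-a.2))) := rfl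
  omega

theorem quat_rm {a : V6} {x : E} (hx : x ∈ hl a) : rm a.1 x ∈ hl a := by
  rw [mem_hl] at hx ⊢
  rw [← rm_lm, ← hx]

theorem quat_le_of_span {a b : V6} (h : b ∈ Submodule.span ℝ {a}) : hl a ≤ hl b :=
  fun _ hx => mem_hl_span (fun c hc => by rw [Set.mem_singleton_iff.1 hc]; exact hx) h

theorem quat_par {u w : V3} (hu : u ≠ 0) (h : crossProduct u w = 0) :
    w = ((u ⬝ᵥ w) / (u ⬝ᵥ u)) • u := by
  have h0 : u ⬝ᵥ u ≠ 0 := fun e => hu (dotProduct_self_eq_zero.1 e)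
  have e0 := congrFun h 0
  have e1 := congrFun h 1
  have e2 := congrFun h 2
  simp [cross_apply] at e0 e1 e2
  ext i
  rw [Pi.smul_apply, smul_eq_mul, div_mul_eq_mul_div, eq_div_iff h0, dot3, dot3]
  fin_cases i
  · simp only [Fin.zero_eta]; linear_combination u 2 * e1 - u 1 * e2
  · simp only [Fin.mk_one]; linear_combination u 0 * e2 - u 2 * e0
  · simp only [Fin.reduceFinMk]; linear_combination u 1 * e0 - u 0 * e1

theorem hl_eq_iff {a b : V6} (ha0 : a ≠ 0) (ha : Bf a a = 0) (hb0 : b ≠ 0) (hb : Bf b b = 0) :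
    hl a = hl b ↔ Submodule.span ℝ {a} = Submodule.span ℝ {b} := by
  constructor
  · intro e
    obtain ⟨x, hx, hx0⟩ := exists_vec (k := 1) (hl_finrank ha0 ha)
    have h1 : x ∈ hl b := e ▸ hx
    have h2 : rm a.1 x ∈ hl b := e ▸ quat_rm hx
    have h3 := rm_comm a.1 b.1 x
    rw [mem_hl.1 h2, ← rm_lm, ← mem_hl.1 h1, sub_self, eq_comm, smul_eq_zero] at h3
    have h4 := quat_par (fst_ne_zero ha0 ha) (rm_eq_zero hx0 (h3.resolve_left (by norm_num)))
    set c := (a.1 ⬝ᵥ b.1) / (a.1 ⬝ᵥ a.1)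
    have h5 : x ∈ hl (c • a) :=
      quat_le_of_span (Submodule.smul_mem _ _ (Submodule.mem_span_singleton_self a)) hx
    have h6 : b = c • a := Prod.ext h4 (snd_eq_of_mem hx0 h1 h5 h4)
    have h7 : c ≠ 0 := by
      rintro h
      rw [h, zero_smul] at h6
      exact hb0 h6
    rw [h6, Submodule.span_singleton_smul_eq h7.isUnit]
  · intro e
    exact le_antisymm (quat_le_of_span (e ▸ Submodule.mem_span_singleton_self b))
      (quat_le_of_span (e ▸ Submodule.mem_span_singleton_self a))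

theorem hl_meet_iff {a b : V6} (ha0 : a ≠ 0) (ha : Bf a a = 0) (hb0 : b ≠ 0)
    (hb : Bf b b = 0) : meet (hl a) (hl b) ↔ Bf a b = 0 := by
  constructor
  · intro h
    obtain ⟨x, hx, h1, h2⟩ := meet_iff.1 h
    exact Bf_of_mem hx h1 h2
  · intro h hc
    have ha0' : (a.1, -a.2) ≠ 0 := fun e => fst_ne_zero ha0 ha (congrArg Prod.fst e)
    have hb0' : (b.1, -b.2) ≠ 0 := fun e => fst_ne_zero hb0 hb (congrArg Prod.fst e)
    have ha' : Bf (a.1, -a.2) (a.1, -a.2) = 0 := by rw [quat_bar, ha]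
    have hb' : Bf (b.1, -b.2) (b.1, -b.2) = 0 := by rw [quat_bar, hb]
    have h1 : finrank ℝ ((hl b).map (rm a.1 - lm a.2)) = 2 := by
      rw [finrank_map_eq _ (by rw [inf_comm]; exact hc), hl_finrank hb0 hb]
    have h2 : (hl b).map (rm a.1 - lm a.2) ≤ hl (a.1, -a.2) := by
      rintro _ ⟨x, -, rfl⟩
      have := quat_tilde ha' x
      rwa [lm_neg, ← sub_eq_add_neg] at this
    have h3 : (hl b).map (rm a.1 - lm a.2) ≤ hl (b.1, -b.2) := by
      rintro _ ⟨x, hx, rfl⟩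
      have hx' := mem_hl.1 hx
      have e1 := rm_rm a.1 b.1 x
      have e2 := lm_lm a.2 b.2 x
      have e3 : a.1 ⬝ᵥ b.1 = a.2 ⬝ᵥ b.2 := by unfold Bf at h; linarith
      rw [hx', rm_lm, e3, ← e2] at e1
      rw [mem_hl, lm_neg, LinearMap.sub_apply, map_sub, map_sub, rm_lm, hx']
      linear_combination (norm := module) e1
    have h4 := Submodule.eq_of_le_of_finrank_eq h2 (h1.trans (hl_finrank ha0' ha').symm)
    have h5 := Submodule.eq_of_le_of_finrank_eq h3 (h1.trans (hl_finrank hb0' hb').symm)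
    have h6 := (hl_eq_iff ha0' ha' hb0' hb').1 (h4.symm.trans h5)
    obtain ⟨c, hc'⟩ := Submodule.mem_span_singleton.1
      (h6 ▸ Submodule.mem_span_singleton_self (a.1, -a.2) :
        (a.1, -a.2) ∈ Submodule.span ℝ {(b.1, -b.2)})
    have h7 : c • b = a := by
      have e1 := congrArg Prod.fst hc'
      have e2 := congrArg Prod.snd hc'
      exact Prod.ext e1 (by simpa using e2)
    have h8 : hl b ≤ hl a := quat_le_of_span (Submodule.mem_span_singleton.2 ⟨c, h7⟩)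
    rw [inf_eq_right.2 h8] at hc
    have := hl_finrank hb0 hb
    rw [hc, finrank_bot] at this
    omega

theorem hl_rm (a : V6) (h : Bf a a = 0) : (hl a).map (rm a.1) ≤ hl a := by
  rintro _ ⟨x, hx, rfl⟩
  exact quat_rm hx

theorem rm_span {u u' : V3} (h : LinearIndependent ℝ ![u, u']) {x : E} (hx : x ≠ 0) :
    Submodule.span ℝ ({x, rm u x, rm u' x, rm u (rm u' x) - rm u' (rm u x)} : Set E) = ⊤ := by
  have hn : crossProduct u u' ≠ 0 := crossProduct_ne_zero_iff_linearIndependent.2 h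
  set n := crossProduct u u' with hn'
  have hn0 : n ⬝ᵥ n ≠ 0 := fun e => hn (dotProduct_self_eq_zero.1 e)
  have hx0 : x ⬝ᵥ x ≠ 0 := fun e => hx (dotProduct_self_eq_zero.1 e)
  set S := Submodule.span ℝ ({x, rm u x, rm u' x, rm u (rm u' x) - rm u' (rm u x)} : Set E)
  have m0 : x ∈ S := Submodule.subset_span (by simp)
  have m1 : rm u x ∈ S := Submodule.subset_span (by simp)
  have m2 : rm u' x ∈ S := Submodule.subset_span (by simp)
  have m3 : rm n x ∈ S := by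
    have : rm u (rm u' x) - rm u' (rm u x) ∈ S := Submodule.subset_span (by simp)
    rw [rm_comm] at this
    exact (S.smul_mem_iff (by norm_num)).1 this
  have m4 : ∀ w : V3, rm w x ∈ S := by
    intro w
    have e : (n ⬝ᵥ n) • w = (w ⬝ᵥ crossProduct u' n) • u + (w ⬝ᵥ crossProduct n u) • u'
        + (w ⬝ᵥ n) • n := by
      ext i
      simp only [dot3]
      fin_cases i <;> simp [hn', cross_apply] <;> ring
    rw [← S.smul_mem_iff hn0, ← rm_smul, e, rm_add, rm_add, rm_smul, rm_smul, rm_smul]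
    exact add_mem (add_mem (S.smul_mem _ m1) (S.smul_mem _ m2)) (S.smul_mem _ m3)
  rw [eq_top_iff]
  intro y _
  have e : (x ⬝ᵥ x) • y = (x ⬝ᵥ y) • x +
      rm ![rm ![1, 0, 0] x ⬝ᵥ y, rm ![0, 1, 0] x ⬝ᵥ y, rm ![0, 0, 1] x ⬝ᵥ y] x := by
    ext i
    simp only [dot4]
    fin_cases i <;> simp [rm_apply] <;> ring
  rw [← S.smul_mem_iff hx0, e]
  exact add_mem (S.smul_mem _ m0) (m4 _)

theorem mem_pt {g : V3 → V3} {x : E} : x ∈ pt g ↔ ∀ p q, x ∈ hl (p - q, g p - g q) := by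
  simp only [pt, Submodule.mem_iInf]

theorem quat_rot {x : E} (hx : x ≠ 0) : ∃ φ : V3 →ₗ[ℝ] V3, ∀ u, x ∈ hl (u, φ u) := by
  have hx0 : x ⬝ᵥ x ≠ 0 := fun e => hx (dotProduct_self_eq_zero.1 e)
  have ex : ∀ u : V3, ∃ u', x ∈ hl (u, u') := by
    intro u
    refine ⟨(x ⬝ᵥ x)⁻¹ • ![lm ![1, 0, 0] x ⬝ᵥ rm u x, lm ![0, 1, 0] x ⬝ᵥ rm u x,
      lm ![0, 0, 1] x ⬝ᵥ rm u x], ?_⟩
    rw [mem_hl, lm_smul, eq_inv_smul_iff₀ hx0]
    ext i
    fin_cases i <;> simp [dot4, rm_apply, lm_apply] <;> ring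
  choose ψ hψ using ex
  refine ⟨⟨⟨ψ, fun u w => ?_⟩, fun c u => ?_⟩, hψ⟩
  · refine snd_eq_of_mem hx (hψ (u + w)) (b := (u + w, ψ u + ψ w)) ?_ rfl
    rw [mem_hl, rm_add, lm_add, mem_hl.1 (hψ u), mem_hl.1 (hψ w)]
  · refine snd_eq_of_mem hx (hψ (c • u)) (b := (c • u, c • ψ u)) ?_ rfl
    rw [mem_hl, rm_smul, lm_smul, mem_hl.1 (hψ u)]

theorem Mot.vec {g : V3 → V3} (h : Mot g) :
    ∃ x : E, x ≠ 0 ∧ ∀ p q, x ∈ hl (p - q, g p - g q) := by
  obtain ⟨x, hx, h0⟩ := (Submodule.ne_bot_iff _).1 h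
  exact ⟨x, h0, mem_pt.1 hx⟩

theorem Mot.finrank_pt {g : V3 → V3} (h : Mot g) : finrank ℝ (pt g) = 1 := by
  obtain ⟨x, h0, hx⟩ := h.vec
  set a : V6 := (![1, 0, 0] - 0, g ![1, 0, 0] - g 0) with ha
  set b : V6 := (![0, 1, 0] - 0, g ![0, 1, 0] - g 0) with hb
  have a0 : a ≠ 0 := fun e => by simpa [ha] using congrFun (congrArg Prod.fst e) 0
  have b0 : b ≠ 0 := fun e => by simpa [hb] using congrFun (congrArg Prod.fst e) 1
  have a1 : Bf a a = 0 := Bf_of_mem h0 (hx _ _) (hx _ _)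
  have b1 : Bf b b = 0 := Bf_of_mem h0 (hx _ _) (hx _ _)
  have ne : hl a ≠ hl b := by
    intro e
    rw [hl_eq_iff a0 a1 b0 b1] at e
    obtain ⟨c, hc⟩ := Submodule.mem_span_singleton.1
      (e ▸ Submodule.mem_span_singleton_self a : a ∈ Submodule.span ℝ {b})
    simpa [ha, hb] using congrFun (congrArg Prod.fst hc) 0
  have h1 := inf_one (hl_finrank a0 a1) (hl_finrank b0 b1) ne (meet_iff.2 ⟨x, h0, hx _ _, hx _ _⟩)
  have h2 : pt g ≤ hl a ⊓ hl b := fun y hy => ⟨mem_pt.1 hy _ _, mem_pt.1 hy _ _⟩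
  have h3 := Submodule.finrank_mono h2
  have h4 := lin_pos h
  omega

theorem Mot.le_hl_iff {g : V3 → V3} (h : Mot g) {w v : V6} (hw : g w.1 = w.2) :
    pt g ≤ hl (v - w) ↔ g v.1 = v.2 := by
  constructor
  · intro e
    obtain ⟨x, h0, hx⟩ := h.vec
    have := snd_eq_of_mem h0 (hx v.1 w.1) (e (mem_pt.2 hx)) rfl
    rw [hw] at this
    exact sub_left_injective this
  · intro e x hx
    have := mem_pt.1 hx v.1 w.1
    rwa [hw, e] at this

theorem Mot.dot {g : V3 → V3} (h : Mot g) (p q r s : V3) :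
    (g p - g q) ⬝ᵥ (g r - g s) = (p - q) ⬝ᵥ (r - s) := by
  obtain ⟨x, h0, hx⟩ := h.vec
  have := Bf_of_mem h0 (hx p q) (hx r s)
  unfold Bf at this
  linarith

theorem Mot.lin {g : V3 → V3} (h : Mot g) :
    ∃ φ : V3 →ₗ[ℝ] V3, ∀ p q, g p - g q = φ (p - q) := by
  obtain ⟨x, h0, hx⟩ := h.vec
  obtain ⟨φ, hφ⟩ := quat_rot h0
  exact ⟨φ, fun p q => snd_eq_of_mem h0 (hx p q) (hφ (p - q)) rfl⟩

theorem Mot.inj {g : V3 → V3} (h : Mot g) : Function.Injective g := by
  intro p q e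
  have := h.dot p q p q
  rw [e, sub_self, zero_dotProduct] at this
  exact sub_eq_zero.1 (dotProduct_self_eq_zero.1 this.symm)

theorem Mot.null {g : V3 → V3} (h : Mot g) {w v : V6} (hw : g w.1 = w.2) (hv : g v.1 = v.2) :
    Bf (v - w) (v - w) = 0 := by
  have := h.dot v.1 w.1 v.1 w.1
  rw [hw, hv] at this
  simp only [Bf, Prod.fst_sub, Prod.snd_sub]
  linarith

theorem Mot.ext_pt {g g' : V3 → V3} (h : Mot g) (h' : Mot g') {p : V3} (hp : g p = g' p)
    (he : pt g = pt g') : g = g' := by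
  funext q
  have h1 := (h.le_hl_iff (w := (p, g p)) (v := (q, g q)) rfl).2 rfl
  rw [he] at h1
  exact ((h'.le_hl_iff (w := (p, g p)) (v := (q, g q)) hp.symm).1 h1).symm

/-- Lines from a pin inside the graph of a motion agree iff the directions agree. -/
theorem Mot.hl_eq_iff {g : V3 → V3} (h : Mot g) {p q r : V3} (hq : q ≠ p) (hr : r ≠ p) :
    hl ((q, g q) - (p, g p)) = hl ((r, g r) - (p, g p)) ↔
      Submodule.span ℝ {q - p} = Submodule.span ℝ {r - p} := by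
  obtain ⟨φ, hφ⟩ := h.lin
  have a0 : ∀ q, q ≠ p → ((q, g q) - (p, g p) : V6) ≠ 0 := fun q hq e =>
    hq (congrArg Prod.fst (sub_eq_zero.1 e))
  rw [_root_.Vale.Agent.P054.hl_eq_iff (a0 q hq) (h.null rfl rfl) (a0 r hr) (h.null rfl rfl)]
  have e : ∀ q, Submodule.span ℝ {((q, g q) - (p, g p) : V6)}
      = (Submodule.span ℝ {q - p}).map (LinearMap.prod LinearMap.id φ) := by
    intro q
    rw [Submodule.map_span, Set.image_singleton]
    congr 2
    exact Prod.ext rfl (hφ q p)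
  rw [e, e]
  exact (Submodule.map_injective_of_injective fun a b hab => congrArg Prod.fst hab).eq_iff

theorem Mot.ext3 {g g' : V3 → V3} (h : Mot g) (h' : Mot g') {p q r : V3}
    (hc : ¬ Col ({p, q, r} : Finset V3)) (hp : g p = g' p) (hq : g q = g' q) (hr : g r = g' r) :
    g = g' := by
  have hqp : q ≠ p := by
    rintro rfl
    exact hc (col_of_card_le_two (by rw [insert_eq_of_mem (by simp)]; exact card_le_two))
  have hrp : r ≠ p := by
    rintro rfl
    exact hc (col_of_card_le_two (by rw [insert_eq_of_mem (by simp)]; exact card_le_two))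
  have ne : hl ((q, g q) - (p, g p)) ≠ hl ((r, g r) - (p, g p)) := by
    intro e
    rw [h.hl_eq_iff hqp hrp] at e
    refine hc (col_of_span (p := p) (v := q - p) fun z hz => ?_)
    simp only [mem_insert, mem_singleton] at hz
    rcases hz with rfl | rfl | rfl
    · simp
    · exact Submodule.mem_span_singleton_self _
    · rw [e]; exact Submodule.mem_span_singleton_self _
  have a0 : ∀ q, q ≠ p → ((q, g q) - (p, g p) : V6) ≠ 0 := fun q hq e =>
    hq (congrArg Prod.fst (sub_eq_zero.1 e))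
  have l1 : pt g ≤ hl ((q, g q) - (p, g p)) ⊓ hl ((r, g r) - (p, g p)) :=
    le_inf ((h.le_hl_iff rfl).2 rfl) ((h.le_hl_iff rfl).2 rfl)
  have l2 : pt g' ≤ hl ((q, g q) - (p, g p)) ⊓ hl ((r, g r) - (p, g p)) :=
    le_inf ((h'.le_hl_iff hp.symm).2 hq.symm) ((h'.le_hl_iff hp.symm).2 hr.symm)
  have h1 := inf_one (hl_finrank (a0 q hqp) (h.null rfl rfl))
    (hl_finrank (a0 r hrp) (h.null rfl rfl)) ne
    (meet_of_pt h.finrank_pt (l1.trans inf_le_left) (l1.trans inf_le_right))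
  refine h.ext_pt h' hp ?_
  rw [Submodule.eq_of_le_of_finrank_eq l1 (h.finrank_pt.trans h1.symm),
    Submodule.eq_of_le_of_finrank_eq l2 (h'.finrank_pt.trans h1.symm)]

theorem exists_mot (w : V6) {x : Sub} (hx : finrank ℝ x = 1) :
    ∃ g, Mot g ∧ g w.1 = w.2 ∧ pt g = x := by
  obtain ⟨y, hy, h0⟩ := exists_vec (k := 0) hx
  obtain ⟨φ, hφ⟩ := quat_rot h0
  have h1 : y ∈ pt fun p => w.2 + φ (p - w.1) := by
    rw [mem_pt]
    intro p q
    have : w.2 + φ (p - w.1) - (w.2 + φ (q - w.1)) = φ (p - q) := by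
      rw [add_sub_add_left_eq_sub, ← map_sub, sub_sub_sub_cancel_right]
    rw [this]
    exact hφ _
  have h2 : Mot fun p => w.2 + φ (p - w.1) := (Submodule.ne_bot_iff _).2 ⟨y, h1, h0⟩
  refine ⟨_, h2, by simp, ?_⟩
  exact (Submodule.eq_of_le_of_finrank_eq (pt_le_of_mem hx hy h0 h1)
    (hx.trans h2.finrank_pt.symm)).symm

theorem exists_dual {p : Sub} (hp : finrank ℝ p = 3) :
    ∃ x : Sub, finrank ℝ x = 1 ∧ ∀ a : V6, a ≠ 0 → Bf a a = 0 → hl a ≤ p →
      x ≤ hl (a.1, -a.2) := by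
  have hlt : p < ⊤ := by
    refine lt_top_iff_ne_top.2 ?_
    rintro rfl
    rw [finrank_top, Module.finrank_fin_fun] at hp
    omega
  obtain ⟨φ, hφ0, hφ⟩ := Submodule.exists_le_ker_of_lt_top p hlt
  set n : E := fun i => φ (Pi.single i 1) with hn
  have e : ∀ z : E, φ z = n ⬝ᵥ z := by
    intro z
    rw [LinearMap.pi_apply_eq_sum_univ, dotProduct]
    refine sum_congr rfl fun i _ => ?_
    rw [smul_eq_mul, mul_comm, hn]
    congr 2
    funext j
    simp [Pi.single_apply, eq_comm]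
  have n0 : n ≠ 0 := by
    intro h
    refine hφ0 (LinearMap.ext fun z => ?_)
    rw [e, h, zero_dotProduct, LinearMap.zero_apply]
  refine ⟨Submodule.span ℝ {n}, finrank_span_singleton n0, fun a _ ha h => ?_⟩
  rw [Submodule.span_singleton_le_iff_mem, mem_hl, lm_neg, ← add_eq_zero_iff_eq_neg]
  refine dotProduct_self_eq_zero.1 ?_
  have h1 : φ _ = 0 := hφ (h (quat_tilde ha (rm a.1 n + lm a.2 n)))
  rw [e] at h1
  have h2 : ∀ y : E, n ⬝ᵥ (rm a.1 y + lm a.2 y) = -((rm a.1 n + lm a.2 n) ⬝ᵥ y) := by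
    intro y
    simp only [dot4]
    simp [rm_apply, lm_apply]; ring
  rw [h2] at h1
  exact neg_eq_zero.1 h1

theorem thru_mot (w : V6) {x : Sub} (hx : finrank ℝ x = 1) :
    ∃ g, Mot g ∧ g w.1 = w.2 ∧ ∀ v : V6, x ≤ hl (v - w) → g v.1 = v.2 := by
  obtain ⟨g, h1, h2, h3⟩ := exists_mot w hx
  exact ⟨g, h1, h2, fun v hv => (h1.le_hl_iff h2).1 (h3 ▸ hv)⟩

theorem inpl_mot (w : V6) {p : Sub} (hp : finrank ℝ p = 3) :
    ∃ g, Mot g ∧ g w.1 = -w.2 ∧ ∀ v : V6, v ≠ w → Bf (v - w) (v - w) = 0 → hl (v - w) ≤ p →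
      g v.1 = -v.2 := by
  obtain ⟨x, hx, h⟩ := exists_dual hp
  obtain ⟨g, h1, h2, h3⟩ := thru_mot (w.1, -w.2) hx
  refine ⟨g, h1, h2, fun v hv hn hl' => h3 (v.1, -v.2) ?_⟩
  have := h (v - w) (sub_ne_zero.2 hv) hn hl'
  have e : ((v.1, -v.2) - (w.1, -w.2) : V6) = ((v - w).1, -(v - w).2) :=
    Prod.ext rfl (by simp only [Prod.snd_sub]; abel)
  rwa [e]

theorem lift_eq_iff {w w' : V6} {x x' : E} :
    lift w x = lift w' x' ↔ x = x' ∧ x ∈ hl (w' - w) := by
  simp only [lift, LinearMap.prod_apply, Function.prod_apply, Prod.mk.injEq, LinearMap.id_apply,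
    LinearMap.sub_apply]
  refine and_congr_right fun e => ?_
  subst e
  rw [mem_hl, Prod.fst_sub, Prod.snd_sub, rm_sub, lm_sub]
  constructor <;> intro h <;> linear_combination (norm := module) h

theorem lift_inj (w : V6) : Function.Injective (lift w) := by
  intro x y h
  exact (lift_eq_iff.1 h).1

theorem wof_hl {a b : V6} (ha0 : a ≠ 0) (ha : Bf a a = 0) (hb0 : b ≠ 0) (hb : Bf b b = 0) :
    wof (hl a) (hl b) = Submodule.span ℝ {a, b} := by
  refine le_antisymm (Submodule.span_le.2 ?_) (Submodule.span_mono ?_)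
  · rintro c ⟨c0, c1, h | h⟩
    · rw [hl_eq_iff c0 c1 ha0 ha] at h
      exact Submodule.span_mono (by simp) (h ▸ Submodule.mem_span_singleton_self c :
        c ∈ Submodule.span ℝ {a})
    · rw [hl_eq_iff c0 c1 hb0 hb] at h
      exact Submodule.span_mono (by simp) (h ▸ Submodule.mem_span_singleton_self c :
        c ∈ Submodule.span ℝ {b})
  · rintro c (rfl | rfl)
    · exact ⟨ha0, ha, Or.inl rfl⟩
    · exact ⟨hb0, hb, Or.inr rfl⟩

theorem dim_lns {A B : Finset V3} {w : V6} {S : Finset V6} (h : S ⊆ nb A B w) :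
    Dim 2 (lns S w) := by
  intro l hl'
  obtain ⟨y, hy, rfl⟩ := mem_lns.1 hl'
  obtain ⟨-, -, h1, h2⟩ := mem_nb.1 (h hy)
  exact hl_finrank (sub_ne_zero.2 h1) h2

theorem dim_lv (P : Finset V3) (v : V6) : Dim 2 (lv P v) := by
  exact dim_lns (A := P) (B := P) subset_rfl

end Vale.Agent.P054
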