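import Vale.Agent.P054.Bez

/-!
Three skew lines with many transversals give a regulus.
-/

namespace Vale.Agent.P054

open Finset Module
open scoped Classical

/-- Two distinct transversals of three skew lines are skew. -/
theorem trans_skew {a b c l l' : Sub} (ha : finrank ℝ a = 2) (hb : finrank ℝ b = 2)
    (hc : finrank ℝ c = 2) (hl : finrank ℝ l = 2) (hl' : finrank ℝ l' = 2)
    (hab : ¬ meet a b) (hac : ¬ meet a c) (hbc : ¬ meet b c)
    (h : meet l a ∧ meet l b ∧ meet l c) (h' : meet l' a ∧ meet l' b ∧ meet l' c)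
    (hne : l ≠ l') : ¬ meet l l' := by
  intro hm
  have h1 := inf_one hl hl' hne hm
  have h2 := sup_three hl hl' hne hm
  have ka := meet_two hl hl' ha hne hm (meet_comm.1 h.1) (meet_comm.1 h'.1)
  have kb := meet_two hl hl' hb hne hm (meet_comm.1 h.2.1) (meet_comm.1 h'.2.1)
  have kc := meet_two hl hl' hc hne hm (meet_comm.1 h.2.2) (meet_comm.1 h'.2.2)
  rcases ka with ka | ka <;> rcases kb with kb | kb <;> rcases kc with kc | kc
  · exact hab (meet_of_pt h1 ka kb)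
  · exact hab (meet_of_pt h1 ka kb)
  · exact hac (meet_of_pt h1 ka kc)
  · exact hbc (meet_of_le_plane hb hc h2 kb kc)
  · exact hbc (meet_of_pt h1 kb kc)
  · exact hac (meet_of_le_plane ha hc h2 ka kc)
  · exact hab (meet_of_le_plane ha hb h2 ka kb)
  · exact hab (meet_of_le_plane ha hb h2 ka kb)

theorem regu_span {l : Sub} (hl : finrank ℝ l = 2) {u v : E} (hu : u ∈ l) (hv : v ∈ l)
    (hu0 : u ≠ 0) (huv : v ∉ Submodule.span ℝ {u}) {x : E} (hx : x ∈ l) :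
    ∃ α β : ℝ, x = α • u + β • v := by
  have hv0 : v ≠ 0 := by
    rintro rfl
    exact huv (zero_mem _)
  rw [← sup_eq_of_two (finrank_span_singleton hu0) (finrank_span_singleton hv0) hl
    (fun e => huv (e ▸ Submodule.mem_span_singleton_self v))
    ((Submodule.span_singleton_le_iff_mem _ _).2 hu)
    ((Submodule.span_singleton_le_iff_mem _ _).2 hv), ← Submodule.span_insert,
    Submodule.mem_span_pair] at hx
  obtain ⟨α, β, h⟩ := hx
  exact ⟨α, β, h.symm⟩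

theorem regu_mem {l : Sub} (hl : finrank ℝ l = 2) {u v : E} (h : l ≤ Submodule.span ℝ {u, v}) :
    u ∈ l ∧ v ∈ l := by
  have h1 : finrank ℝ (Submodule.span ℝ ({u, v} : Set E)) ≤ 2 := by
    have h2 := finrank_span_finset_le_card (R := ℝ) ({u, v} : Finset E)
    rw [Set.finrank, coe_pair] at h2
    exact h2.trans card_le_two
  rw [Submodule.eq_of_le_of_finrank_le h (hl ▸ h1)]
  exact ⟨Submodule.subset_span (by simp), Submodule.subset_span (by simp)⟩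

/-- Transversals in standard coordinates. -/
def reguTr (l : Sub) : Prop :=
  (∃ t, t ≠ 0 ∧ t ∈ l ∧ t 2 = 0 ∧ t 3 = 0) ∧ (∃ t, t ≠ 0 ∧ t ∈ l ∧ t 0 = 0 ∧ t 1 = 0) ∧
    ∃ t, t ≠ 0 ∧ t ∈ l ∧ t 0 = t 2 ∧ t 1 = t 3

theorem regu_ne {t : E} (h : t ≠ 0) : t 0 ≠ 0 ∨ t 1 ≠ 0 ∨ t 2 ≠ 0 ∨ t 3 ≠ 0 := by
  by_contra h1
  push Not at h1
  refine h (funext fun i => ?_)
  fin_cases i
  exacts [h1.1, h1.2.1, h1.2.2.1, h1.2.2.2]

theorem regu_one {l : Sub} (hl : finrank ℝ l = 2) (h : reguTr l) :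
    ∃ y0 y1 : ℝ, (y0 ≠ 0 ∨ y1 ≠ 0) ∧ ![y0, y1, 0, 0] ∈ l ∧ ![0, 0, y0, y1] ∈ l ∧
      ∀ t ∈ l, t 0 * t 3 - t 1 * t 2 = 0 := by
  obtain ⟨⟨u, hu0, hu, u2, u3⟩, ⟨v, hv0, hv, v0, v1⟩, w, hw0, hw, w0, w1⟩ := h
  have huv : v ∉ Submodule.span ℝ {u} := by
    intro h1
    obtain ⟨k, rfl⟩ := Submodule.mem_span_singleton.1 h1
    have := regu_ne hv0
    simp [u2, u3, v0, v1] at this
  obtain ⟨α, β, rfl⟩ := regu_span hl hu hv hu0 huv hw
  have h1 := regu_ne hw0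
  rw [← w0, ← w1] at h1
  simp only [Pi.add_apply, Pi.smul_apply, smul_eq_mul, u2, u3, v0, v1, mul_zero, add_zero,
    zero_add] at w0 w1 h1
  have hβ : β ≠ 0 := by
    rintro rfl
    rw [zero_mul] at w0 w1
    tauto
  refine ⟨α * u 0, α * u 1, by tauto, ?_, ?_, fun t ht => ?_⟩
  · refine (congrArg (· ∈ l) ?_).mp (l.smul_mem α hu)
    ext i
    fin_cases i <;> simp [u2, u3]
  · refine (congrArg (· ∈ l) ?_).mp (l.smul_mem β hv)
    ext i
    fin_cases i <;> simp [v0, v1, w0, w1]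
  · obtain ⟨γ, δ, rfl⟩ := regu_span hl hu hv hu0 huv ht
    simp only [Pi.add_apply, Pi.smul_apply, smul_eq_mul, u2, u3, v0, v1, mul_zero, add_zero,
      zero_add]
    apply mul_left_cancel₀ hβ
    linear_combination γ * δ * u 1 * w0 - γ * δ * u 0 * w1

theorem regu_par {p0 p1 q0 q1 : ℝ} (hp : p0 ≠ 0 ∨ p1 ≠ 0) (h : p0 * q1 - p1 * q0 = 0) :
    ∃ k, q0 = k * p0 ∧ q1 = k * p1 := by
  rcases hp with hp | hp
  · exact ⟨q0 / p0, by field_simp, by field_simp; linear_combination h⟩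
  · exact ⟨q1 / p1, by field_simp; linear_combination -h, by field_simp⟩

theorem regu_rank {t : E} (h : t 0 * t 3 - t 1 * t 2 = 0) :
    ∃ p0 p1 r0 r1 : ℝ, t = ![r0 * p0, r0 * p1, r1 * p0, r1 * p1] := by
  by_cases hp : t 0 ≠ 0 ∨ t 1 ≠ 0
  · obtain ⟨k, h1, h2⟩ := regu_par hp h
    refine ⟨t 0, t 1, 1, k, funext fun i => ?_⟩
    fin_cases i <;> simp [h1, h2]
  · push Not at hp
    refine ⟨t 2, t 3, 0, 1, funext fun i => ?_⟩
    fin_cases i <;> simp [hp.1, hp.2]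

theorem regu_two {l : Sub} (hl : finrank ℝ l = 2) (h : ∀ t ∈ l, t 0 * t 3 - t 1 * t 2 = 0) :
    reguTr l ∨ ∃ r0 r1 : ℝ, (r0 ≠ 0 ∨ r1 ≠ 0) ∧ ![r0, 0, r1, 0] ∈ l ∧ ![0, r0, 0, r1] ∈ l := by
  obtain ⟨x, x', hi, e⟩ := exists_pair hl
  have hx : x ∈ l := e ▸ Submodule.subset_span (by simp)
  have hx' : x' ∈ l := e ▸ Submodule.subset_span (by simp)
  have h0 := regu_ne (hi.ne_zero 0)
  have h1 := h _ (add_mem hx hx')
  obtain ⟨p0, p1, r0, r1, rfl⟩ := regu_rank (h x hx)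
  obtain ⟨q0, q1, s0, s1, rfl⟩ := regu_rank (h x' hx')
  have hp : p0 ≠ 0 ∨ p1 ≠ 0 := by
    simp at h0
    tauto
  have hr : r0 ≠ 0 ∨ r1 ≠ 0 := by
    simp at h0
    tauto
  have h2 : (p0 * q1 - p1 * q0) * (r0 * s1 - r1 * s0) = 0 := by
    simp at h1
    linear_combination h1
  rcases mul_eq_zero.1 h2 with h3 | h3
  · obtain ⟨k, rfl, rfl⟩ := regu_par hp h3
    obtain ⟨h4, h5⟩ := regu_mem hl (u := ![p0, p1, 0, 0]) (v := ![0, 0, p0, p1]) (by
      rw [e, Submodule.span_le, Set.pair_subset_iff]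
      refine ⟨Submodule.mem_span_pair.2 ⟨r0, r1, ?_⟩,
        Submodule.mem_span_pair.2 ⟨s0 * k, s1 * k, ?_⟩⟩ <;>
      · ext i
        fin_cases i <;> simp [mul_assoc])
    refine Or.inl ⟨⟨_, fun e => ?_, h4, rfl, rfl⟩, ⟨_, fun e => ?_, h5, rfl, rfl⟩,
      ⟨_, fun e => ?_, add_mem h4 h5, by simp, by simp⟩⟩
    · have e0 := congrFun e 0
      have e1 := congrFun e 1
      simp at e0 e1
      tauto
    · have e0 := congrFun e 2
      have e1 := congrFun e 3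
      simp at e0 e1
      tauto
    · have e0 := congrFun e 0
      have e1 := congrFun e 1
      simp at e0 e1
      tauto
  · obtain ⟨k, rfl, rfl⟩ := regu_par hr h3
    refine Or.inr ⟨r0, r1, hr, regu_mem hl ?_⟩
    rw [e, Submodule.span_le, Set.pair_subset_iff]
    refine ⟨Submodule.mem_span_pair.2 ⟨p0, p1, ?_⟩,
      Submodule.mem_span_pair.2 ⟨k * q0, k * q1, ?_⟩⟩ <;>
    · ext i
      fin_cases i <;> simp <;> ring

theorem regu_coord {a b c : Sub} (ha : finrank ℝ a = 2) (hb : finrank ℝ b = 2)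
    (hc : finrank ℝ c = 2) (hab : ¬ meet a b) (hac : ¬ meet a c) (hbc : ¬ meet b c) :
    ∃ T : E ≃ₗ[ℝ] E, (∀ t, T t ∈ a ↔ t 2 = 0 ∧ t 3 = 0) ∧ (∀ t, T t ∈ b ↔ t 0 = 0 ∧ t 1 = 0) ∧
      ∀ t, T t ∈ c ↔ t 0 = t 2 ∧ t 1 = t 3 := by
  have z : ∀ {u v : Sub}, ¬ meet u v → ∀ x, x ∈ u → x ∈ v → x = 0 := fun h x h1 h2 =>
    by_contra fun h0 => h (meet_iff.2 ⟨x, h0, h1, h2⟩)
  have htop : a ⊔ b = ⊤ := by
    apply Submodule.eq_top_of_finrank_eq
    have h1 := Submodule.finrank_sup_add_finrank_inf_eq a b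
    rw [not_not.1 hab, finrank_bot, ha, hb] at h1
    rw [Module.finrank_fin_fun]
    exact h1
  obtain ⟨c1, c2, hi, e⟩ := exists_pair hc
  have h1 : c1 ∈ c := e ▸ Submodule.subset_span (by simp)
  have h2 : c2 ∈ c := e ▸ Submodule.subset_span (by simp)
  obtain ⟨a1, ha1, b1, hb1, rfl⟩ := Submodule.mem_sup.1 (htop ▸ Submodule.mem_top (x := c1))
  obtain ⟨a2, ha2, b2, hb2, rfl⟩ := Submodule.mem_sup.1 (htop ▸ Submodule.mem_top (x := c2))
  rw [LinearIndependent.pair_iff] at hi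
  have hcc : ∀ s t : ℝ, s • a1 + t • a2 + (s • b1 + t • b2) ∈ c := fun s t =>
    (congrArg (· ∈ c) (by module)).mp (add_mem (c.smul_mem s h1) (c.smul_mem t h2))
  have haa : ∀ s t : ℝ, s • a1 + t • a2 ∈ a := fun s t =>
    add_mem (a.smul_mem s ha1) (a.smul_mem t ha2)
  have hbb : ∀ s t : ℝ, s • b1 + t • b2 ∈ b := fun s t =>
    add_mem (b.smul_mem s hb1) (b.smul_mem t hb2)
  have ia : ∀ s t : ℝ, s • a1 + t • a2 = 0 → s = 0 ∧ t = 0 := fun s t h => by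
    have h3 := hcc s t
    refine hi s t (Eq.trans (by module) (z hbc _ ?_ h3))
    rw [h, zero_add]
    exact hbb s t
  have ib : ∀ s t : ℝ, s • b1 + t • b2 = 0 → s = 0 ∧ t = 0 := fun s t h => by
    have h3 := hcc s t
    refine hi s t (Eq.trans (by module) (z hac _ ?_ h3))
    rw [h, add_zero]
    exact haa s t
  let T : E →ₗ[ℝ] E := Fintype.linearCombination ℝ ![a1, a2, b1, b2]
  have hT : ∀ t, T t = t 0 • a1 + t 1 • a2 + (t 2 • b1 + t 3 • b2) := fun t => by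
    simp [T, Fintype.linearCombination_apply, Fin.sum_univ_four, add_assoc]
  have k1 : ∀ t, T t ∈ a ↔ t 2 = 0 ∧ t 3 = 0 := fun t => by
    rw [hT, a.add_mem_iff_right (haa _ _)]
    refine ⟨fun h => ib _ _ (z hab _ h (hbb _ _)), fun h => ?_⟩
    simp [h.1, h.2]
  have k2 : ∀ t, T t ∈ b ↔ t 0 = 0 ∧ t 1 = 0 := fun t => by
    rw [hT, b.add_mem_iff_left (hbb _ _)]
    refine ⟨fun h => ia _ _ (z hab _ (haa _ _) h), fun h => ?_⟩
    simp [h.1, h.2]
  have k3 : Function.Injective T := (injective_iff_map_eq_zero T).2 fun t h => by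
    by_contra h0
    have h3 := (k1 t).1 (h ▸ zero_mem _)
    have h4 := (k2 t).1 (h ▸ zero_mem _)
    have := regu_ne h0
    tauto
  refine ⟨LinearEquiv.ofInjectiveEndo T k3, k1, k2, fun t => ?_⟩
  change T t ∈ c ↔ _
  rw [hT]
  refine ⟨fun h => ?_, fun h => by rw [← h.1, ← h.2]; exact hcc _ _⟩
  have h3 := ib (t 2 - t 0) (t 3 - t 1) (z hbc _ (hbb _ _)
    ((congrArg (· ∈ c) (by module)).mp (sub_mem h (hcc (t 0) (t 1)))))
  exact ⟨by linarith [h3.1], by linarith [h3.2]⟩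

/-- The quadric through three skew lines. Hint: `E = a ⊕ b`, `c` is the graph of an isomorphism,
so there are coordinates `(y, z) ∈ ℝ² × ℝ²` with `a = {z = 0}`, `b = {y = 0}`, `c = {y = z}`;
`q = det (y, z)` (use `lf`). A two dimensional space of singular `2 × 2` matrices has a common
image or a common kernel. -/
theorem quadric {a b c : Sub} (ha : finrank ℝ a = 2) (hb : finrank ℝ b = 2)
    (hc : finrank ℝ c = 2) (hab : ¬ meet a b) (hac : ¬ meet a c) (hbc : ¬ meet b c) :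
    ∃ q : MvPolynomial (Fin 4) ℝ, q.totalDegree ≤ 2 ∧
      (∀ l : Sub, finrank ℝ l = 2 → meet l a ∧ meet l b ∧ meet l c → van q l) ∧
      ∀ l : Sub, finrank ℝ l = 2 → van q l → (meet l a ∧ meet l b ∧ meet l c) ∨
        ∀ u : Sub, finrank ℝ u = 2 → meet u a ∧ meet u b ∧ meet u c → meet l u := by
  obtain ⟨T, h1, h2, h3⟩ := regu_coord ha hb hc hab hac hbc
  have hd : ∀ l : Sub, finrank ℝ (l.comap (T : E →ₗ[ℝ] E)) = finrank ℝ l := fun l => by
    rw [Submodule.comap_equiv_eq_map_symm, LinearEquiv.finrank_map_eq]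
  have hm : ∀ l u : Sub, meet l u ↔ ∃ t, t ≠ 0 ∧ T t ∈ l ∧ T t ∈ u := fun l u => by
    rw [meet_iff]
    exact (T.surjective.exists).trans (by simp)
  have ht : ∀ l : Sub, (meet l a ∧ meet l b ∧ meet l c) ↔ reguTr (l.comap (T : E →ₗ[ℝ] E)) :=
    fun l => by simp only [hm, h1, h2, h3, reguTr, Submodule.mem_comap, LinearEquiv.coe_coe]
  let φ : Fin 4 → E →ₗ[ℝ] ℝ := fun i => (LinearMap.proj i).comp (T.symm : E →ₗ[ℝ] E)
  have hv : ∀ l : Sub, van (lf (φ 0) * lf (φ 3) - lf (φ 1) * lf (φ 2)) l ↔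
      ∀ t ∈ l.comap (T : E →ₗ[ℝ] E), t 0 * t 3 - t 1 * t 2 = 0 := fun l => by
    unfold van
    refine (T.surjective.forall).trans (forall_congr' fun t => ?_)
    simp [eval_lf, φ]
  refine ⟨lf (φ 0) * lf (φ 3) - lf (φ 1) * lf (φ 2),
    (((lf_homog _).mul (lf_homog _)).sub ((lf_homog _).mul (lf_homog _))).totalDegree_le,
    fun l hl h => ?_, fun l hl h => ?_⟩
  · obtain ⟨_, _, -, -, -, h4⟩ := regu_one ((hd l).trans hl) ((ht l).1 h)
    exact (hv l).2 h4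
  · refine (regu_two ((hd l).trans hl) ((hv l).1 h)).imp (ht l).2 ?_
    rintro ⟨r0, r1, hr, h4, h5⟩ u hu h6
    obtain ⟨y0, y1, hy, h7, h8, -⟩ := regu_one ((hd u).trans hu) ((ht u).1 h6)
    refine (hm l u).2 ⟨![r0 * y0, r0 * y1, r1 * y0, r1 * y1], fun e => ?_, ?_, ?_⟩
    · have e0 := congrFun e 0
      have e1 := congrFun e 1
      have e2 := congrFun e 2
      have e3 := congrFun e 3
      simp at e0 e1 e2 e3
      tauto
    · have h9 := add_mem (Submodule.smul_mem _ y0 h4) (Submodule.smul_mem _ y1 h5)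
      refine (congrArg (fun t => T t ∈ l) ?_).mp h9
      ext i
      fin_cases i <;> simp [mul_comm]
    · have h9 := add_mem (Submodule.smul_mem _ r0 h7) (Submodule.smul_mem _ r1 h8)
      refine (congrArg (fun t => T t ∈ u) ?_).mp h9
      ext i
      fin_cases i <;> simp

theorem reg_or_k3 {D : ℕ} (hD : 2 ≤ D) {f : MvPolynomial (Fin 4) ℝ} (hf : IrrH D f)
    (S : Finset Sub) (hS : Dim 2 S) (h : ∀ l ∈ S, van f l) : Reg S ∨ K3 ((D : ℝ) ^ 2) S := by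
  rw [or_iff_not_imp_right]
  intro hk
  simp only [K3, not_forall, not_le] at hk
  obtain ⟨a, ha, b, hb, c, hc, hab, hac, hbc, hk⟩ := hk
  obtain ⟨q, hq, h1, h2⟩ := quadric (hS a ha) (hS b hb) (hS c hc) hab hac hbc
  have hk' : D ^ 2 < (S.filter fun l => meet l a ∧ meet l b ∧ meet l c).card := by
    exact_mod_cast hk
  have h3 : f ∣ q := by
    by_contra h4
    refine hk'.not_ge (bezout hf h4 (hq.trans hD) _ (hS.mono (filter_subset _ _)) fun l hl => ?_)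
    exact ⟨h l (mem_filter.1 hl).1, h1 l (hS l (mem_filter.1 hl).1) (mem_filter.1 hl).2⟩
  have h4 : ∀ l ∈ S, van q l := fun l hl x hx => by
    obtain ⟨u, rfl⟩ := h3
    rw [map_mul, h l hl x hx, zero_mul]
  obtain ⟨a', b', c', ha', hb', hc', e1, e2, e3⟩ := two_lt_card_iff.1
    (lt_of_le_of_lt (by nlinarith : 2 ≤ D ^ 2) hk')
  rw [mem_filter] at ha' hb' hc'
  have sk : ∀ l ∈ S, ∀ l' ∈ S, (meet l a ∧ meet l b ∧ meet l c) →
      (meet l' a ∧ meet l' b ∧ meet l' c) → l ≠ l' → ¬ meet l l' := fun l hl l' hl' =>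
    trans_skew (hS a ha) (hS b hb) (hS c hc) (hS l hl) (hS l' hl') hab hac hbc
  have s1 := sk _ ha'.1 _ hb'.1 ha'.2 hb'.2 e1
  have s2 := sk _ ha'.1 _ hc'.1 ha'.2 hc'.2 e2
  have s3 := sk _ hb'.1 _ hc'.1 hb'.2 hc'.2 e3
  have h5 : ∀ l ∈ S, ¬ (meet l a ∧ meet l b ∧ meet l c) → meet l a' ∧ meet l b' ∧ meet l c' :=
    fun l hl h6 => by
      have h7 := (h2 l (hS l hl) (h4 l hl)).resolve_left h6
      exact ⟨h7 _ (hS _ ha'.1) ha'.2, h7 _ (hS _ hb'.1) hb'.2, h7 _ (hS _ hc'.1) hc'.2⟩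
  intro l hl
  by_cases h6 : meet l a ∧ meet l b ∧ meet l c
  · refine ⟨a', ha'.1, b', hb'.1, c', hc'.1, s1, s2, s3, fun h7 => ?_, fun l' hl' hne hm =>
      h5 l' hl' fun h7 => sk l hl l' hl' h6 h7 hne.symm hm⟩
    rcases eq_or_ne l a' with rfl | h8
    · exact s1 h7.2.1
    · exact sk l hl a' ha'.1 h6 ha'.2 h8 h7.1
  · refine ⟨a, ha, b, hb, c, hc, hab, hac, hbc, h6, fun l' hl' hne hm => ?_⟩
    by_contra h7
    exact trans_skew (hS _ ha'.1) (hS _ hb'.1) (hS _ hc'.1) (hS l hl) (hS l' hl') s1 s2 s3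
      (h5 l hl h6) (h5 l' hl' h7) hne.symm hm

end Vale.Agent.P054
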