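import Vale.Agent.P054.Part
import Vale.Agent.P054.Bez

/-!
The Szemeredi-Trotter theorem.
-/

namespace Vale.Agent.P054

open Finset Module
open scoped Classical

/-- A plane curve of degree `D` contains at most `D` lines. Hint: cut with a generic line
through a point where `f ≠ 0`, and use `zeros_le`. -/
theorem lines_in_curve {D : ℕ} {f : MvPolynomial (Fin 3) ℝ} (hf : f.IsHomogeneous D)
    (h0 : f ≠ 0) (L : Finset (Submodule ℝ (Fin 3 → ℝ))) (hL : Dim 2 L) (h : ∀ l ∈ L, van f l) :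
    L.card ≤ D := by
  obtain ⟨y, hy, hy'⟩ := bez_gen h0 {⊥} (by simp)
  have h1 : finrank ℝ (Submodule.span ℝ {y}) = 1 := finrank_span_singleton (by simpa using hy')
  have ht : finrank ℝ (⊤ : Submodule ℝ (Fin 3 → ℝ)) = 3 := by simp
  have hi : ∀ {a b : Submodule ℝ (Fin 3 → ℝ)}, finrank ℝ a = 2 → finrank ℝ b = 2 → a ≠ b →
      finrank ℝ ↥(a ⊓ b) = 1 := fun ha hb hab =>
    inf_one ha hb hab (meet_of_le_plane ha hb ht le_top le_top)
  obtain ⟨z, -, hz⟩ := bez_gen (f := (1 : MvPolynomial (Fin 3) ℝ)) one_ne_zero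
    (insert (Submodule.span ℝ {y})
      (L.offDiag.image fun q => Submodule.span ℝ {y} ⊔ (q.1 ⊓ q.2))) fun u hu => by
      rcases mem_insert.1 hu with rfl | hu
      · omega
      · obtain ⟨q, hq, rfl⟩ := mem_image.1 hu
        obtain ⟨h2, h3, h4⟩ := mem_offDiag.1 hq
        refine (Submodule.finrank_add_le_finrank_add_finrank _ _).trans_lt ?_
        rw [h1, hi (hL _ h2) (hL _ h3) h4]
        omega
  have hz1 := hz _ (mem_insert_self _ _)
  have h2 := sup_two h1 (finrank_span_singleton fun e : z = 0 => hz1 (e ▸ zero_mem _))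
    fun e => hz1 (e ▸ Submodule.mem_span_singleton_self z)
  have hy1 := Submodule.mem_span_singleton_self (R := ℝ) y
  have h3 : ∀ l ∈ L, finrank ℝ ↥((Submodule.span ℝ {y} ⊔ Submodule.span ℝ {z}) ⊓ l) = 1 :=
    fun l hl => hi h2 (hL l hl) fun e => hy (h l hl y (e ▸ Submodule.mem_sup_left hy1))
  rw [← card_image_of_injOn (f := fun l => (Submodule.span ℝ {y} ⊔ Submodule.span ℝ {z}) ⊓ l)
    fun l hl l' hl' e => by_contra fun hne => ?_]
  · refine zeros_le hf h2 (fun e => hy (e y (Submodule.mem_sup_left hy1))) _ (fun u hu => ?_)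
      fun u hu => ?_
    · obtain ⟨p, hp, rfl⟩ := mem_image.1 hu
      exact h3 p hp
    · obtain ⟨p, hp, rfl⟩ := mem_image.1 hu
      exact ⟨inf_le_left, fun w hw => h p hp w hw.2⟩
  · have h4 := sup_eq_of_two h1 (h3 l hl) h2 (fun e => hy (h l hl y (e.le hy1).2)) le_sup_left
      inf_le_left
    exact hz _ (mem_insert_of_mem (mem_image.2 ⟨(l, l'), mem_offDiag.2 ⟨hl, hl', hne⟩, rfl⟩))
      (sup_le_sup_left (le_inf inf_le_right (e.le.trans inf_le_right)) _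
        (h4.ge (Submodule.mem_sup_right (Submodule.mem_span_singleton_self z))))

theorem st_k22 {F : Type*} [AddCommGroup F] [Module ℝ F] [FiniteDimensional ℝ F]
    {P L : Finset (Submodule ℝ F)} (hP : Dim 1 P) (hL : Dim 2 L) :
    ∑ l ∈ L, inpl P l ≤ P.card ^ 2 + L.card ∧ ∑ l ∈ L, inpl P l ≤ L.card ^ 2 + P.card := by
  refine ⟨k22 P L (· ≤ ·) fun a ha a' ha' hne l hl l' hl' => eq_of_two (hP a ha) (hP a' ha')
    (hL l hl) (hL l' hl') hne, ?_⟩
  rw [← inc_eq_sum_inpl, inc_eq_sum_thru]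
  exact k22 L P (fun l p => p ≤ l) fun l hl l' hl' hne a ha a' ha' h1 h2 h3 h4 =>
    by_contra fun h => hne (eq_of_two (hP a ha) (hP a' ha') (hL l hl) (hL l' hl') h h1 h3 h2 h4)

/-- With `h = 2 ^ q`. -/
theorem st_step (P L : Finset (Submodule ℝ (Fin 3 → ℝ))) (hP : Dim 1 P) (hL : Dim 2 L) (q : ℕ) :
    (inc P L : ℝ) ≤ (P.card : ℝ) ^ 2 / (2 ^ q) ^ 2 + L.card * (48 * 2 ^ q + 4)
      + 256 * (2 ^ q) ^ 2 + P.card := by
  have hy : ∀ p : Submodule ℝ (Fin 3 → ℝ), ∃ y ∈ p, p ∈ P → y ≠ 0 := fun p => by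
    by_cases hp : p ∈ P
    · exact (exists_vec (hP p hp)).imp fun y hy => ⟨hy.1, fun _ => hy.2⟩
    · exact ⟨0, zero_mem _, fun h => (hp h).elim⟩
  choose y y1 y2 using hy
  obtain ⟨f, D, cell, f0, f1, f2, f3, f4⟩ := partition 2 q one_le_two P y
  choose! T t1 t2 using f4
  let Q : (Fin (2 * q) → Bool) → Finset (Submodule ℝ (Fin 3 → ℝ)) := fun σ =>
    P.filter fun p => MvPolynomial.eval (y p) f ≠ 0 ∧ cell (y p) = σ
  let P0 := P.filter fun p => MvPolynomial.eval (y p) f = 0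
  have h1 : ∀ l ∈ L, inpl P l ≤ ∑ σ ∈ T l, inpl (Q σ) l + inpl P0 l := fun l hl => by
    refine (card_le_card fun p hp => ?_).trans ((card_union_le _ _).trans
      (add_le_add_left card_biUnion_le _))
    obtain ⟨a1, a2⟩ := mem_filter.1 hp
    by_cases h : MvPolynomial.eval (y p) f = 0
    · exact mem_union_right _ (mem_filter.2 ⟨mem_filter.2 ⟨a1, h⟩, a2⟩)
    · exact mem_union_left _ (mem_biUnion.2 ⟨_, t2 l (hL l hl) _ (a2 (y1 p)) h,
        mem_filter.2 ⟨mem_filter.2 ⟨a1, h, rfl⟩, a2⟩⟩)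
  have h2 : ∑ l ∈ L, ∑ σ ∈ T l, inpl (Q σ) l ≤ ∑ σ, (Q σ).card ^ 2 + L.card * (2 * D + 4) := by
    have e : ∀ g : _ → _ → ℕ, ∑ l ∈ L, ∑ σ ∈ T l, g σ l =
        ∑ σ, ∑ l ∈ L.filter fun l => σ ∈ T l, g σ l := fun g => sum_comm' fun l σ => by simp
    rw [e]
    refine (sum_le_sum fun σ _ => (st_k22 (hP.mono (filter_subset _ _))
      (hL.mono (filter_subset _ _))).1).trans ?_
    rw [sum_add_distrib]
    refine add_le_add_right ?_ _
    rw [sum_congr rfl fun σ _ => card_eq_sum_ones _, ← e fun _ _ => 1]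
    exact sum_le_card_nsmul _ _ _ fun l hl => (card_eq_sum_ones _).ge.trans (t1 l (hL l hl))
  have h3 : (∑ σ, (Q σ).card ^ 2) * (2 ^ q) ^ 2 ≤ P.card ^ 2 := by
    rw [sum_mul, sq P.card, ← pow_mul']
    nth_rw 1 [card_eq_sum_card_fiberwise (s := P) (t := univ) (f := fun p => cell (y p))
      fun _ _ => mem_univ _]
    rw [sum_mul]
    refine sum_le_sum fun σ _ => ?_
    rw [sq, mul_assoc]
    exact Nat.mul_le_mul (card_le_card (monotone_filter_right _ fun _ _ h => h.2)) (f3 σ)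
  have h4 : ∑ l ∈ L, inpl P0 l ≤ D ^ 2 + P.card + L.card * D := by
    rw [← sum_filter_add_sum_filter_not L (van f)]
    refine add_le_add ((st_k22 (hP.mono (filter_subset _ _)) (hL.mono (filter_subset _ _))).2.trans
      (add_le_add (Nat.pow_le_pow_left (lines_in_curve f1 f0 _ (hL.mono (filter_subset _ _))
        fun l hl => (mem_filter.1 hl).2) 2) (card_filter_le _ _)))
      ((sum_le_card_nsmul _ _ D fun l hl => ?_).trans
        (Nat.mul_le_mul_right _ (card_filter_le _ _)))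
    refine zeros_le f1 (hL l (mem_filter.1 hl).1) (mem_filter.1 hl).2 _
      (hP.mono ((filter_subset _ _).trans (filter_subset _ _))) fun p hp => ?_
    obtain ⟨a1, a2⟩ := mem_filter.1 (mem_filter.1 hp).1
    exact ⟨(mem_filter.1 hp).2, van_of_eval f1 (hP p a1) (y1 p) (y2 p a1) a2⟩
  have h5 := (sum_le_sum h1).trans (sum_add_distrib.trans_le (add_le_add h2 h4))
  rw [← inc_eq_sum_inpl] at h5
  generalize ∑ σ, (Q σ).card ^ 2 = A at h3 h5
  have b1 : (A : ℝ) ≤ (P.card : ℝ) ^ 2 / (2 ^ q) ^ 2 := by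
    rw [le_div_iff₀ (by positivity)]
    exact_mod_cast h3
  have b2 : (D : ℝ) ≤ 16 * 2 ^ q := by exact_mod_cast f2
  have b3 : (inc P L : ℝ) ≤ A + L.card * (2 * D + 4) + (D ^ 2 + P.card + L.card * D) := by
    exact_mod_cast h5
  have b4 := pow_le_pow_left₀ (Nat.cast_nonneg D) b2 2
  have b5 := mul_le_mul_of_nonneg_left b2 (Nat.cast_nonneg L.card)
  nlinarith

theorem st3 (P L : Finset (Submodule ℝ (Fin 3 → ℝ))) (hP : Dim 1 P) (hL : Dim 2 L) :
    (inc P L : ℝ) ^ 3 ≤ 10 ^ 8 * ((P.card : ℝ) ^ 2 * (L.card : ℝ) ^ 2 + (P.card : ℝ) ^ 3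
      + (L.card : ℝ) ^ 3) := by
  have h1 : (inc P L : ℝ) ≤ (L.card : ℝ) ^ 2 + P.card := by
    rw [inc_eq_sum_inpl]
    exact_mod_cast (st_k22 hP hL).2
  have h2 := st_step P L hP hL
  have i0 : (0 : ℝ) ≤ inc P L := Nat.cast_nonneg _
  rcases L.eq_empty_or_nonempty with rfl | hne
  · rw [inc_eq_sum_inpl, sum_empty, Nat.cast_zero, zero_pow three_ne_zero]
    positivity
  have n1 : (1 : ℝ) ≤ L.card := Nat.one_le_cast.2 hne.card_pos
  have m1 : (P.card : ℝ) ≤ (P.card : ℝ) ^ 2 := by exact_mod_cast Nat.le_self_pow two_ne_zero _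
  have m0 : (0 : ℝ) ≤ P.card := Nat.cast_nonneg _
  generalize (inc P L : ℝ) = I at *
  generalize (P.card : ℝ) = m at *
  generalize (L.card : ℝ) = n at *
  have n0 : 0 < n := by linarith
  have p1 : 0 ≤ m ^ 2 * n ^ 2 := by positivity
  have p2 : 0 ≤ m ^ 3 := by positivity
  have p3 : 0 ≤ n ^ 3 := by positivity
  rcases le_or_gt (m ^ 2) n with c1 | c1
  · have h3 := h2 0
    norm_num at h3
    have h4 := pow_le_pow_left₀ i0 (show I ≤ 310 * n by linarith) 3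
    nlinarith
  rcases le_or_gt (n ^ 2) m with c2 | c2
  · have h4 := pow_le_pow_left₀ i0 (show I ≤ 2 * m by linarith) 3
    nlinarith
  obtain ⟨q, q1, q2⟩ := exists_nat_pow_near ((one_le_div n0).2 c1.le) (by norm_num : (1 : ℝ) < 2 ^ 3)
  have h3 := h2 q
  have g1 : (1 : ℝ) ≤ 2 ^ q := one_le_pow₀ one_le_two
  rw [pow_succ _ q, div_lt_iff₀ n0, pow_right_comm] at q2
  rw [le_div_iff₀ n0, pow_right_comm] at q1
  generalize (2 : ℝ) ^ q = h at *
  have m2 : 0 < m := m0.lt_of_ne fun e => by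
    rw [← e] at c1
    linarith
  have g2 : m ^ 2 / h ^ 2 ≤ 8 * (h * n) := by
    rw [div_le_iff₀ (by positivity)]
    linarith
  have g3 : h ^ 2 ≤ m := by
    refine le_of_pow_le_pow_left₀ three_ne_zero m0 (le_of_mul_le_mul_right ?_ m2)
    calc (h ^ 2) ^ 3 * m ≤ (h ^ 2) ^ 3 * n ^ 2 := by gcongr
      _ = (h ^ 3 * n) ^ 2 := by ring
      _ ≤ (m ^ 2) ^ 2 := by gcongr
      _ = m ^ 3 * m := by ring
  have g4 : (h * n) ^ 3 ≤ m ^ 2 * n ^ 2 :=
    calc (h * n) ^ 3 = h ^ 3 * n * n ^ 2 := by ring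
      _ ≤ _ := by gcongr
  have g5 : n ≤ h * n := le_mul_of_one_le_left n0.le g1
  have h4 := pow_le_pow_left₀ i0 (show I ≤ 60 * (h * n) + 257 * m by linarith) 3
  generalize h * n = x at *
  have g6 := mul_nonneg (show 0 ≤ 60 * x + 257 * m by linarith) (sq_nonneg (60 * x - 257 * m))
  nlinarith

variable {F : Type*} [AddCommGroup F] [Module ℝ F] [FiniteDimensional ℝ F]

theorem st_map {G : Type*} [AddCommGroup G] [Module ℝ G] (φ : F →ₗ[ℝ] G)
    {P L : Finset (Submodule ℝ F)} (hP : Set.InjOn (Submodule.map φ) P)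
    (hL : Set.InjOn (Submodule.map φ) L)
    (h : ∀ P' L' : Finset (Submodule ℝ G), (∀ a ∈ P', ∃ b ∈ P, b.map φ = a) →
      (∀ a ∈ L', ∃ b ∈ L, b.map φ = a) → (inc P' L' : ℝ) ^ 3 ≤ 10 ^ 8 *
        ((P'.card : ℝ) ^ 2 * (L'.card : ℝ) ^ 2 + (P'.card : ℝ) ^ 3 + (L'.card : ℝ) ^ 3)) :
    (inc P L : ℝ) ^ 3 ≤ 10 ^ 8 * ((P.card : ℝ) ^ 2 * (L.card : ℝ) ^ 2 + (P.card : ℝ) ^ 3
      + (L.card : ℝ) ^ 3) := by
  have h1 := h (P.image (Submodule.map φ)) (L.image (Submodule.map φ)) (fun _ => mem_image.1)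
    fun _ => mem_image.1
  rw [card_image_of_injOn hP, card_image_of_injOn hL] at h1
  refine (pow_le_pow_left₀ (Nat.cast_nonneg _) (Nat.cast_le.2 (card_le_card_of_injOn
    (fun q => (q.1.map φ, q.2.map φ)) (fun q hq => ?_) fun q hq q' hq' e => ?_)) 3).trans h1
  · obtain ⟨a1, a2⟩ := mem_filter.1 hq
    exact mem_filter.2 ⟨mem_product.2 ⟨mem_image_of_mem _ (mem_product.1 a1).1,
      mem_image_of_mem _ (mem_product.1 a1).2⟩, Submodule.map_mono a2⟩
  · have a1 := mem_product.1 (mem_filter.1 hq).1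
    have a2 := mem_product.1 (mem_filter.1 hq').1
    exact Prod.ext (hP a1.1 a2.1 (congrArg Prod.fst e)) (hL a1.2 a2.2 (congrArg Prod.snd e))

theorem st (P L : Finset (Submodule ℝ F)) (hP : Dim 1 P) (hL : Dim 2 L) :
    (inc P L : ℝ) ^ 3 ≤ 10 ^ 8 * ((P.card : ℝ) ^ 2 * (L.card : ℝ) ^ 2 + (P.card : ℝ) ^ 3
      + (L.card : ℝ) ^ 3) := by
  have hv : ∀ a b : Submodule ℝ F, ∃ v ∈ a, v ∈ b → a ≤ b := fun a b => by
    by_cases h : a ≤ b
    · exact ⟨0, zero_mem _, fun _ => h⟩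
    · exact (SetLike.not_le_iff_exists.1 h).imp fun v hv => ⟨hv.1, fun h => (hv.2 h).elim⟩
  choose v v1 v2 using hv
  obtain ⟨φ, hφ⟩ := genProj 3 (((P ∪ L) ×ˢ (P ∪ L)).image fun q =>
    Submodule.span ℝ {v q.1 q.2} ⊔ q.2) fun u hu => by
      obtain ⟨q, hq, rfl⟩ := mem_image.1 hu
      have h1 : finrank ℝ q.2 ≤ 2 := (mem_union.1 (mem_product.1 hq).2).elim
        (fun h => (hP _ h).trans_le one_le_two) fun h => (hL _ h).le
      exact (Submodule.finrank_add_le_finrank_add_finrank _ _).trans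
        (add_le_add ((finrank_span_le_card _).trans (by simp)) h1 : _ ≤ 1 + 2)
  have h1 : ∀ a ∈ P ∪ L, ∀ b ∈ P ∪ L, (Submodule.span ℝ {v a b} ⊔ b) ⊓ LinearMap.ker φ = ⊥ :=
    fun a ha b hb => hφ _ (mem_image.2 ⟨(a, b), mem_product.2 ⟨ha, hb⟩, rfl⟩)
  have h2 : ∀ a ∈ P ∪ L, ∀ b ∈ P ∪ L, a.map φ ≤ b.map φ → a ≤ b := fun a ha b hb h =>
    v2 a b ((Submodule.span_singleton_le_iff_mem _ _).1 ((map_le_map_iff_of φ (h1 a ha b hb)).1
      ((Submodule.map_mono ((Submodule.span_singleton_le_iff_mem _ _).2 (v1 a b))).trans h)))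
  have h3 : Set.InjOn (Submodule.map φ) (P ∪ L : Finset _) := fun a ha b hb e =>
    le_antisymm (h2 a ha b hb e.le) (h2 b hb a ha e.ge)
  have h4 : ∀ a ∈ P ∪ L, finrank ℝ (a.map φ) = finrank ℝ a := fun a ha => finrank_map_eq φ
    (le_bot_iff.1 ((inf_le_inf_right _ le_sup_right).trans (h1 a ha a ha).le))
  refine st_map φ (h3.mono subset_union_left) (h3.mono subset_union_right) fun P' L' a1 a2 =>
    st3 P' L' (fun a ha => ?_) fun a ha => ?_
  · obtain ⟨b, hb, rfl⟩ := a1 a ha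
    rw [h4 b (mem_union_left _ hb), hP b hb]
  · obtain ⟨b, hb, rfl⟩ := a2 a ha
    rw [h4 b (mem_union_right _ hb), hL b hb]

/-- The same in the quotient by `K`. -/
theorem stK (K : Submodule ℝ F) {a : ℕ} (hK : finrank ℝ K = a) (P L : Finset (Submodule ℝ F))
    (hP : Dim (a + 1) P) (hL : Dim (a + 2) L) (h1 : ∀ p ∈ P, K ≤ p) (h2 : ∀ l ∈ L, K ≤ l) :
    (inc P L : ℝ) ^ 3 ≤ 10 ^ 8 * ((P.card : ℝ) ^ 2 * (L.card : ℝ) ^ 2 + (P.card : ℝ) ^ 3
      + (L.card : ℝ) ^ 3) := by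
  have h3 : ∀ p p' : Submodule ℝ F, K ≤ p → K ≤ p' → p.map K.mkQ = p'.map K.mkQ → p = p' :=
    fun p p' hp hp' e => by
      rw [← sup_eq_right.2 hp, ← sup_eq_right.2 hp', ← Submodule.comap_map_mkQ, e,
        Submodule.comap_map_mkQ]
  have h4 : ∀ p : Submodule ℝ F, K ≤ p → finrank ℝ (p.map K.mkQ) + a = finrank ℝ p :=
    fun p hp => by
      rw [← (K.mkQ.domRestrict p).finrank_range_add_finrank_ker, LinearMap.range_domRestrict,
        LinearMap.ker_domRestrict, Submodule.ker_mkQ,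
        (Submodule.comapSubtypeEquivOfLe hp).finrank_eq, hK]
  refine st_map K.mkQ (fun p hp p' hp' => h3 p p' (h1 p hp) (h1 p' hp'))
    (fun p hp p' hp' => h3 p p' (h2 p hp) (h2 p' hp')) fun P' L' a1 a2 =>
    st P' L' (fun a ha => ?_) fun a ha => ?_
  · obtain ⟨b, hb, rfl⟩ := a1 a ha
    have := (h4 b (h1 b hb)).trans (hP b hb)
    omega
  · obtain ⟨b, hb, rfl⟩ := a2 a ha
    have := (h4 b (h2 b hb)).trans (hL b hb)
    omega

theorem richK (K : Submodule ℝ F) {a : ℕ} (hK : finrank ℝ K = a) (P L : Finset (Submodule ℝ F))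
    (hP : Dim (a + 1) P) (hL : Dim (a + 2) L) (h1 : ∀ p ∈ P, K ≤ p) (h2 : ∀ l ∈ L, K ≤ l)
    {r : ℕ} (hr : 2 ≤ r) (h : ∀ l ∈ L, r ≤ inpl P l) :
    (L.card : ℝ) ≤ 10 ^ 9 * (P.card : ℝ) ^ 2 / (r : ℝ) ^ 3 + 10 ^ 3 * (P.card : ℝ) / r := by
  have r0 : (0 : ℝ) < r := Nat.cast_pos.2 (by omega)
  have m0 : (0 : ℝ) ≤ P.card := Nat.cast_nonneg _
  have n0 : (0 : ℝ) ≤ L.card := Nat.cast_nonneg _
  rcases le_total (r : ℝ) 1000 with c | c
  · have h3 := (card_nsmul_le_sum L _ 1 fun l hl => ?_).trans (pairs_le P L (· ≤ ·)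
      fun p hp p' hp' hne l hl l' hl' => eq_of_two (hP p hp) (hP p' hp') (hL l hl) (hL l' hl') hne)
    · have h4 : (L.card : ℝ) ≤ (P.card : ℝ) ^ 2 := by exact_mod_cast (mul_one _).ge.trans h3
      refine le_add_of_le_of_nonneg (h4.trans ?_) (by positivity)
      rw [le_div_iff₀ (by positivity), mul_comm]
      exact mul_le_mul_of_nonneg_right ((pow_le_pow_left₀ r0.le c 3).trans_eq (by norm_num))
        (by positivity)
    · have h4 : r ≤ (P.filter fun p => p ≤ l).card := h l hl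
      exact Nat.mul_pos (by omega) (by omega)
  · have h3 : (L.card : ℝ) * r ≤ inc P L := by
      rw [inc_eq_sum_inpl]
      exact_mod_cast card_nsmul_le_sum L _ r h
    have h4 := (pow_le_pow_left₀ (by positivity) h3 3).trans (stK K hK P L hP hL h1 h2)
    generalize (P.card : ℝ) = m at *
    generalize (L.card : ℝ) = n at *
    generalize (r : ℝ) = s at *
    by_contra hc
    have h5 : 10 ^ 9 * m ^ 2 / s ^ 3 < n :=
      (le_add_of_nonneg_right (by positivity)).trans_lt (not_le.1 hc)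
    have h6 : 10 ^ 3 * m / s < n := (le_add_of_nonneg_left (by positivity)).trans_lt (not_le.1 hc)
    rw [div_lt_iff₀ (by positivity)] at h5 h6
    have h7 := pow_lt_pow_left₀ h6 (by positivity) three_ne_zero
    have h8 := mul_le_mul_of_nonneg_right h5.le (sq_nonneg n)
    have h9 := mul_le_mul_of_nonneg_left (pow_le_pow_left₀ (by norm_num) c 3) (pow_nonneg n0 3)
    have p2 : 0 ≤ m ^ 3 := by positivity
    nlinarith

theorem richSqK (K : Submodule ℝ F) {a : ℕ} (hK : finrank ℝ K = a)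
    (P L : Finset (Submodule ℝ F)) (hP : Dim (a + 1) P) (hL : Dim (a + 2) L)
    (h1 : ∀ p ∈ P, K ≤ p) (h2 : ∀ l ∈ L, K ≤ l) {κ M : ℝ} (hκ : 2 ≤ κ) (hM : 0 ≤ M)
    (h : ∀ l ∈ L, κ ≤ inpl P l ∧ (inpl P l : ℝ) ≤ M) :
    ∑ l ∈ L, (inpl P l : ℝ) ^ 2 ≤ 10 ^ 10 * ((P.card : ℝ) ^ 2 / κ + P.card * M) := by
  have m0 : (0 : ℝ) ≤ P.card := Nat.cast_nonneg _
  refine (layer L (inpl P) (α := 10 ^ 9 * (P.card : ℝ) ^ 2) (β := 10 ^ 3 * (P.card : ℝ))
    (by positivity) (by positivity) (by linarith) hM h fun j hj => richK K hK P _ hP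
      (hL.mono (filter_subset _ _)) h1 (fun l hl => h2 l (mem_filter.1 hl).1)
      (by exact_mod_cast hκ.trans hj) fun l hl => (mem_filter.1 hl).2).trans ?_
  have h3 : 0 ≤ (P.card : ℝ) ^ 2 / κ := div_nonneg (sq_nonneg _) (by linarith)
  have h4 := mul_nonneg m0 hM
  rw [mul_div_assoc, mul_div_assoc]
  linarith

end Vale.Agent.P054
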