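import Vale.Agent.P054.Quat

/-!
Few flags lie on rich lines of their pin.
-/

namespace Vale.Agent.P054

open Finset Module
open scoped Classical

/-- Hint: `genProj 4` for the sums of pairs of lines; pairs `(l, l')` through a common point. -/
theorem studyG {F : Type*} [AddCommGroup F] [Module ℝ F] [FiniteDimensional ℝ F] {Z N B : ℝ}
    (hZ : 1 ≤ Z) (hG : GProp Z N) (P L : Finset (Submodule ℝ F)) (hP : Dim 1 P) (hL : Dim 2 L)
    (hN : (L.card : ℝ) ≤ N) (hB0 : 0 ≤ B)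
    (hB : ∀ T ⊆ L, (∀ a ∈ T, ∀ b ∈ T, meet a b) → (T.card : ℝ) ≤ B)
    (h : 4 * (Z + 1) * P.card ≤ inc P L) :
    (inc P L : ℝ) ^ 2 ≤ 2 * P.card * (Z * (Z * √(L.card : ℝ) + B + 1) * L.card) := by
  obtain ⟨φ, hφ⟩ := genProj 4 ((L ×ˢ L).image fun q => q.1 ⊔ q.2) (by
    intro u hu
    obtain ⟨q, hq, rfl⟩ := mem_image.1 hu
    have b1 := Submodule.finrank_sup_add_finrank_inf_eq q.1 q.2
    have b2 := hL _ (mem_product.1 hq).1
    have b3 := hL _ (mem_product.1 hq).2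
    omega)
  have hk : ∀ a ∈ L, ∀ b ∈ L, (a ⊔ b) ⊓ LinearMap.ker φ = ⊥ := fun a ha b hb =>
    hφ _ (mem_image.2 ⟨(a, b), mem_product.2 ⟨ha, hb⟩, rfl⟩)
  have hk1 : ∀ a ∈ L, ∀ p ≤ a, finrank ℝ (p.map φ) = finrank ℝ p := by
    intro a ha p hp
    refine finrank_map_eq φ (eq_bot_iff.2 ?_)
    rw [← hk a ha a ha]
    exact inf_le_inf_right _ (hp.trans le_sup_left)
  have inj : Set.InjOn (Submodule.map φ) L := fun a ha b hb e =>
    le_antisymm ((map_le_map_iff_of φ (hk a ha b hb)).1 e.le)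
      ((map_le_map_iff_of φ (hk b hb a ha)).1 e.ge)
  set L' : Finset Sub := L.image (Submodule.map φ) with hL'
  have hc : L'.card = L.card := card_image_of_injOn inj
  have hd : Dim 2 L' := by
    intro l hl'
    obtain ⟨a, ha, rfl⟩ := mem_image.1 hl'
    rw [hk1 a ha a le_rfl, hL a ha]
  have hpm : ∀ r : Sub → Prop, (∀ a ∈ L', ∀ b ∈ L', r a → r b → meet a b) →
      ((L'.filter r).card : ℝ) ≤ B := by
    intro r hr
    rw [hL', filter_image]
    refine le_trans (Nat.cast_le.2 card_image_le) (hB _ (filter_subset _ _) fun a ha b hb => ?_)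
    obtain ⟨a1, a2⟩ := mem_filter.1 ha
    obtain ⟨b1, b2⟩ := mem_filter.1 hb
    exact (meet_map_iff φ (hk a a1 b b1)).1
      (hr _ (mem_image_of_mem _ a1) _ (mem_image_of_mem _ b1) a2 b2)
  obtain ⟨FF, sf, g1, -, g3, g4⟩ := hG L' hd (by rwa [hc]) (Z * √(L.card : ℝ) + B + 1)
    (by rw [hc]; linarith)
  rw [hc] at g4
  have h0 : 0 ≤ Z * √(L.card : ℝ) := by positivity
  set NS := (mp L').filter fun q => q.2 ∉ sf q.1 with hNS
  have s1 : (NS.card : ℝ) ≤ Z * (Z * √(L.card : ℝ) + B + 1) * L.card := by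
    refine le_trans (Nat.cast_le.2 (card_le_card fun q hq => ?_)) g4
    obtain ⟨b1, b2⟩ := mem_filter.1 hq
    obtain ⟨c1, c2, c3, c4⟩ := mem_mp.1 b1
    have d1 : (thru L' (q.1 ⊓ q.2) : ℝ) ≤ B := hpm _ fun a _ b _ =>
      meet_of_pt (inf_one (hd _ c1) (hd _ c2) c3 c4)
    have d2 : (inpl L' (q.1 ⊔ q.2) : ℝ) ≤ B := hpm _ fun a ha b hb =>
      meet_of_le_plane (hd a ha) (hd b hb) (sup_three (hd _ c1) (hd _ c2) c3 c4)
    exact mem_filter.2 ⟨b1, by linarith, by linarith, b2⟩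
  set Q : Submodule ℝ F → Finset (Σ _ : Submodule ℝ F, Submodule ℝ F) := fun p =>
    (L.filter fun l => p ≤ l).sigma fun a =>
      (L.filter fun l => p ≤ l).filter fun b => b ≠ a ∧ b.map φ ∉ sf (a.map φ) with hQ
  have s2 : ∀ p ∈ P, (thru L p : ℝ) ^ 2 ≤ (Q p).card + (Z + 1) * thru L p := by
    intro p hp
    have b1 : ∀ a ∈ L.filter (fun l => p ≤ l), (thru L p : ℝ) - (Z + 1) ≤
        (((L.filter fun l => p ≤ l).filter fun b => b ≠ a ∧ b.map φ ∉ sf (a.map φ)).card : ℝ) := by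
      intro a ha
      obtain ⟨a1, a2⟩ := mem_filter.1 ha
      have c1 : (thru (sf (a.map φ)) (p.map φ) : ℝ) ≤ Z := by
        rcases g3 (a.map φ) with h | h
        · rw [h, thru, filter_empty, card_empty, Nat.cast_zero]; linarith
        · exact (g1 _ h.1).2.pt _ (by rw [hk1 a a1 p a2, hP p hp])
      have c2 : ((L.filter fun l => p ≤ l).filter fun b => b.map φ ∈ sf (a.map φ)).card
          ≤ thru (sf (a.map φ)) (p.map φ) := by
        refine card_le_card_of_injOn (Submodule.map φ) (fun b hb => ?_) (inj.mono fun b hb =>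
          (mem_filter.1 (mem_filter.1 (mem_coe.1 hb)).1).1)
        obtain ⟨d1, d2⟩ := mem_filter.1 (mem_coe.1 hb)
        exact mem_coe.2 (mem_filter.2 ⟨d2, Submodule.map_mono (mem_filter.1 d1).2⟩)
      have c3 : thru L p ≤ ((L.filter fun l => p ≤ l).filter
          fun b => b ≠ a ∧ b.map φ ∉ sf (a.map φ)).card +
          ((L.filter fun l => p ≤ l).filter fun b => b.map φ ∈ sf (a.map φ)).card + 1 := by
        refine le_trans (card_le_card (t := insert a (_ ∪ _)) fun b hb => ?_)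
          ((card_insert_le _ _).trans (Nat.add_le_add_right (card_union_le _ _) 1))
        by_cases e1 : b = a
        · exact mem_insert.2 (Or.inl e1)
        by_cases e2 : b.map φ ∈ sf (a.map φ)
        · exact mem_insert_of_mem (mem_union_right _ (mem_filter.2 ⟨hb, e2⟩))
        · exact mem_insert_of_mem (mem_union_left _ (mem_filter.2 ⟨hb, e1, e2⟩))
      have c4 : (_ : ℝ) ≤ _ := Nat.cast_le.2 c2
      have c5 : (_ : ℝ) ≤ _ := Nat.cast_le.2 c3
      push_cast at c5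
      linarith
    have b2 := card_nsmul_le_sum _ _ _ b1
    rw [nsmul_eq_mul, ← Nat.cast_sum, ← card_sigma] at b2
    have b3 : (thru L p : ℝ) * ((thru L p : ℝ) - (Z + 1)) ≤ (Q p).card := b2
    linarith
  have s3 : ∑ p ∈ P, (Q p).card ≤ NS.card := by
    rw [← card_sigma]
    have key : ∀ z ∈ P.sigma Q, z.2.1 ∈ L ∧ z.2.2 ∈ L ∧ z.2.1 ≠ z.2.2 ∧ meet z.2.1 z.2.2 ∧
        z.1 = z.2.1 ⊓ z.2.2 ∧ z.2.2.map φ ∉ sf (z.2.1.map φ) := by
      intro z hz
      obtain ⟨b1, b2⟩ := mem_sigma.1 hz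
      obtain ⟨b3, b4⟩ := mem_sigma.1 b2
      obtain ⟨b5, b6⟩ := mem_filter.1 b3
      obtain ⟨b7, b8, b9⟩ := mem_filter.1 b4
      obtain ⟨c1, c2⟩ := mem_filter.1 b7
      have c3 := meet_of_pt (hP _ b1) b6 c2
      exact ⟨b5, c1, b8.symm, c3, Submodule.eq_of_le_of_finrank_eq (le_inf b6 c2)
        ((hP _ b1).trans (inf_one (hL _ b5) (hL _ c1) b8.symm c3).symm), b9⟩
    refine card_le_card_of_injOn (fun z => (z.2.1.map φ, z.2.2.map φ)) (fun z hz => ?_) ?_
    · obtain ⟨b1, b2, b3, b4, -, b6⟩ := key z hz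
      exact mem_coe.2 (mem_filter.2 ⟨mem_mp.2 ⟨mem_image_of_mem _ b1, mem_image_of_mem _ b2,
        fun e => b3 (inj b1 b2 e), (meet_map_iff φ (hk _ b1 _ b2)).2 b4⟩, b6⟩)
    · rintro ⟨p, a, b⟩ hz ⟨p', a', b'⟩ hz' e
      obtain ⟨b1, b2, -, -, b5, -⟩ := key _ hz
      obtain ⟨c1, c2, -, -, c5, -⟩ := key _ hz'
      have e1 : a = a' := inj b1 c1 (congrArg Prod.fst e)
      have e2 : b = b' := inj b2 c2 (congrArg Prod.snd e)
      subst e1 e2
      have e3 : p = p' := b5.trans c5.symm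
      subst e3
      rfl
  have s4 : (inc P L : ℝ) = ∑ p ∈ P, (thru L p : ℝ) := by rw [inc_eq_sum_thru, Nat.cast_sum]
  have s5 := sq_sum_le_card_mul_sum_sq (s := P) (f := fun p => (thru L p : ℝ))
  have s6 := sum_le_sum s2
  rw [sum_add_distrib, ← mul_sum, ← s4, ← Nat.cast_sum] at s6
  rw [← s4] at s5
  have s7 : (_ : ℝ) ≤ _ := Nat.cast_le.2 s3
  have s8 : (inc P L : ℝ) ^ 2 ≤ P.card * (Z * (Z * √(L.card : ℝ) + B + 1) * L.card
      + (Z + 1) * inc P L) :=
    s5.trans (mul_le_mul_of_nonneg_left (by linarith) (Nat.cast_nonneg _))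
  have s9 := mul_le_mul_of_nonneg_right h (Nat.cast_nonneg (α := ℝ) (inc P L))
  have s10 : 0 ≤ (inc P L : ℝ) ^ 2 := by positivity
  linarith

theorem study_num {Z I p M c B y a a₀ m β : ℝ} (hZ : 1 ≤ Z) (hp : 0 ≤ p) (hpM : p ≤ M)
    (hpI : p ≤ I) (hc : 1 ≤ c) (hy : 2 ≤ y) (hcy : c * y ≤ I) (hB : 1 ≤ B) (ha₀ : 0 < a₀)
    (hBa : B * a₀ * y = 2 * a * m) (hβ : β ≤ Z * (2 * a₀ * I))
    (h : I ^ 2 ≤ 2 * p * (Z * (Z * √c + B + 1) * c)) :
    y ^ 3 ≤ 16 * Z ^ 4 * M ∨ β * y ^ 2 ≤ 64 * Z ^ 2 * a * m * M := by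
  have hI : 0 < I := lt_of_lt_of_le (by positivity) hcy
  have hp0 : 0 < p := by
    rcases hp.eq_or_lt with rfl | h0
    · have := pow_pos hI 2
      linarith
    · exact h0
  rcases le_total (B + 1) (Z * √c) with h1 | h1
  · left
    have b1 : I ^ 2 ≤ 4 * p * Z ^ 2 * c * √c := by
      have : 2 * p * (Z * (Z * √c + B + 1) * c) ≤ 2 * p * (Z * (2 * (Z * √c)) * c) := by
        gcongr; linarith
      linarith
    have b2 : (I ^ 2) ^ 2 ≤ (4 * p * Z ^ 2 * c * √c) ^ 2 := by gcongr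
    rw [mul_pow _ (√c), Real.sq_sqrt (by linarith)] at b2
    have b3 : (c * y) ^ 3 ≤ I ^ 3 := by gcongr
    have b4 : I ^ 3 * (I * y ^ 3) ≤ I ^ 3 * (16 * p ^ 2 * Z ^ 4) := by
      calc _ = (I ^ 2) ^ 2 * y ^ 3 := by ring
        _ ≤ (4 * p * Z ^ 2 * c) ^ 2 * c * y ^ 3 := by gcongr
        _ = 16 * p ^ 2 * Z ^ 4 * (c * y) ^ 3 := by ring
        _ ≤ 16 * p ^ 2 * Z ^ 4 * I ^ 3 := by gcongr
        _ = _ := by ring
    have b5 := le_of_mul_le_mul_left b4 (by positivity)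
    have b6 : p * y ^ 3 ≤ I * y ^ 3 := by gcongr
    have b7 : p * y ^ 3 ≤ p * (16 * Z ^ 4 * p) := by linarith
    exact (le_of_mul_le_mul_left b7 hp0).trans (by gcongr)
  · right
    have b1 : I ^ 2 ≤ 8 * p * Z * B * c := by
      have : 2 * p * (Z * (Z * √c + B + 1) * c) ≤ 2 * p * (Z * (4 * B) * c) := by
        gcongr; linarith
      linarith
    have b2 : I * (I * y) ≤ I * (8 * p * Z * B) := by
      calc _ = I ^ 2 * y := by ring
        _ ≤ 8 * p * Z * B * c * y := by gcongr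
        _ = 8 * p * Z * B * (c * y) := by ring
        _ ≤ 8 * p * Z * B * I := by gcongr
        _ = _ := by ring
    have b3 := le_of_mul_le_mul_left b2 hI
    have b4 : 0 ≤ B * a₀ * y := by positivity
    calc β * y ^ 2 ≤ Z * (2 * a₀ * I) * y ^ 2 := by gcongr
      _ = 2 * Z * a₀ * y * (I * y) := by ring
      _ ≤ 2 * Z * a₀ * y * (8 * p * Z * B) := by gcongr
      _ = 16 * Z ^ 2 * (B * a₀ * y) * p := by ring
      _ ≤ 32 * Z ^ 2 * (B * a₀ * y) * M := by gcongr; norm_num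
      _ = _ := by rw [hBa]; ring

theorem study_line {w w' : V6} {l l' : Sub} (h : l.map (lift w) = l'.map (lift w')) :
    l ≤ l' ∧ l ≤ hl (w' - w) := by
  refine ⟨fun x hx => ?_, fun x hx => ?_⟩
  · obtain ⟨x', h1, h2⟩ : lift w x ∈ l'.map (lift w') := h ▸ Submodule.mem_map_of_mem hx
    exact (lift_eq_iff.1 h2).1 ▸ h1
  · obtain ⟨x', -, h2⟩ : lift w x ∈ l'.map (lift w') := h ▸ Submodule.mem_map_of_mem hx
    exact (lift_eq_iff.1 h2.symm).2

theorem study_pin {w w' : V6} {x : E} (hx : x ≠ 0) (h : x ∈ hl (w' - w)) (e : w.1 = w'.1) :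
    w = w' := by
  have h0 : x ∈ hl 0 := mem_hl_span (s := ∅) (by simp) (zero_mem _)
  have := snd_eq_of_mem hx h h0 (by rw [Prod.fst_sub, e, sub_self]; rfl)
  exact Prod.ext e (sub_eq_zero.1 this).symm

/-- The point of the Study quadric. -/
def stp (g : V3 → V3) : Submodule ℝ (E × E) := (pt g).map (lift (0, g 0))

theorem stp_eq {g : V3 → V3} (hg : Mot g) {w : V6} (hw : g w.1 = w.2) :
    (pt g).map (lift w) = stp g := by
  have : ∀ x ∈ pt g, lift w x = lift (0, g 0) x := fun x hx =>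
    lift_eq_iff.2 ⟨rfl, (hg.le_hl_iff (v := (0, g 0)) hw).2 rfl hx⟩
  ext z
  constructor
  · rintro ⟨x, hx, rfl⟩; exact ⟨x, hx, (this x hx).symm⟩
  · rintro ⟨x, hx, rfl⟩; exact ⟨x, hx, this x hx⟩

theorem stp_inj {g g' : V3 → V3} (hg : Mot g) (hg' : Mot g') (h : stp g = stp g') : g = g' := by
  obtain ⟨h1, h2⟩ := study_line h
  exact hg.ext_pt hg' ((hg.le_hl_iff (w := (0, g 0)) (v := (0, g' 0)) rfl).1 h2)
    (le_antisymm h1 (study_line h.symm).1)

theorem finrank_lift (w : V6) (l : Sub) : finrank ℝ (l.map (lift w)) = finrank ℝ l :=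
  finrank_map_eq _ (by rw [LinearMap.ker_eq_bot.2 (lift_inj w), inf_bot_eq])

/-- The rich lines at a pin. -/
noncomputable def stR (X : V6 → Finset (V3 → V3)) (y : ℝ) (w : V6) : Finset Sub :=
  ((X w ×ˢ X w).image fun q => pt q.1 ⊔ pt q.2).filter fun l => finrank ℝ l = 2 ∧
    y ≤ (((X w).filter fun g => pt g ≤ l).card : ℝ)

theorem stR_mem {X : V6 → Finset (V3 → V3)} {y : ℝ} {w : V6} (hy : 2 ≤ y)
    (hX : ∀ g ∈ X w, Mot g ∧ g w.1 = w.2) {l : Sub} (hl' : finrank ℝ l = 2)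
    (h : y ≤ (((X w).filter fun g => pt g ≤ l).card : ℝ)) : l ∈ stR X y w := by
  refine mem_filter.2 ⟨?_, hl', h⟩
  have : 1 < ((X w).filter fun g => pt g ≤ l).card := by
    have : (1 : ℝ) < ((X w).filter fun g => pt g ≤ l).card := by linarith
    exact_mod_cast this
  obtain ⟨g, hg, g', hg', hne⟩ := one_lt_card.1 this
  obtain ⟨a1, a2⟩ := mem_filter.1 hg
  obtain ⟨b1, b2⟩ := mem_filter.1 hg'
  refine mem_image.2 ⟨(g, g'), mem_product.2 ⟨a1, b1⟩, ?_⟩
  exact sup_eq_of_two (hX g a1).1.finrank_pt (hX g' b1).1.finrank_pt hl'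
    (fun e => hne ((hX g a1).1.ext_pt (hX g' b1).1 ((hX g a1).2.trans (hX g' b1).2.symm) e)) a2 b2

theorem stR_card {X : V6 → Finset (V3 → V3)} {y a : ℝ} {w : V6} (hy : 2 ≤ y)
    (hX : ∀ g ∈ X w, Mot g ∧ g w.1 = w.2) (ha : ((X w).card : ℝ) ≤ a) (hya : 4 * a ≤ y ^ 2) :
    ((stR X y w).card : ℝ) ≤ 2 * a / y := by
  have inj : Set.InjOn pt (X w) := fun g hg g' hg' e =>
    (hX g hg).1.ext_pt (hX g' hg').1 ((hX g hg).2.trans (hX g' hg').2.symm) e
  have e : ∀ l, inpl ((X w).image pt) l = ((X w).filter fun g => pt g ≤ l).card := by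
    intro l
    rw [inpl, filter_image, card_image_of_injOn (inj.mono (coe_subset.2 (filter_subset _ _)))]
  have hc : ((X w).image pt).card = (X w).card := card_image_of_injOn inj
  have h1 : ∀ l ∈ stR X y w, y ≤ (inpl ((X w).image pt) l : ℝ) := fun l hl' => by
    rw [e]; exact (mem_filter.1 hl').2.2
  have h2 := bigInpl (k := 1) ((X w).image pt) (stR X y w) (fun p hp => by
      obtain ⟨g, hg, rfl⟩ := mem_image.1 hp
      exact (hX g hg).1.finrank_pt) (fun l hl' => (mem_filter.1 hl').2.1) (b := y) (by linarith)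
    (by rw [hc]; linarith) h1
  have h3 := card_nsmul_le_sum _ _ _ h1
  rw [nsmul_eq_mul, ← Nat.cast_sum] at h3
  have h4 : (_ : ℝ) ≤ _ := Nat.cast_le.2 h2
  rw [hc] at h4
  push_cast at h3 h4
  rw [le_div_iff₀ (by linarith)]
  linarith

/-- Hint: lift the rich lines `l` at the pin `w` to `l.map (lift w)`, lift `g` to
`(pt g).map (lift (0, g 0))`; dyadic classes of the number `μ` of pins of a lifted line. A pin
has at most `2 a / y` rich lines (`bigInpl`), pairwise meeting lifted lines have pins with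
distinct first coordinates, pins of one lifted line inside one motion are collinear. -/
theorem study {Z N m a b y : ℝ} (hZ : 10 ^ 20 ≤ Z) (hG : GProp Z N) (hlog : LogB Z N)
    (A : Finset V3) (hA : (A.card : ℝ) ≤ m) (G : Finset (V3 → V3)) (hM : ∀ g ∈ G, Mot g)
    (W : Finset V6) (X : V6 → Finset (V3 → V3)) (hW : ∀ w ∈ W, w.1 ∈ A)
    (hX : ∀ w ∈ W, X w ⊆ G ∧ ((X w).card : ℝ) ≤ a ∧ ∀ g ∈ X w, g w.1 = w.2)
    (hcol : ∀ g ∈ G, ∀ T : Finset V3, Col T → (∀ p ∈ T, (p, g p) ∈ W ∧ g ∈ X (p, g p)) →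
      (T.card : ℝ) ≤ b) (hb : 0 ≤ b)
    (hy : 4 * a ≤ y ^ 2) (hy2 : 2 ≤ y) (hN : W.card * (2 * a / y) ≤ N) (hmN : m ≤ N) {β : ℝ}
    (hβ : β = ∑ w ∈ W, (((X w).filter fun g => ∃ l : Sub, finrank ℝ l = 2 ∧ pt g ≤ l ∧
      y ≤ (((X w).filter fun g' => pt g' ≤ l).card : ℝ)).card : ℝ)) :
    β ≤ 8 * Z ^ 2 * b * G.card ∨ y ^ 3 ≤ 16 * Z ^ 4 * G.card ∨
      β * y ^ 2 ≤ 64 * Z ^ 2 * a * m * G.card := by
  have hZ1 : 1 ≤ Z := le_trans (by norm_num) hZ
  have hy0 : 0 < y := by linarith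
  have hXm : ∀ w ∈ W, ∀ g ∈ X w, Mot g ∧ g w.1 = w.2 := fun w hw g hg =>
    ⟨hM g ((hX w hw).1 hg), (hX w hw).2.2 g hg⟩
  set Pr := W.sigma (stR X y) with hPr
  set σ : (Σ _ : V6, Sub) → Submodule ℝ (E × E) := fun z => z.2.map (lift z.1) with hσ
  set cnt : (Σ _ : V6, Sub) → ℕ := fun z => ((X z.1).filter fun g => pt g ≤ z.2).card with hcnt
  set SL := Pr.image σ with hSL
  set μ : Submodule ℝ (E × E) → ℕ := fun s => (Pr.filter fun z => σ z = s).card with hμ
  set ff : Submodule ℝ (E × E) → ℝ := fun s => ∑ z ∈ Pr.filter (fun z => σ z = s), (cnt z : ℝ)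
    with hff
  set P := G.image stp with hP
  have pW : ∀ z ∈ Pr, z.1 ∈ W := fun z hz => (mem_sigma.1 hz).1
  have p2 : ∀ z ∈ Pr, finrank ℝ z.2 = 2 := fun z hz => (mem_filter.1 (mem_sigma.1 hz).2).2.1
  have py : ∀ z ∈ Pr, y ≤ cnt z := fun z hz => (mem_filter.1 (mem_sigma.1 hz).2).2.2
  have hR : ∀ w ∈ W, ((stR X y w).card : ℝ) ≤ 2 * a / y := fun w hw =>
    stR_card hy2 (hXm w hw) (hX w hw).2.1 hy
  have injS : Set.InjOn stp G := fun g hg g' hg' e => stp_inj (hM g hg) (hM g' hg') e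
  have hn : ∀ s, inpl P s = (G.filter fun g => stp g ≤ s).card := by
    intro s
    rw [inpl, hP, filter_image,
      card_image_of_injOn (injS.mono (coe_subset.2 (filter_subset _ _)))]
  have hle : ∀ z ∈ Pr, ∀ g ∈ X z.1, pt g ≤ z.2 → stp g ≤ σ z := fun z hz g hg h => by
    rw [← stp_eq (hXm _ (pW z hz) g hg).1 (hXm _ (pW z hz) g hg).2]
    exact Submodule.map_mono h
  have hcn : ∀ z ∈ Pr, cnt z ≤ inpl P (σ z) := fun z hz => by
    rw [hn]
    exact card_le_card fun g hg => mem_filter.2 ⟨(hX _ (pW z hz)).1 (mem_filter.1 hg).1,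
      hle z hz g (mem_filter.1 hg).1 (mem_filter.1 hg).2⟩
  have hinj : ∀ z ∈ Pr, ∀ z' ∈ Pr, σ z = σ z' → z.1.1 = z'.1.1 → z = z' := by
    rintro ⟨w, l⟩ hz ⟨w', l'⟩ hz' e e'
    obtain ⟨x, hx, hx0⟩ := exists_vec (k := 1) (p2 _ hz)
    have e1 : w = w' := study_pin hx0 ((study_line e).2 hx) e'
    have e2 : l = l' := le_antisymm (study_line e).1 (study_line e.symm).1
    subst e1 e2
    rfl
  have t1 : β ≤ ∑ s ∈ SL, ff s := by
    rw [hff, sum_fiberwise_of_maps_to (fun z hz => mem_image_of_mem σ hz), hPr, sum_sigma, hβ]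
    refine sum_le_sum fun w hw => ?_
    rw [← Nat.cast_sum]
    refine Nat.cast_le.2 (le_trans (card_le_card fun g hg => ?_) card_biUnion_le)
    obtain ⟨b1, l, b2, b3, b4⟩ := mem_filter.1 hg
    exact mem_biUnion.2 ⟨l, stR_mem hy2 (hXm w hw) b2 b4, mem_filter.2 ⟨b1, b3⟩⟩
  have t2 : ∀ s, ff s ≤ μ s * inpl P s := fun s => by
    have := sum_le_card_nsmul (Pr.filter fun z => σ z = s) (fun z => (cnt z : ℝ)) (inpl P s)
      fun z hz => by
        rw [← (mem_filter.1 hz).2]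
        exact Nat.cast_le.2 (hcn z (mem_filter.1 hz).1)
    rwa [nsmul_eq_mul] at this
  have t3 : ∀ s, ff s ≤ b * inpl P s := fun s => by
    have b1 : ∑ z ∈ Pr.filter (fun z => σ z = s), cnt z ≤ ∑ g ∈ G.filter (fun g => stp g ≤ s),
        ((Pr.filter fun z => σ z = s).filter fun z => g ∈ X z.1).card := by
      have : ∀ z ∈ Pr.filter (fun z => σ z = s),
          cnt z ≤ ((G.filter fun g => stp g ≤ s).filter fun g => g ∈ X z.1).card := by
        intro z hz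
        obtain ⟨c1, c2⟩ := mem_filter.1 hz
        refine card_le_card fun g hg => ?_
        obtain ⟨c3, c4⟩ := mem_filter.1 hg
        exact mem_filter.2 ⟨mem_filter.2 ⟨(hX _ (pW z c1)).1 c3, c2 ▸ hle z c1 g c3 c4⟩, c3⟩
      refine (sum_le_sum this).trans (le_of_eq ?_)
      simp only [card_filter (fun g => g ∈ X _), card_filter (fun z : (Σ _ : V6, Sub) => _ ∈ X z.1)]
      exact sum_comm
    have b2 : ∀ g ∈ G.filter (fun g => stp g ≤ s),
        (((Pr.filter fun z => σ z = s).filter fun z => g ∈ X z.1).card : ℝ) ≤ b := by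
      intro g hg
      have hgG := (mem_filter.1 hg).1
      set T := (Pr.filter fun z => σ z = s).filter fun z => g ∈ X z.1 with hT
      have c0 : ∀ z ∈ T, z ∈ Pr ∧ σ z = s ∧ g ∈ X z.1 ∧ z.1 = (z.1.1, g z.1.1) := fun z hz =>
        ⟨(mem_filter.1 (mem_filter.1 hz).1).1, (mem_filter.1 (mem_filter.1 hz).1).2,
          (mem_filter.1 hz).2, Prod.ext rfl
            (hXm _ (pW z (mem_filter.1 (mem_filter.1 hz).1).1) g (mem_filter.1 hz).2).2.symm⟩
      rw [← card_image_of_injOn (f := fun z => z.1.1) fun z hz z' hz' e =>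
        hinj z (c0 z hz).1 z' (c0 z' hz').1 ((c0 z hz).2.1.trans (c0 z' hz').2.1.symm) e]
      refine hcol g hgG _ ?_ fun p hp => ?_
      · by_cases c1 : (T.image fun z => z.1.1).card ≤ 1
        · exact col_of_card_le_two (by omega)
        obtain ⟨_, h0, _, h1, hne⟩ := one_lt_card.1 (not_le.1 c1)
        obtain ⟨z₀, hz₀, rfl⟩ := mem_image.1 h0
        obtain ⟨z₁, hz₁, rfl⟩ := mem_image.1 h1
        have c2 : ∀ z ∈ T, z.1.1 ≠ z₀.1.1 →
            z₀.2 = hl ((z.1.1, g z.1.1) - (z₀.1.1, g z₀.1.1)) := by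
          intro z hz hzne
          refine Submodule.eq_of_le_of_finrank_eq ?_ ?_
          · rw [← (c0 z hz).2.2.2, ← (c0 z₀ hz₀).2.2.2]
            exact (study_line ((c0 z₀ hz₀).2.1.trans (c0 z hz).2.1.symm)).2
          · rw [p2 _ (c0 z₀ hz₀).1]
            exact (hl_finrank (a := (z.1.1, g z.1.1) - (z₀.1.1, g z₀.1.1))
              (sub_ne_zero.2 fun e => hzne (Prod.ext_iff.1 e).1)
              ((hM g hgG).null (w := (z₀.1.1, g z₀.1.1)) (v := (z.1.1, g z.1.1)) rfl rfl)).symm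
        refine col_of_span (p := z₀.1.1) (v := z₁.1.1 - z₀.1.1) fun q hq => ?_
        obtain ⟨z, hz, rfl⟩ := mem_image.1 hq
        by_cases c3 : z.1.1 = z₀.1.1
        · rw [c3, sub_self]; exact zero_mem _
        · rw [← ((hM g hgG).hl_eq_iff c3 hne.symm).1 ((c2 z hz c3).symm.trans (c2 z₁ hz₁ hne.symm))]
          exact Submodule.mem_span_singleton_self _
      · obtain ⟨z, hz, rfl⟩ := mem_image.1 hp
        rw [← (c0 z hz).2.2.2]
        exact ⟨pW z (c0 z hz).1, (c0 z hz).2.2.1⟩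
    have b3 := sum_le_card_nsmul _ _ _ b2
    rw [nsmul_eq_mul, ← hn, ← Nat.cast_sum] at b3
    have b4 : (_ : ℝ) ≤ _ := Nat.cast_le.2 b1
    rw [Nat.cast_sum] at b4
    have b5 : ff s ≤ _ := b4
    linarith
  have t4 : ∀ s ∈ SL, 1 ≤ μ s ∧ (μ s : ℝ) ≤ m := by
    intro s hs
    obtain ⟨z, hz, rfl⟩ := mem_image.1 hs
    refine ⟨card_pos.2 ⟨z, mem_filter.2 ⟨hz, rfl⟩⟩, le_trans (Nat.cast_le.2 ?_) hA⟩
    refine card_le_card_of_injOn (fun z => z.1.1) (fun z' hz' => ?_) fun z1 h1 z2 h2 e => ?_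
    · exact hW _ (pW z' (mem_filter.1 (mem_coe.1 hz')).1)
    · obtain ⟨c1, c2⟩ := mem_filter.1 (mem_coe.1 h1)
      obtain ⟨c3, c4⟩ := mem_filter.1 (mem_coe.1 h2)
      exact hinj z1 c1 z2 c3 (c2.trans c4.symm) e
  obtain ⟨a₀, ha₀, t5⟩ := dyadic SL μ ff hlog (fun s hs => ⟨(t4 s hs).1, (t4 s hs).2.trans hmN⟩)
    fun s _ => sum_nonneg fun _ _ => Nat.cast_nonneg _
  set C := SL.filter fun s => a₀ ≤ μ s ∧ μ s < 2 * a₀ with hC
  have hI : (inc P C : ℝ) = ∑ s ∈ C, (inpl P s : ℝ) := by rw [inc_eq_sum_inpl, Nat.cast_sum]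
  have ha0 : (0 : ℝ) < a₀ := by exact_mod_cast ha₀
  have t6 : β ≤ Z * (b * inc P C) := by
    refine t1.trans (t5.trans (mul_le_mul_of_nonneg_left ?_ (by linarith)))
    rw [hI, mul_sum]
    exact sum_le_sum fun s _ => t3 s
  have t7 : β ≤ Z * (2 * a₀ * inc P C) := by
    refine t1.trans (t5.trans (mul_le_mul_of_nonneg_left ?_ (by linarith)))
    rw [hI, mul_sum]
    refine sum_le_sum fun s hs => (t2 s).trans (mul_le_mul_of_nonneg_right ?_ (Nat.cast_nonneg _))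
    exact_mod_cast (mem_filter.1 hs).2.2.le
  have hPG : (P.card : ℝ) ≤ G.card := Nat.cast_le.2 card_image_le
  have hP0 : (0 : ℝ) ≤ P.card := Nat.cast_nonneg _
  have first : (inc P C : ℝ) ≤ 8 * Z * G.card → β ≤ 8 * Z ^ 2 * b * G.card := fun h => by
    have : Z * (b * inc P C) ≤ Z * (b * (8 * Z * G.card)) :=
      mul_le_mul_of_nonneg_left (mul_le_mul_of_nonneg_left h hb) (by linarith)
    linarith
  rcases C.eq_empty_or_nonempty with h0 | ⟨s₀, hs₀⟩
  · left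
    refine first ?_
    rw [hI, h0, sum_empty]
    exact mul_nonneg (by linarith) (Nat.cast_nonneg _)
  rcases le_or_gt (4 * (Z + 1) * P.card) (inc P C) with h1 | h1
  swap
  · left
    refine first (h1.le.trans ?_)
    exact mul_le_mul (by linarith) hPG hP0 (by linarith)
  right
  obtain ⟨z₀, hz₀, rfl⟩ := mem_image.1 (mem_filter.1 hs₀).1
  have hya : y ≤ a := (py z₀ hz₀).trans (le_trans (Nat.cast_le.2 (card_le_card
    (filter_subset _ _))) (hX _ (pW z₀ hz₀)).2.1)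
  have ham : (a₀ : ℝ) ≤ m :=
    le_trans (Nat.cast_le.2 (mem_filter.1 hs₀).2.1) (t4 _ (mem_filter.1 hs₀).1).2
  have hq : 1 ≤ 2 * a / y := by rw [le_div_iff₀ hy0]; linarith
  have hB1 : 1 ≤ m * (2 * a / y) / a₀ := by
    rw [le_div_iff₀ ha0, one_mul]
    exact ham.trans (le_mul_of_one_le_right (by linarith) hq)
  have sig : ∀ V ⊆ W, ((V.sigma (stR X y)).card : ℝ) ≤ V.card * (2 * a / y) := by
    intro V hV
    have := sum_le_card_nsmul V (fun w => ((stR X y w).card : ℝ)) _ fun w hw => hR w (hV hw)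
    rwa [nsmul_eq_mul, ← Nat.cast_sum, ← card_sigma] at this
  have t8 := studyG (B := m * (2 * a / y) / a₀) hZ1 hG P C (fun p hp => by
      obtain ⟨g, hg, rfl⟩ := mem_image.1 hp
      rw [stp, finrank_lift, (hM g hg).finrank_pt])
    (fun s hs => by
      obtain ⟨z, hz, rfl⟩ := mem_image.1 (mem_filter.1 hs).1
      rw [hσ, finrank_lift, p2 z hz])
    (le_trans (Nat.cast_le.2 ((card_le_card (filter_subset _ _)).trans card_image_le))
      ((sig W subset_rfl).trans hN)) (by linarith)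
    (fun T hT hm => by
      set U := Pr.filter fun z => σ z ∈ T with hU
      have b1 : U.card = ∑ s ∈ T, μ s := by
        rw [card_eq_sum_card_fiberwise (f := σ) (s := U) (t := T)
          fun z hz => mem_coe.2 (mem_filter.1 (mem_coe.1 hz)).2]
        refine sum_congr rfl fun s hs => ?_
        congr 1
        ext z
        simp only [hU, mem_filter, and_assoc]
        exact and_congr_right fun _ => ⟨fun h => h.2, fun h => ⟨h ▸ hs, h⟩⟩
      have b2 := card_nsmul_le_sum T μ a₀ fun s hs => (mem_filter.1 (hT hs)).2.1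
      rw [smul_eq_mul, ← b1] at b2
      have b3 : U ⊆ (U.image fun z => z.1).sigma (stR X y) := fun z hz =>
        mem_sigma.2 ⟨mem_image_of_mem _ hz, (mem_sigma.1 (mem_filter.1 hz).1).2⟩
      have b4 : (U.image fun z => z.1) ⊆ W := fun w hw => by
        obtain ⟨z, hz, rfl⟩ := mem_image.1 hw
        exact pW z (mem_filter.1 hz).1
      have b5 : (U.image fun z => z.1).card ≤ A.card := by
        refine card_le_card_of_injOn Prod.fst (fun w hw => hW w (b4 hw)) fun w hw w' hw' e => ?_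
        obtain ⟨z, hz, rfl⟩ := mem_image.1 (mem_coe.1 hw)
        obtain ⟨z', hz', rfl⟩ := mem_image.1 (mem_coe.1 hw')
        obtain ⟨v, v0, ⟨x, -, rfl⟩, ⟨x', -, e'⟩⟩ :=
          meet_iff.1 (hm _ (mem_filter.1 hz).2 _ (mem_filter.1 hz').2)
        refine study_pin (x := x) ?_ (lift_eq_iff.1 e'.symm).2 e
        rintro rfl
        exact v0 (map_zero _)
      have b6 : (_ : ℝ) ≤ _ := Nat.cast_le.2 (b2.trans (card_le_card b3))
      rw [Nat.cast_mul] at b6
      rw [le_div_iff₀ ha0]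
      exact b6.trans ((sig _ b4).trans (mul_le_mul_of_nonneg_right
        ((Nat.cast_le.2 b5).trans hA) (by linarith)))) h1
  have t9 : C.card * y ≤ inc P C := by
    have := card_nsmul_le_sum C (fun s => (inpl P s : ℝ)) y fun s hs => by
      obtain ⟨z, hz, rfl⟩ := mem_image.1 (mem_filter.1 hs).1
      exact (py z hz).trans (Nat.cast_le.2 (hcn z hz))
    rwa [nsmul_eq_mul, ← hI] at this
  have t10 : (1 : ℝ) ≤ C.card := by exact_mod_cast card_pos.2 ⟨_, hs₀⟩
  refine study_num hZ1 hP0 hPG (le_trans ?_ h1) t10 hy2 t9 hB1 ha0 (by field_simp) t7 t8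
  exact le_mul_of_one_le_left hP0 (by linarith)

end Vale.Agent.P054
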