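import Vale.Agent.P054.Part
import Vale.Agent.P054.Bez

/-!
The low degree induction of Guth for intersecting pairs.
-/

namespace Vale.Agent.P054

open Finset Module
open scoped Classical

/-- The traces of the rich surfaces. -/
noncomputable def bigS (D : ℕ) (b : ℝ) (L : Finset Sub) : Finset (Finset Sub) :=
  L.powerset.filter fun S => b ≤ (S.card : ℝ) ∧
    ∃ f : MvPolynomial (Fin 4) ℝ, IrrH D f ∧ S = L.filter fun l => van f l

theorem thmg_van {f g : MvPolynomial (Fin 4) ℝ} (h : f ∣ g) {l : Sub} (hl : van f l) :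
    van g l := fun x hx => by
  obtain ⟨u, rfl⟩ := h
  rw [map_mul, hl x hx, zero_mul]

theorem bigS_inter {D : ℕ} {b : ℝ} {L : Finset Sub} (hL : Dim 2 L) {S S' : Finset Sub}
    (hS : S ∈ bigS D b L) (hS' : S' ∈ bigS D b L) (hne : S ≠ S') : (S ∩ S').card ≤ D ^ 2 := by
  obtain ⟨-, -, f, hf, rfl⟩ := mem_filter.1 hS
  obtain ⟨-, -, g, hg, rfl⟩ := mem_filter.1 hS'
  obtain ⟨hi, a, ha, hga⟩ := hg
  refine bezout hf (fun h => hne (filter_congr fun l _ =>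
    ⟨thmg_van h, thmg_van (hf.1.dvd_symm hi h)⟩)) (hga.totalDegree_le.trans ha) _
    (hL.mono (inter_subset_left.trans (filter_subset _ _))) fun l hl => ?_
  exact ⟨(mem_filter.1 (mem_inter.1 hl).1).2, (mem_filter.1 (mem_inter.1 hl).2).2⟩

theorem bigS_sum {D : ℕ} {b : ℝ} {L : Finset Sub} (hL : Dim 2 L) (hb : 0 < b)
    (h4 : 4 * (D : ℝ) ^ 2 * L.card ≤ b ^ 2) : ∑ S ∈ bigS D b L, S.card ≤ 2 * L.card := by
  exact inclExcl (bigS D b L) id L hb (sq_nonneg (D : ℝ))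
    (fun S hS => mem_powerset.1 (mem_filter.1 hS).1) (fun S hS => (mem_filter.1 hS).2.1)
    (fun S hS S' hS' hne => by exact_mod_cast bigS_inter hL hS hS' hne) h4

theorem thmg_union {α : Type*} [DecidableEq α] {A B : Finset α} {x y : ℝ}
    (hA : (A.card : ℝ) ≤ x) (hB : (B.card : ℝ) ≤ y) : ((A ∪ B).card : ℝ) ≤ x + y := by
  have h : ((A ∪ B).card : ℝ) ≤ A.card + B.card := by exact_mod_cast card_union_le A B
  linarith

theorem thmg_empty (D : ℕ) (b : ℝ) : ((gp D b ∅).card : ℝ) = 0 := by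
  simp [gp, mp]

theorem thmg_one {L : Finset Sub} (hL : Dim 2 L) {q : Sub × Sub} (h : q ∈ mp L) :
    finrank ℝ ↥(q.1 ⊓ q.2) = 1 := by
  obtain ⟨h1, h2, h3, h4⟩ := mem_mp.1 h
  exact inf_one (hL _ h1) (hL _ h2) h3 h4

theorem thmg_cov {κ : Type*} (Q : Finset (Sub × Sub)) (C : Finset κ) (A B : κ → Finset Sub)
    {b : ℝ} (hb : 0 ≤ b) (h : ∀ q ∈ Q, ∃ z ∈ C, q.1 ∈ A z ∧ q.2 ∈ B z ∧ ((A z).card : ℝ) ≤ b) :
    (Q.card : ℝ) ≤ b * (∑ z ∈ C, (B z).card : ℕ) := by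
  have h1 : Q ⊆ (C.filter fun z => ((A z).card : ℝ) ≤ b).biUnion fun z => A z ×ˢ B z :=
    fun q hq => by
      obtain ⟨z, hz, h2, h3, h4⟩ := h q hq
      exact mem_biUnion.2 ⟨z, mem_filter.2 ⟨hz, h4⟩, mem_product.2 ⟨h2, h3⟩⟩
  refine (Nat.cast_le.2 ((card_le_card h1).trans card_biUnion_le)).trans ?_
  rw [Nat.cast_sum, Nat.cast_sum, mul_sum]
  refine le_trans (sum_le_sum fun z hz => ?_)
    (sum_le_sum_of_subset_of_nonneg (filter_subset _ _) fun _ _ _ => by positivity)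
  rw [card_product, Nat.cast_mul]
  exact mul_le_mul_of_nonneg_right (mem_filter.1 hz).2 (Nat.cast_nonneg _)

theorem thmg_pts {L : Finset Sub} (hL : Dim 2 L) {b τ : ℝ} (hτ : 0 ≤ τ) (hb : 0 < b)
    (h4 : 4 * (L.card : ℝ) ≤ b ^ 2) (Q : Finset (Sub × Sub))
    (h : ∀ q ∈ Q, q ∈ mp L ∧ b ≤ thru L (q.1 ⊓ q.2) ∧ (thru L (q.1 ⊓ q.2) : ℝ) ≤ τ) :
    (Q.card : ℝ) ≤ 2 * τ * L.card := by
  have h1 := bigThru L (Q.image fun q => q.1 ⊓ q.2) hL (fun x hx => by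
    obtain ⟨q, hq, rfl⟩ := mem_image.1 hx
    exact thmg_one hL (h q hq).1) hb h4 fun x hx => by
      obtain ⟨q, hq, rfl⟩ := mem_image.1 hx
      exact (h q hq).2.1
  have h2 := thmg_cov Q (Q.image fun q => q.1 ⊓ q.2) (fun x => L.filter fun l => x ≤ l)
    (fun x => L.filter fun l => x ≤ l) hτ fun q hq => by
      refine ⟨q.1 ⊓ q.2, mem_image_of_mem _ hq, ?_, ?_, (h q hq).2.2⟩
      · exact mem_filter.2 ⟨(mem_mp.1 (h q hq).1).1, inf_le_left⟩
      · exact mem_filter.2 ⟨(mem_mp.1 (h q hq).1).2.1, inf_le_right⟩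
  have h3 : ((∑ x ∈ Q.image fun q => q.1 ⊓ q.2, thru L x : ℕ) : ℝ) ≤ 2 * L.card := by
    exact_mod_cast h1
  exact h2.trans ((mul_le_mul_of_nonneg_left h3 hτ).trans (le_of_eq (by ring)))

theorem thmg_big {D : ℕ} {L : Finset Sub} (hL : Dim 2 L) {b τ : ℝ} (hτ : 0 ≤ τ) (hb : 0 < b)
    (h4 : 4 * (D : ℝ) ^ 2 * L.card ≤ b ^ 2) (Q : Finset (Sub × Sub))
    (h : ∀ q ∈ Q, ∃ S ∈ bigS D b L, q.1 ∈ S ∧ q.2 ∈ S ∧ (S.card : ℝ) ≤ τ) :
    (Q.card : ℝ) ≤ 2 * τ * L.card := by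
  refine (thmg_cov Q (bigS D b L) id id hτ h).trans ?_
  refine (mul_le_mul_of_nonneg_left (Nat.cast_le.2 (bigS_sum hL hb h4)) hτ).trans (le_of_eq ?_)
  push_cast
  ring

theorem thmg_not {D : ℕ} {b : ℝ} {L : Finset Sub} {q : Sub × Sub} (h : q ∈ mp L)
    (h' : q ∉ gp D b L) : b ≤ thru L (q.1 ⊓ q.2) ∨ ∃ f : MvPolynomial (Fin 4) ℝ, IrrH D f ∧
      van f q.1 ∧ van f q.2 ∧ (L.filter fun l => van f l) ∈ bigS D b L := by
  by_contra h1
  push Not at h1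
  refine h' (mem_filter.2 ⟨h, h1.1, fun f hf h2 h3 => not_le.1 fun h4 => h1.2 f hf h2 h3 ?_⟩)
  exact mem_filter.2 ⟨mem_powerset.2 (filter_subset _ _), h4, f, hf, rfl⟩

theorem thmg_line {D : ℕ} {b : ℝ} (hb : 0 ≤ b) {L : Finset Sub} (hL : Dim 2 L)
    {g : MvPolynomial (Fin 4) ℝ} (hg : IrrH D g) (Q : Finset (Sub × Sub))
    (h : ∀ q ∈ Q, q ∈ mp L ∧ (thru L (q.1 ⊓ q.2) : ℝ) ≤ b ∧ van g (q.1 ⊓ q.2) ∧ ¬ van g q.2) :
    (Q.card : ℝ) ≤ D * b * L.card := by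
  obtain ⟨-, a, ha, hga⟩ := hg
  have h1 : (Q.image fun q => (q.1 ⊓ q.2, q.2)).card ≤ D * L.card := by
    refine card_le_mul_card_image_of_maps_to (f := Prod.snd) (fun z hz => ?_) D fun l hl => ?_
    · obtain ⟨q, hq, rfl⟩ := mem_image.1 hz
      exact (mem_mp.1 (h q hq).1).2.1
    · by_cases hv : van g l
      · rw [filter_eq_empty_iff.2, card_empty]
        · exact Nat.zero_le _
        · intro z hz e
          obtain ⟨q, hq, rfl⟩ := mem_image.1 hz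
          exact (h q hq).2.2.2 ((show q.2 = l from e) ▸ hv)
      rw [← card_image_of_injOn (f := Prod.fst) fun z hz z' hz' e =>
        Prod.ext e ((mem_filter.1 hz).2.trans (mem_filter.1 hz').2.symm)]
      refine (zeros_le hga (hL l hl) hv _ (fun x hx => ?_) fun x hx => ?_).trans ha
      · obtain ⟨z, hz, rfl⟩ := mem_image.1 hx
        obtain ⟨q, hq, rfl⟩ := mem_image.1 (mem_filter.1 hz).1
        exact thmg_one hL (h q hq).1
      · obtain ⟨z, hz, rfl⟩ := mem_image.1 hx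
        obtain ⟨h2, rfl⟩ := mem_filter.1 hz
        obtain ⟨q, hq, rfl⟩ := mem_image.1 h2
        exact ⟨inf_le_right, (h q hq).2.2.1⟩
  have h2 := thmg_cov Q (Q.image fun q => (q.1 ⊓ q.2, q.2)) (fun z => L.filter fun l => z.1 ≤ l)
    (fun z => {z.2}) hb fun q hq => by
      refine ⟨(q.1 ⊓ q.2, q.2), mem_image_of_mem _ hq, ?_, mem_singleton_self _, (h q hq).2.1⟩
      exact mem_filter.2 ⟨(mem_mp.1 (h q hq).1).1, inf_le_left⟩
  simp only [card_singleton, sum_const, smul_eq_mul, mul_one] at h2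
  have h3 : ((Q.image fun q => (q.1 ⊓ q.2, q.2)).card : ℝ) ≤ D * L.card := by exact_mod_cast h1
  exact h2.trans ((mul_le_mul_of_nonneg_left h3 hb).trans (le_of_eq (by ring)))

theorem thmg_irr {D : ℕ} {b : ℝ} (hb : 0 ≤ b) {L : Finset Sub} (hL : Dim 2 L)
    {g : MvPolynomial (Fin 4) ℝ} (hg : IrrH D g) :
    (((gp D b L).filter fun q => van g (q.1 ⊓ q.2)).card : ℝ) ≤ 2 * D * b * L.card + b ^ 2 := by
  set Q := (gp D b L).filter fun q => van g (q.1 ⊓ q.2) with hQ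
  have h0 : ∀ q ∈ Q, q ∈ mp L ∧ (thru L (q.1 ⊓ q.2) : ℝ) ≤ b ∧ van g (q.1 ⊓ q.2) := fun q hq =>
    ⟨(mem_filter.1 (mem_filter.1 hq).1).1, (mem_filter.1 (mem_filter.1 hq).1).2.1.le,
      (mem_filter.1 hq).2⟩
  have h1 := thmg_line hb hL hg (Q.filter fun q => ¬ van g q.2) fun q hq =>
    have h2 := h0 q (mem_filter.1 hq).1
    ⟨h2.1, h2.2.1, h2.2.2, (mem_filter.1 hq).2⟩
  have h2 := thmg_line hb hL hg ((Q.filter fun q => ¬ van g q.1).image Prod.swap) fun p hp => by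
    obtain ⟨q, hq, rfl⟩ := mem_image.1 hp
    obtain ⟨h3, h4, h5⟩ := h0 q (mem_filter.1 hq).1
    obtain ⟨h6, h7, h8, h9⟩ := mem_mp.1 h3
    rw [inf_comm] at h4 h5
    exact ⟨mem_mp.2 ⟨h7, h6, h8.symm, meet_comm.1 h9⟩, h4, h5, (mem_filter.1 hq).2⟩
  rw [card_image_of_injective _ Prod.swap_injective] at h2
  have h3 : ((Q.filter fun q => van g q.1 ∧ van g q.2).card : ℝ) ≤ b ^ 2 := by
    rcases (Q.filter fun q => van g q.1 ∧ van g q.2).eq_empty_or_nonempty with e | ⟨q, hq⟩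
    · rw [e, card_empty, Nat.cast_zero]
      positivity
    obtain ⟨h4, h5, h6⟩ := mem_filter.1 hq
    have h7 := ((mem_filter.1 (mem_filter.1 h4).1).2.2 g hg h5 h6).le
    refine le_trans (Nat.cast_le.2 (card_le_card
      (t := (L.filter fun l => van g l) ×ˢ (L.filter fun l => van g l)) fun p hp => ?_)) ?_
    · obtain ⟨h8, h9, h10⟩ := mem_filter.1 hp
      obtain ⟨h11, h12, -⟩ := mem_mp.1 (h0 p h8).1
      exact mem_product.2 ⟨mem_filter.2 ⟨h11, h9⟩, mem_filter.2 ⟨h12, h10⟩⟩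
    · rw [card_product, Nat.cast_mul, sq]
      exact mul_le_mul h7 h7 (Nat.cast_nonneg _) hb
  refine le_trans (Nat.cast_le.2 (card_le_card fun q hq => ?_))
    ((thmg_union (thmg_union h1 h2) h3).trans (by linarith))
  simp only [mem_union, mem_filter (s := Q), hq, true_and]
  tauto

/-- Passing to a subfamily and a smaller threshold. -/
theorem gp_sub {D : ℕ} (hD : 1 ≤ D) {b b' : ℝ} {L L' : Finset Sub} (hL : Dim 2 L) (hs : L' ⊆ L)
    (hb : 0 ≤ b) (hb' : 0 < b') (h4 : 4 * (D : ℝ) ^ 2 * L'.card ≤ b' ^ 2) :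
    (((gp D b L).filter fun q => q.1 ∈ L' ∧ q.2 ∈ L').card : ℝ)
      ≤ (gp D b' L').card + 4 * b * L'.card := by
  have hL' := hL.mono hs
  have hD' : (1 : ℝ) ≤ D := by exact_mod_cast hD
  have h5 : 4 * (L'.card : ℝ) ≤ b' ^ 2 := by
    refine le_trans ?_ h4
    have : (1 : ℝ) ≤ (D : ℝ) ^ 2 := one_le_pow₀ hD'
    nlinarith [(Nat.cast_nonneg L'.card : (0 : ℝ) ≤ _)]
  have h1 := thmg_pts hL' hb hb' h5 ((mp L').filter fun q =>
    b' ≤ thru L' (q.1 ⊓ q.2) ∧ (thru L' (q.1 ⊓ q.2) : ℝ) ≤ b) fun q hq => mem_filter.1 hq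
  have h2 := thmg_big hL' hb hb' h4 ((mp L').filter fun q =>
    ∃ S ∈ bigS D b' L', q.1 ∈ S ∧ q.2 ∈ S ∧ (S.card : ℝ) ≤ b) fun q hq => (mem_filter.1 hq).2
  have h3 := thmg_union (le_refl ((gp D b' L').card : ℝ)) (thmg_union h1 h2)
  refine le_trans (Nat.cast_le.2 (card_le_card fun q hq => ?_)) (h3.trans (by linarith))
  obtain ⟨h6, h7, h8⟩ := mem_filter.1 hq
  obtain ⟨h9, h10, h11⟩ := mem_filter.1 h6
  have h12 : q ∈ mp L' := mem_mp.2 ⟨h7, h8, (mem_mp.1 h9).2.2⟩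
  rw [mem_union, mem_union, or_iff_not_imp_left]
  intro h13
  rcases thmg_not h12 h13 with h14 | ⟨f, hf, h14, h15, h16⟩
  · exact Or.inl (mem_filter.2 ⟨h12, h14, (Nat.cast_le.2 (thru_mono hs _)).trans h10.le⟩)
  · exact Or.inr (mem_filter.2 ⟨h12, _, h16, mem_filter.2 ⟨h7, h14⟩, mem_filter.2 ⟨h8, h15⟩,
      (Nat.cast_le.2 (card_le_card (filter_subset_filter _ hs))).trans (h11 f hf h14 h15).le⟩)

/-- Pairs meeting on the zero set. -/
theorem gp_zero {D a : ℕ} (ha : a ≤ D) {b : ℝ} (hb : 0 ≤ b) {L : Finset Sub} (hL : Dim 2 L)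
    {f : MvPolynomial (Fin 4) ℝ} (hf : f.IsHomogeneous a) (h0 : f ≠ 0) :
    (((gp D b L).filter fun q => van f (q.1 ⊓ q.2)).card : ℝ)
      ≤ 2 * (D : ℝ) ^ 2 * b * L.card + D * b ^ 2 := by
  obtain ⟨T, hT, h1, h2⟩ := exists_factors hf h0
  have h3 : ((gp D b L).filter fun q => van f (q.1 ⊓ q.2)) ⊆
      T.biUnion fun g => (gp D b L).filter fun q => van g (q.1 ⊓ q.2) := by
    intro q hq
    obtain ⟨h4, h5⟩ := mem_filter.1 hq
    have h6 := thmg_one hL (mem_filter.1 h4).1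
    obtain ⟨z, hz, hz0⟩ := exists_vec h6
    obtain ⟨g, hg, h7⟩ := h2 z (h5 z hz)
    obtain ⟨-, c, -, h8⟩ := h1 g hg
    exact mem_biUnion.2 ⟨g, hg, mem_filter.2 ⟨h4, van_of_eval h8 h6 hz hz0 h7⟩⟩
  have h4 : ∀ g ∈ T, (((gp D b L).filter fun q => van g (q.1 ⊓ q.2)).card : ℝ) ≤
      2 * D * b * L.card + b ^ 2 := fun g hg => by
    obtain ⟨hi, c, hc, h8⟩ := h1 g hg
    exact thmg_irr hb hL ⟨hi, c, hc.trans ha, h8⟩
  have h5 : (T.card : ℝ) ≤ D := by exact_mod_cast hT.trans ha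
  refine (Nat.cast_le.2 ((card_le_card h3).trans card_biUnion_le)).trans ?_
  rw [Nat.cast_sum]
  refine (sum_le_card_nsmul _ _ _ h4).trans ?_
  rw [nsmul_eq_mul]
  refine (mul_le_mul_of_nonneg_right h5 (by positivity)).trans (le_of_eq (by ring))

/-- One step: either half of the pairs are on the zero set, or one cell with few lines has its
share of the pairs. Here `h = 2 ^ q`, `D = 36 h`, and there are `h ^ 3` cells. -/
theorem gp_step (q : ℕ) {b : ℝ} (hb : 0 ≤ b) {L : Finset Sub} (hL : Dim 2 L) :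
    ((gp (36 * 2 ^ q) b L).card : ℝ)
        ≤ 4 * (36 * 2 ^ q : ℝ) ^ 2 * b * L.card + 2 * (36 * 2 ^ q : ℝ) * b ^ 2 ∨
      ∃ L' ⊆ L, (L'.card : ℝ) * (2 ^ q) ^ 2 ≤ 304 * L.card ∧
        ((gp (36 * 2 ^ q) b L).card : ℝ) ≤ 4 * (2 ^ q) ^ 3 *
          ((gp (36 * 2 ^ q) b L).filter fun q => q.1 ∈ L' ∧ q.2 ∈ L').card := by
  rcases L.eq_empty_or_nonempty with rfl | hne
  · left
    rw [thmg_empty]
    positivity
  have hn : (0 : ℝ) < L.card := by exact_mod_cast hne.card_pos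
  have h1 : ∀ p ∈ gp (36 * 2 ^ q) b L, ∃ z ∈ p.1 ⊓ p.2, z ≠ 0 := fun p hp =>
    exists_vec (thmg_one hL (mem_filter.1 hp).1)
  choose! y hy hy0 using h1
  obtain ⟨f, a, cell, h0, hf, ha, h2, h3⟩ := partition 3 q (by norm_num) (gp (36 * 2 ^ q) b L) y
  choose! T hT h4 using h3
  have h5 := gp_zero (D := 36 * 2 ^ q) (ha.trans (by norm_num)) hb hL hf h0
  set X := gp (36 * 2 ^ q) b L with hX
  rw [or_iff_not_imp_right]
  intro h6
  push Not at h6
  have hh : (1 : ℝ) ≤ 2 ^ q := one_le_pow₀ (by norm_num)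
  have hc : ((univ : Finset (Fin (3 * q) → Bool)).card : ℝ) = (2 ^ q) ^ 3 := by
    rw [card_univ, Fintype.card_fun, Fintype.card_bool, Fintype.card_fin, mul_comm, pow_mul]
    push_cast
    rfl
  have h7 : ∀ σ : Fin (3 * q) → Bool, 1216 * (2 ^ q) ^ 3 * L.card *
      ((X.filter fun p => MvPolynomial.eval (y p) f ≠ 0 ∧ cell (y p) = σ).card : ℝ) ≤
      304 * L.card * X.card + 4 * X.card * (2 ^ q) ^ 2 * (L.filter fun l => σ ∈ T l).card := by
    intro σ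
    have h8 : ((X.filter fun p => MvPolynomial.eval (y p) f ≠ 0 ∧ cell (y p) = σ).card : ℝ) *
        (2 ^ q) ^ 3 ≤ X.card := by
      have h9 := h2 σ
      rw [pow_mul' 2 3 q] at h9
      exact_mod_cast h9
    have h9 : ((X.filter fun p => MvPolynomial.eval (y p) f ≠ 0 ∧ cell (y p) = σ).card : ℝ) ≤
        (X.filter fun p => p.1 ∈ L.filter (fun l => σ ∈ T l) ∧
          p.2 ∈ L.filter (fun l => σ ∈ T l)).card := by
      refine Nat.cast_le.2 (card_le_card fun p hp => ?_)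
      obtain ⟨h10, h11, rfl⟩ := mem_filter.1 hp
      obtain ⟨h12, h13, -⟩ := mem_mp.1 (mem_filter.1 h10).1
      exact mem_filter.2 ⟨h10, mem_filter.2 ⟨h12, h4 _ (hL _ h12) _ (hy p h10).1 h11⟩,
        mem_filter.2 ⟨h13, h4 _ (hL _ h13) _ (hy p h10).2 h11⟩⟩
    have h10 := h6 (L.filter fun l => σ ∈ T l) (filter_subset _ _)
    generalize ((X.filter fun p => MvPolynomial.eval (y p) f ≠ 0 ∧ cell (y p) = σ).card : ℝ) = u
      at h8 h9 ⊢
    have hX0 : (0 : ℝ) ≤ X.card := Nat.cast_nonneg _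
    rcases le_total (((L.filter fun l => σ ∈ T l).card : ℝ) * (2 ^ q) ^ 2) (304 * L.card : ℝ)
      with h11 | h11
    · have h12 : 4 * (2 ^ q) ^ 3 * u ≤ X.card :=
        (mul_le_mul_of_nonneg_left h9 (by positivity)).trans (h10 h11).le
      have h13 := mul_le_mul_of_nonneg_left h12 (by positivity : (0 : ℝ) ≤ 304 * L.card)
      have h14 : (0 : ℝ) ≤ 4 * X.card * (2 ^ q) ^ 2 * (L.filter fun l => σ ∈ T l).card := by
        positivity
      linarith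
    · have h12 := mul_le_mul_of_nonneg_left h8 (by positivity : (0 : ℝ) ≤ 1216 * L.card)
      have h13 := mul_le_mul_of_nonneg_left h11 (by positivity : (0 : ℝ) ≤ 4 * X.card)
      have h14 : (0 : ℝ) ≤ 304 * L.card * X.card := by positivity
      linarith
  have h8 : ∑ σ : Fin (3 * q) → Bool, ((L.filter fun l => σ ∈ T l).card : ℝ) ≤
      76 * 2 ^ q * L.card := by
    have h9 : ∑ σ : Fin (3 * q) → Bool, (L.filter fun l => σ ∈ T l).card = ∑ l ∈ L, (T l).card := by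
      simp only [card_filter]
      rw [sum_comm]
      simp
    have h10 : ∑ l ∈ L, (T l).card ≤ L.card • (76 * 2 ^ q) := sum_le_card_nsmul _ _ _ fun l hl => by
      have := hT l (hL l hl)
      have : 1 ≤ 2 ^ q := Nat.one_le_two_pow
      omega
    rw [← h9, smul_eq_mul, mul_comm L.card] at h10
    exact_mod_cast h10
  have h9 : ∑ σ : Fin (3 * q) → Bool,
      ((X.filter fun p => MvPolynomial.eval (y p) f ≠ 0 ∧ cell (y p) = σ).card : ℝ) =
      (X.filter fun p => MvPolynomial.eval (y p) f ≠ 0).card := by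
    rw [card_eq_sum_card_fiberwise (f := fun p => cell (y p)) (t := univ) fun _ _ => mem_univ _]
    simp only [filter_filter, Nat.cast_sum]
  have h10 := sum_le_sum fun σ (_ : σ ∈ (univ : Finset (Fin (3 * q) → Bool))) => h7 σ
  rw [← mul_sum, h9, sum_add_distrib, ← mul_sum _ _ (4 * X.card * (2 ^ q) ^ 2 : ℝ), sum_const,
    nsmul_eq_mul, hc] at h10
  have h11 := mul_le_mul_of_nonneg_left h8
    (by positivity : (0 : ℝ) ≤ 4 * X.card * (2 ^ q) ^ 2)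
  have h12 : 2 * ((X.filter fun p => MvPolynomial.eval (y p) f ≠ 0).card : ℝ) ≤ X.card :=
    le_of_mul_le_mul_left (by linarith) (by positivity : (0 : ℝ) < 608 * (2 ^ q) ^ 3 * L.card)
  have h13 : (X.card : ℝ) ≤ (X.filter fun p => van f (p.1 ⊓ p.2)).card +
      (X.filter fun p => MvPolynomial.eval (y p) f ≠ 0).card := by
    refine le_trans (Nat.cast_le.2 (card_le_card fun p hp => ?_)) (thmg_union le_rfl le_rfl)
    rw [mem_union, mem_filter, mem_filter, ← and_or_left, or_iff_not_imp_right]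
    exact ⟨hp, fun h14 => van_of_eval hf (thmg_one hL (mem_filter.1 hp).1) (hy p hp) (hy0 p hp)
      (not_not.1 h14)⟩
  push_cast at h5
  linarith

theorem thmG {η : ℝ} (h0 : 0 < η) (h1 : η ≤ 1 / 2) :
    ∃ (D : ℕ) (K : ℝ), 2 ≤ D ∧ 0 < K ∧ ∀ (N : ℝ) (L : Finset Sub), Dim 2 L → (L.card : ℝ) ≤ N →
      ((gp D (N ^ (1 / 2 + η)) L).card : ℝ) ≤ K * N ^ (3 / 2 + η) := by
  have hε : (0 : ℝ) < (1 / 43776) ^ η⁻¹ := by positivity
  obtain ⟨q, hq⟩ := exists_pow_lt_of_lt_one (div_pos hε (by norm_num : (0 : ℝ) < 304))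
    (by norm_num : (1 / 4 : ℝ) < 1)
  have hh : (1 : ℝ) ≤ 2 ^ q := one_le_pow₀ (by norm_num)
  obtain ⟨θ, hθ⟩ : ∃ θ : ℝ, θ = 304 / (2 ^ q) ^ 2 := ⟨_, rfl⟩
  have hθ0 : 0 < θ := by rw [hθ]; positivity
  have hθ1 : θ < (1 / 43776) ^ η⁻¹ := by
    rw [lt_div_iff₀ (by norm_num)] at hq
    refine lt_of_eq_of_lt ?_ hq
    rw [hθ, ← pow_mul, mul_comm q, pow_mul, one_div_pow]
    norm_num
    ring
  have hθ2 : θ < 1 := hθ1.trans_le (Real.rpow_le_one (by norm_num) (by norm_num) (by positivity))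
  have hθ3 : 4 * (2 ^ q) ^ 3 * θ ^ (3 / 2 + η) ≤ 1 / 2 := by
    have e1 : θ ^ η ≤ 1 / 43776 := by
      refine (Real.rpow_le_rpow hθ0.le hθ1.le h0.le).trans (le_of_eq ?_)
      exact Real.rpow_inv_rpow (by norm_num) h0.ne'
    have e2 : θ ^ (1 / 2 : ℝ) ≤ 18 / 2 ^ q := by
      rw [← Real.sqrt_eq_rpow, Real.sqrt_le_left (by positivity), hθ, div_pow]
      gcongr
      norm_num
    rw [show 3 / 2 + η = 1 + (1 / 2 + η) by ring, Real.rpow_add hθ0, Real.rpow_add hθ0,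
      Real.rpow_one]
    calc 4 * (2 ^ q) ^ 3 * (θ * (θ ^ (1 / 2 : ℝ) * θ ^ η))
        ≤ 4 * (2 ^ q) ^ 3 * (θ * (18 / 2 ^ q * (1 / 43776))) := by gcongr
      _ = 1 / 2 := by
        rw [hθ]
        field_simp
        norm_num
  obtain ⟨M, hM⟩ : ∃ M : ℝ, M = (4 * ((36 * 2 ^ q : ℕ) : ℝ) ^ 2) ^ (2 * η)⁻¹ / θ := ⟨_, rfl⟩
  have hM0 : 0 ≤ M := by rw [hM]; positivity
  obtain ⟨K, hK⟩ : ∃ K : ℝ, K = M + 4 * (36 * 2 ^ q) ^ 2 + 2 * (36 * 2 ^ q) + 32 * (2 ^ q) ^ 3 :=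
    ⟨_, rfl⟩
  have hK0 : 0 < K := by rw [hK]; positivity
  refine ⟨36 * 2 ^ q, K, by have : 1 ≤ 2 ^ q := Nat.one_le_two_pow; omega, hK0, ?_⟩
  intro N L
  induction' hn : L.card using Nat.strong_induction_on with n ih generalizing N L
  subst hn
  intro hL hN
  have hN0 : 0 ≤ N := (Nat.cast_nonneg _).trans hN
  rcases L.eq_empty_or_nonempty with rfl | hne
  · rw [thmg_empty]
    positivity
  have hn : (1 : ℝ) ≤ L.card := by exact_mod_cast hne.card_pos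
  have hN1 : 1 ≤ N := hn.trans hN
  have hN2 : 0 < N := by linarith
  have e1 : N ^ (3 / 2 + η) = N ^ (1 / 2 + η) * N := by
    rw [← Real.rpow_add_one hN2.ne']
    congr 1
    ring
  have e2 : 1 ≤ N ^ (1 / 2 + η) := Real.one_le_rpow hN1 (by linarith)
  have e3 : N ^ (1 / 2 + η) ≤ N := by
    conv_rhs => rw [← Real.rpow_one N]
    exact Real.rpow_le_rpow_of_exponent_le hN1 (by linarith)
  have e4 : 0 ≤ N ^ (1 / 2 + η) * N := by positivity
  rcases le_total N M with h2 | h2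
  · have h3 : ((gp (36 * 2 ^ q) (N ^ (1 / 2 + η)) L).card : ℝ) ≤ L.card * L.card := by
      rw [← Nat.cast_mul, ← card_product]
      exact Nat.cast_le.2 (card_le_card ((filter_subset _ _).trans (filter_subset _ _)))
    have h4 : M ≤ K := by rw [hK]; linarith [(by positivity :
      (0 : ℝ) ≤ 4 * (36 * 2 ^ q) ^ 2 + 2 * (36 * 2 ^ q) + 32 * (2 ^ q) ^ 3)]
    rw [e1]
    calc _ ≤ N * N := h3.trans (mul_le_mul hN hN (by positivity) hN0)
      _ ≤ K * (N ^ (1 / 2 + η) * N) :=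
        mul_le_mul (h2.trans h4) (le_mul_of_one_le_left hN0 e2) hN0 hK0.le
  rcases gp_step q (b := N ^ (1 / 2 + η)) (by positivity) hL with h3 | ⟨L', h3, h4, h5⟩
  · rw [e1]
    generalize N ^ (1 / 2 + η) = b at h3 e2 e3 e4 ⊢
    have h4 : 4 * (36 * 2 ^ q : ℝ) ^ 2 * b * L.card ≤ 4 * (36 * 2 ^ q) ^ 2 * (b * N) := by
      rw [mul_assoc]
      gcongr
    have h5 : 2 * (36 * 2 ^ q : ℝ) * b ^ 2 ≤ 2 * (36 * 2 ^ q) * (b * N) := by
      rw [sq]
      gcongr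
    have h6 : 0 ≤ (M + 32 * (2 ^ q) ^ 3) * (b * N) := by positivity
    rw [hK]
    linarith
  · have h6 : (L'.card : ℝ) ≤ θ * L.card := by
      rw [hθ, div_mul_eq_mul_div, le_div_iff₀ (by positivity)]
      exact h4
    have h7 : (L'.card : ℝ) ≤ θ * N := h6.trans (by gcongr)
    have h8 := ih L'.card (by
      have : (L'.card : ℝ) < L.card := h6.trans_lt (by nlinarith)
      exact_mod_cast this) (θ * N) L' rfl (hL.mono h3) h7
    have hθN : 0 < θ * N := mul_pos hθ0 hN2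
    have h9 := gp_sub (D := 36 * 2 ^ q) (by have : 1 ≤ 2 ^ q := Nat.one_le_two_pow; omega)
      (b := N ^ (1 / 2 + η)) (b' := (θ * N) ^ (1 / 2 + η)) hL h3 (by positivity) (by positivity) (by
        have h10 : 4 * ((36 * 2 ^ q : ℕ) : ℝ) ^ 2 ≤ (θ * N) ^ (2 * η) := by
          rw [hM, div_le_iff₀ hθ0, mul_comm N] at h2
          refine le_trans (le_of_eq ?_) (Real.rpow_le_rpow (by positivity) h2 (by positivity))
          exact (Real.rpow_inv_rpow (by positivity) (by positivity)).symm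
        rw [← Real.rpow_natCast ((θ * N) ^ (1 / 2 + η)), ← Real.rpow_mul hθN.le,
          show (1 / 2 + η) * ((2 : ℕ) : ℝ) = 2 * η + 1 by push_cast; ring,
          Real.rpow_add_one hθN.ne']
        gcongr)
    rw [Real.mul_rpow hθ0.le hN0 (z := 3 / 2 + η), e1] at h8
    rw [e1]
    have h10 : (L'.card : ℝ) ≤ N := h7.trans (by nlinarith)
    generalize N ^ (1 / 2 + η) = b at h5 h8 h9 e2 e3 e4 ⊢
    have h11 : 4 * b * L'.card ≤ 4 * (b * N) := by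
      rw [mul_assoc]
      gcongr
    have h12 := mul_le_mul_of_nonneg_left (h9.trans (add_le_add h8 h11))
      (by positivity : (0 : ℝ) ≤ 4 * (2 ^ q) ^ 3)
    have h13 := mul_le_mul_of_nonneg_right hθ3 (mul_nonneg hK0.le e4)
    have h14 : 32 * (2 ^ q) ^ 3 * (b * N) ≤ K * (b * N) := by
      refine mul_le_mul_of_nonneg_right ?_ e4
      rw [hK]
      linarith [(by positivity : (0 : ℝ) ≤ 4 * (36 * 2 ^ q) ^ 2 + 2 * (36 * 2 ^ q))]
    linarith

end Vale.Agent.P054
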