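import Vale.Agent.P054.Quat
import Vale.Agent.P054.Beck

/-!
Triangles in large flats.
-/

namespace Vale.Agent.P054

open Finset Module
open scoped Classical

/-- Non collinear triples of a large set are controlled by the directions. -/
theorem triples_le {F : Type*} [AddCommGroup F] [Module ℝ F] [FiniteDimensional ℝ F]
    [DecidableEq F] {Z : ℝ} (hZ : 10 ^ 20 ≤ Z) (Y : Finset F) (hY : Z ^ 3 < Y.card) :
    (((Y ×ˢ Y ×ˢ Y).filter fun t =>
      finrank ℝ (Submodule.span ℝ ({t.2.1 - t.1, t.2.2 - t.1} : Set F)) = 2).card : ℝ)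
      ≤ 4 * Z ^ 2 * ∑ v ∈ Y.filter (fun v => Z ^ 2 ≤ dirs Y v), (dirs Y v : ℝ) ^ 2 := by
  have hZ0 : 0 < Z := lt_of_lt_of_le (by norm_num) hZ
  have hZ2 : (10 : ℝ) ^ 24 ≤ Z ^ 2 := by nlinarith
  have hn : 10 ^ 12 * Z ^ 2 ≤ Y.card := by nlinarith
  have key : ∀ (O : Finset F) (k : ℝ), O ⊆ Y → (Y.card : ℝ) ≤ 10 ^ 12 * k →
      (∀ v ∈ O, k ≤ dirs Y v) → (O.card : ℝ) * (Y.card : ℝ) ^ 2 ≤
        Z ^ 2 * ∑ v ∈ Y.filter (fun v => Z ^ 2 ≤ dirs Y v), (dirs Y v : ℝ) ^ 2 := by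
    intro O k hO hk h
    have h1 : Z ^ 2 ≤ k := by linarith
    have h2 : (O.card : ℝ) * k ^ 2 ≤
        ∑ v ∈ Y.filter (fun v => Z ^ 2 ≤ dirs Y v), (dirs Y v : ℝ) ^ 2 := by
      refine le_trans ?_ (sum_le_sum_of_subset_of_nonneg (s := O)
        (fun v hv => mem_filter.2 ⟨hO hv, h1.trans (h v hv)⟩) fun _ _ _ => sq_nonneg _)
      rw [← nsmul_eq_mul]
      exact card_nsmul_le_sum _ _ _ fun v hv => pow_le_pow_left₀ (by linarith) (h v hv) 2
    calc (O.card : ℝ) * (Y.card : ℝ) ^ 2 ≤ O.card * (10 ^ 12 * k) ^ 2 := by gcongr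
      _ = 10 ^ 24 * (O.card * k ^ 2) := by ring
      _ ≤ _ := mul_le_mul hZ2 h2 (by positivity) (by positivity)
  by_cases hnd : ND (10 ^ 12) Y
  · have h1 : (Y.card : ℝ) ≤ 4 * (Y.filter fun p => (Y.card : ℝ) ≤ 10 ^ 12 * dirs Y p).card := by
      exact_mod_cast beck le_rfl hnd
    have h2 := key (Y.filter fun p => (Y.card : ℝ) ≤ 10 ^ 12 * dirs Y p) (Y.card / 10 ^ 12)
      (filter_subset _ _) (le_of_eq (by ring)) fun v hv => by
        rw [div_le_iff₀' (by norm_num)]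
        exact (mem_filter.1 hv).2
    have h3 := mul_le_mul_of_nonneg_right h1 (sq_nonneg (Y.card : ℝ))
    refine le_trans (Nat.cast_le.2 (card_filter_le _ _)) ?_
    rw [card_product, card_product]
    push_cast
    linarith
  · unfold ND at hnd
    push Not at hnd
    obtain ⟨T, hT, hc, h1⟩ := hnd
    obtain ⟨p, hp, q, hq, hpq⟩ : ∃ p ∈ T, ∃ q ∈ T, p ≠ q := by
      rw [← one_lt_card, ← Nat.cast_lt (α := ℝ)]
      push_cast
      linarith
    have h2 : (T.card : ℝ) ≤ (ln Y p q).card :=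
      Nat.cast_le.2 (card_le_card (hc.subset_ln hT hp hq hpq))
    obtain ⟨O, hO⟩ : ∃ O, O = Y.filter fun v => v ∉ ln Y p q := ⟨_, rfl⟩
    have h3 := key O (ln Y p q).card (hO ▸ filter_subset _ _) (by linarith) fun v hv => by
      rw [hO, mem_filter] at hv
      exact Nat.cast_le.2 (card_ln_le_dirs hv.1 hv.2)
    have h4 : ((Y ×ˢ Y ×ˢ Y).filter fun t =>
        finrank ℝ (Submodule.span ℝ ({t.2.1 - t.1, t.2.2 - t.1} : Set F)) = 2) ⊆
        O ×ˢ Y ×ˢ Y ∪ Y ×ˢ O ×ˢ Y ∪ Y ×ˢ Y ×ˢ O := by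
      intro t ht
      simp only [mem_filter, mem_product] at ht
      obtain ⟨⟨a1, a2, a3⟩, a4⟩ := ht
      simp only [hO, mem_union, mem_product, mem_filter, mem_ln, a1, a2, a3, true_and, and_true]
      by_contra h
      push Not at h
      have h5 : Submodule.span ℝ ({t.2.1 - t.1, t.2.2 - t.1} : Set F) ≤
          Submodule.span ℝ {q - p} := by
        rw [Submodule.span_le, Set.insert_subset_iff, Set.singleton_subset_iff]
        exact ⟨sub_sub_sub_cancel_right t.2.1 t.1 p ▸ sub_mem h.1.2 h.1.1,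
          sub_sub_sub_cancel_right t.2.2 t.1 p ▸ sub_mem h.2 h.1.1⟩
      have h6 := Submodule.finrank_mono h5
      rw [a4, finrank_span_singleton (sub_ne_zero.2 hpq.symm)] at h6
      omega
    have h5 := (card_le_card h4).trans ((card_union_le _ _).trans
      (Nat.add_le_add_right (card_union_le _ _) _))
    simp only [card_product] at h5
    refine le_trans (Nat.cast_le.2 h5) ?_
    have h6 : (0 : ℝ) ≤ O.card * (Y.card : ℝ) ^ 2 := by positivity
    push_cast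
    linarith

theorem topb_count (P : Finset V3) {Z : ℝ} (hZ : 10 ^ 20 ≤ Z) {sf : V6 → Sub → Finset Sub}
    (hsf : SfOK Z P sf) {v : V6} (hv : v ∈ P ×ˢ P) {W : Submodule ℝ V6} (hW : finrank ℝ W = 2)
    {x : E} (hx : x ≠ 0) (hxW : ∀ c ∈ W, x ∈ hl c) (hd : Z ^ 2 ≤ dirs (fl P v W) v) :
    (dirs (fl P v W) v : ℝ) ^ 2 ≤ 2 * ((((mp (lv P v)).filter fun q => q.2 ∉ sf v q.1).filter
      fun q => wof q.1 q.2 = W).card : ℝ) := by
  obtain ⟨L, hL⟩ : ∃ L, L = ((fl P v W).erase v).image fun y => hl (y - v) := ⟨_, rfl⟩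
  have h0 : ∀ y ∈ (fl P v W).erase v,
      y - v ≠ 0 ∧ Bf (y - v) (y - v) = 0 ∧ y - v ∈ W ∧ y ∈ nb P P v := by
    intro y hy
    obtain ⟨h1, h2⟩ := mem_erase.1 hy
    rw [mem_fl] at h2
    have h3 := Bf_of_mem hx (hxW _ h2.2.2) (hxW _ h2.2.2)
    exact ⟨sub_ne_zero.2 h1, h3, h2.2.2, mem_nb.2 ⟨h2.1, h2.2.1, h1, h3⟩⟩
  have h1 : ∀ l ∈ L, ∃ a, a ≠ 0 ∧ Bf a a = 0 ∧ a ∈ W ∧ hl a = l ∧ l ∈ lv P v := by
    intro l hl'
    rw [hL] at hl'
    obtain ⟨y, hy, rfl⟩ := mem_image.1 hl'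
    obtain ⟨a1, a2, a3, a4⟩ := h0 y hy
    exact ⟨_, a1, a2, a3, rfl, mem_lv.2 ⟨y, a4, rfl⟩⟩
  have h2 : (dirs (fl P v W) v : ℝ) ≤ L.card := by
    refine Nat.cast_le.2 (le_trans (le_of_eq ?_) (card_image_le (f := fun l => wof l l)))
    rw [dirs, hL, image_image]
    refine congrArg card (image_congr fun y hy => ?_)
    obtain ⟨a1, a2, -⟩ := h0 y hy
    simp only [Function.comp_apply, wof_hl a1 a2 a1 a2, Set.pair_eq_singleton]
  have h3 : ∀ l ∈ L, (L.card : ℝ) ≤ 2 * (L.filter fun l' => l ≠ l' ∧ l' ∉ sf v l).card := by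
    intro l _
    have h4 : ((L.filter fun l' => l' ∈ sf v l).card : ℝ) ≤ Z := by
      rcases hsf v hv l with h | h
      · simp only [h, notMem_empty, filter_false, card_empty, Nat.cast_zero]
        linarith
      · refine le_trans (Nat.cast_le.2 (card_le_card fun l' hl' => ?_))
          (h.1.pt _ (finrank_span_singleton hx))
        obtain ⟨a1, a2⟩ := mem_filter.1 hl'
        obtain ⟨a, -, -, a3, rfl, -⟩ := h1 l' a1
        exact mem_filter.2 ⟨a2, (Submodule.span_singleton_le_iff_mem _ _).2 (hxW a a3)⟩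
    have h5 : L ⊆ insert l ((L.filter fun l' => l ≠ l' ∧ l' ∉ sf v l) ∪
        L.filter fun l' => l' ∈ sf v l) := by
      intro l' hl'
      simp only [mem_insert, mem_union, mem_filter, hl', true_and]
      tauto
    have h6 : (L.card : ℝ) ≤ (L.filter fun l' => l ≠ l' ∧ l' ∉ sf v l).card +
        (L.filter fun l' => l' ∈ sf v l).card + 1 := by
      exact_mod_cast (card_le_card h5).trans ((card_insert_le _ _).trans
        (Nat.add_le_add_right (card_union_le _ _) 1))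
    nlinarith
  have h4 : ((L ×ˢ L).filter fun q => q.1 ≠ q.2 ∧ q.2 ∉ sf v q.1) ⊆
      ((mp (lv P v)).filter fun q => q.2 ∉ sf v q.1).filter fun q => wof q.1 q.2 = W := by
    rintro ⟨l, l'⟩ hq
    simp only [mem_filter, mem_product] at hq
    obtain ⟨⟨b1, b2⟩, b3, b4⟩ := hq
    obtain ⟨a, a1, a2, a3, rfl, a4⟩ := h1 l b1
    obtain ⟨b, c1, c2, c3, rfl, c4⟩ := h1 l' b2
    refine mem_filter.2 ⟨mem_filter.2 ⟨mem_mp.2 ⟨a4, c4, b3,
      meet_iff.2 ⟨x, hx, hxW a a3, hxW b c3⟩⟩, b4⟩, ?_⟩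
    rw [wof_hl a1 a2 c1 c2, Submodule.span_insert]
    exact sup_eq_of_two (finrank_span_singleton a1) (finrank_span_singleton c1) hW
      (fun h => b3 ((hl_eq_iff a1 a2 c1 c2).2 h)) ((Submodule.span_singleton_le_iff_mem _ _).2 a3)
      ((Submodule.span_singleton_le_iff_mem _ _).2 c3)
  have h5 : (((L ×ˢ L).filter fun q => q.1 ≠ q.2 ∧ q.2 ∉ sf v q.1).card : ℝ) =
      ∑ l ∈ L, ((L.filter fun l' => l ≠ l' ∧ l' ∉ sf v l).card : ℝ) := by
    simp only [card_filter, sum_product]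
    push_cast
    rfl
  have h6 := card_nsmul_le_sum _ _ _ h3
  rw [← mul_sum, ← h5, nsmul_eq_mul, ← sq] at h6
  exact (pow_le_pow_left₀ (Nat.cast_nonneg _) h2 2).trans
    (h6.trans (mul_le_mul_of_nonneg_left (Nat.cast_le.2 (card_le_card h4)) zero_le_two))

theorem topb_point {P : Finset V3} {t : V6 × V6 × V6} (ht : t ∈ tri P) :
    ∃ x : E, x ≠ 0 ∧ ∀ c ∈ tw t, x ∈ hl c := by
  obtain ⟨-, -, h1, h2, h3⟩ := mem_tri.1 ht
  rw [mem_nb] at h1 h2
  rw [← sub_sub_sub_cancel_right t.2.2 t.2.1 t.1, Bf_sub_self, h1.2.2.2, h2.2.2.2] at h3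
  obtain ⟨x, hx, a1, a2⟩ := meet_iff.1 ((hl_meet_iff (sub_ne_zero.2 h2.2.2.1) h2.2.2.2
    (sub_ne_zero.2 h1.2.2.1) h1.2.2.2).2 (by linarith))
  refine ⟨x, hx, fun c hc => mem_hl_span ?_ hc⟩
  rintro a (rfl | rfl)
  exacts [a2, a1]

theorem topb_fl {P : Finset V3} {v v' : V6} {W : Submodule ℝ V6} (h : v' ∈ fl P v W) :
    fl P v' W = fl P v W := by
  ext y
  simp only [mem_fl] at h ⊢
  refine and_congr_right fun _ => and_congr_right fun _ => ⟨fun h1 => ?_, fun h1 => ?_⟩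
  · exact sub_add_sub_cancel y v' v ▸ add_mem h1 h.2.2
  · exact sub_sub_sub_cancel_right y v' v ▸ sub_mem h1 h.2.2

/-- Hint: group by `(tw t, fl P t.1 (tw t))`. The lines from `v` to the other vertices of the
flat pass through one point (`mem_hl_span`), so at most `Z` of them lie in a surface. The triple
`(v, l, l')` determines the group through `wof`. -/
theorem tri_large (P : Finset V3) {Z : ℝ} (hZ : 10 ^ 20 ≤ Z) {sf : V6 → Sub → Finset Sub}
    (hsf : SfOK Z P sf) :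
    (((tri P).filter fun t => finrank ℝ (tw t) = 2 ∧ Z ^ 3 < (fl P t.1 (tw t)).card).card : ℝ)
      ≤ 8 * Z ^ 2 * UU P sf := by
  obtain ⟨T, hT⟩ : ∃ T, T = (tri P).filter fun t =>
      finrank ℝ (tw t) = 2 ∧ Z ^ 3 < (fl P t.1 (tw t)).card := ⟨_, rfl⟩
  obtain ⟨g, hg⟩ : ∃ g : V6 → Submodule ℝ V6 × Finset V6 → ℕ, ∀ v z, g v z =
      (((mp (lv P v)).filter fun q => q.2 ∉ sf v q.1).filter
        fun q => (wof q.1 q.2, fl P v (wof q.1 q.2)) = z).card := ⟨_, fun _ _ => rfl⟩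
  have h1 : ∀ z ∈ T.image fun t => (tw t, fl P t.1 (tw t)),
      ((T.filter fun t => (tw t, fl P t.1 (tw t)) = z).card : ℝ) ≤
        8 * Z ^ 2 * ∑ v ∈ P ×ˢ P, (g v z : ℝ) := by
    intro z hz
    obtain ⟨t0, ht0, rfl⟩ := mem_image.1 hz
    rw [hT, mem_filter] at ht0
    obtain ⟨x, hx, hxW⟩ := topb_point ht0.1
    refine le_trans (Nat.cast_le.2 (card_le_card fun t ht => ?_))
      ((triples_le hZ (fl P t0.1 (tw t0)) ht0.2.2).trans ?_)
    · obtain ⟨a1, a2⟩ := mem_filter.1 ht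
      rw [hT, mem_filter, mem_tri, mem_nb, mem_nb] at a1
      obtain ⟨⟨b1, b2, b3, b4, -⟩, b5, -⟩ := a1
      have e : fl P t.1 (tw t) = fl P t0.1 (tw t0) := (Prod.ext_iff.1 a2).2
      rw [← e]
      exact mem_filter.2 ⟨mem_product.2 ⟨mem_fl.2 ⟨b1, b2, sub_self t.1 ▸ zero_mem _⟩,
        mem_product.2 ⟨mem_fl.2 ⟨b3.1, b3.2.1, Submodule.subset_span (Or.inl rfl)⟩,
          mem_fl.2 ⟨b4.1, b4.2.1, Submodule.subset_span (Or.inr rfl)⟩⟩⟩, b5⟩
    · rw [show 8 * Z ^ 2 = 4 * Z ^ 2 * 2 by ring, mul_assoc _ 2, mul_sum _ _ 2]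
      refine mul_le_mul_of_nonneg_left (le_trans (sum_le_sum fun v hv => ?_)
        (sum_le_sum_of_subset_of_nonneg ((filter_subset _ _).trans (filter_subset _ _))
          fun _ _ _ => by positivity)) (by positivity)
      obtain ⟨a1, a2⟩ := mem_filter.1 hv
      have a3 := topb_fl a1
      rw [← a3] at a2 ⊢
      refine (topb_count P hZ hsf (mem_filter.1 a1).1 ht0.2.1 hx hxW a2).trans
        (mul_le_mul_of_nonneg_left (Nat.cast_le.2 ?_) zero_le_two)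
      rw [hg]
      refine card_le_card fun q hq => mem_filter.2 ⟨(mem_filter.1 hq).1, ?_⟩
      rw [(mem_filter.1 hq).2]
  rw [← hT, card_eq_sum_card_image (fun t => (tw t, fl P t.1 (tw t))) T, Nat.cast_sum]
  refine (sum_le_sum h1).trans ?_
  rw [← mul_sum, sum_comm, UU, Nat.cast_sum]
  refine mul_le_mul_of_nonneg_left (sum_le_sum fun v _ => ?_) (by positivity)
  rw [← Nat.cast_sum, Nat.cast_le]
  simp only [hg]
  rw [sum_card_fiberwise_eq_card_filter]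
  exact @card_filter_le _ _ _ (_)

end Vale.Agent.P054
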