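import Vale.Agent.P054.Rich

/-!
Pairs in surfaces that are not reguli, and pairs at rich points and planes.
-/

namespace Vale.Agent.P054

open Finset Module
open scoped Classical

theorem topc_meet {Z : ℝ} {S : Finset Sub} (hS : Dim 2 S) (h : Surf Z S) {l a : Sub}
    (hl : l ∈ S) (ha : a ∈ S) (hne : l ≠ a) (hm : meet l a) (T : Finset Sub) (hT : T ⊆ S)
    (hT2 : ∀ b ∈ T, meet l b) : ((T.filter fun b => meet a b).card : ℝ) ≤ 2 * Z := by
  have h1 := h.pt _ (inf_one (hS l hl) (hS a ha) hne hm)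
  have h2 := h.pl _ (sup_three (hS l hl) (hS a ha) hne hm)
  have : (T.filter fun b => meet a b) ⊆
      (S.filter fun b => l ⊓ a ≤ b) ∪ (S.filter fun b => b ≤ l ⊔ a) := by
    intro b hb
    obtain ⟨b1, b2⟩ := mem_filter.1 hb
    rcases meet_two (hS l hl) (hS a ha) (hS b (hT b1)) hne hm (meet_comm.1 (hT2 b b1))
      (meet_comm.1 b2) with e | e
    · exact mem_union_left _ (mem_filter.2 ⟨hT b1, e⟩)
    · exact mem_union_right _ (mem_filter.2 ⟨hT b1, e⟩)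
  have h3 : ((T.filter fun b => meet a b).card : ℝ) ≤ thru S (l ⊓ a) + inpl S (l ⊔ a) := by
    exact_mod_cast (card_le_card this).trans (card_union_le _ _)
  linarith

theorem topc_not {α : Type*} (T : Finset α) (p : α → Prop) {c : ℝ}
    (h : ((T.filter p).card : ℝ) ≤ c) : (T.card : ℝ) - c ≤ (T.filter fun b => ¬ p b).card := by
  have : ((T.filter p).card : ℝ) + (T.filter fun b => ¬ p b).card = T.card := by
    exact_mod_cast card_filter_add_card_filter_not (s := T) p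
  linarith

/-- Skew triples. -/
noncomputable def topcTr (T : Finset Sub) : Finset (Sub × Sub × Sub) :=
  (T ×ˢ T ×ˢ T).filter fun z => ¬ meet z.1 z.2.1 ∧ ¬ meet z.1 z.2.2 ∧ ¬ meet z.2.1 z.2.2

theorem topc_tr {Z w : ℝ} (hZ : 0 ≤ Z) (hw : 0 ≤ w) (T : Finset Sub)
    (h : ∀ a ∈ T, ((T.filter fun b => meet a b).card : ℝ) ≤ 2 * Z) (hT : 4 * Z + w ≤ T.card) :
    T.card * w ^ 2 ≤ ((topcTr T).card : ℝ) := by
  have e : (topcTr T).card = ∑ a ∈ T, ∑ b ∈ T.filter (fun b => ¬ meet a b),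
      ((T.filter fun c => ¬ meet a c).filter fun c => ¬ meet b c).card := by
    unfold topcTr
    rw [card_filter, sum_product]
    refine sum_congr rfl fun a _ => ?_
    rw [sum_product, sum_filter]
    refine sum_congr rfl fun b _ => ?_
    split_ifs with hb
    · simp [hb]
    · rw [filter_filter, card_filter]
      simp only [hb, not_false_eq_true, true_and]
  rw [e]
  push_cast
  have k : ∀ a ∈ T, w ^ 2 ≤ ∑ b ∈ T.filter (fun b => ¬ meet a b),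
      (((T.filter fun c => ¬ meet a c).filter fun c => ¬ meet b c).card : ℝ) := by
    intro a ha
    have k1 := topc_not T (fun b => meet a b) (h a ha)
    have k2 := card_nsmul_le_sum (T.filter fun b => ¬ meet a b)
      (fun b => (((T.filter fun c => ¬ meet a c).filter fun c => ¬ meet b c).card : ℝ)) w
      (fun b hb => by
        have k3 := topc_not (T.filter fun c => ¬ meet a c) (fun c => meet b c) (c := 2 * Z)
          (le_trans (Nat.cast_le.2 (card_le_card (filter_subset_filter _ (filter_subset _ _))))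
            (h b (mem_filter.1 hb).1))
        linarith)
    rw [nsmul_eq_mul] at k2
    refine le_trans ?_ k2
    rw [sq]
    exact mul_le_mul_of_nonneg_right (by linarith) hw
  have := card_nsmul_le_sum T _ _ k
  rwa [nsmul_eq_mul] at this

theorem topc_sum {Z : ℝ} (hZ : 0 ≤ Z) {S : Finset Sub} (hk : K3 Z S) :
    ∑ l ∈ S, ((topcTr (S.filter fun b => l ≠ b ∧ meet l b)).card : ℝ) ≤ Z * (S.card : ℝ) ^ 3 := by
  have e1 : ∀ l ∈ S, (topcTr (S.filter fun b => l ≠ b ∧ meet l b)).card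
      ≤ ((topcTr S).filter fun z => meet l z.1 ∧ meet l z.2.1 ∧ meet l z.2.2).card := by
    intro l _
    refine card_le_card fun z hz => ?_
    simp only [topcTr, mem_filter, mem_product] at hz ⊢
    tauto
  have e2 : ∑ l ∈ S, ((topcTr S).filter fun z => meet l z.1 ∧ meet l z.2.1 ∧ meet l z.2.2).card
      = ∑ z ∈ topcTr S, (S.filter fun l => meet l z.1 ∧ meet l z.2.1 ∧ meet l z.2.2).card := by
    simp only [card_filter]
    exact sum_comm
  have e3 : ∑ l ∈ S, ((topcTr (S.filter fun b => l ≠ b ∧ meet l b)).card : ℝ)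
      ≤ ∑ z ∈ topcTr S,
        ((S.filter fun l => meet l z.1 ∧ meet l z.2.1 ∧ meet l z.2.2).card : ℝ) := by
    exact_mod_cast (sum_le_sum e1).trans e2.le
  have e4 := sum_le_card_nsmul (topcTr S)
    (fun z => ((S.filter fun l => meet l z.1 ∧ meet l z.2.1 ∧ meet l z.2.2).card : ℝ)) Z
    (fun z hz => by
      simp only [topcTr, mem_filter, mem_product] at hz
      exact hk _ hz.1.1 _ hz.1.2.1 _ hz.1.2.2 hz.2.1 hz.2.2.1 hz.2.2.2)
  rw [nsmul_eq_mul] at e4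
  have e5 : ((topcTr S).card : ℝ) ≤ (S.card : ℝ) ^ 3 := by
    have : (topcTr S).card ≤ S.card ^ 3 := by
      refine (card_filter_le _ _).trans (le_of_eq ?_)
      rw [card_product, card_product]; ring
    exact_mod_cast this
  calc _ ≤ ((topcTr S).card : ℝ) * Z := e3.trans e4
    _ ≤ (S.card : ℝ) ^ 3 * Z := by gcongr
    _ = _ := mul_comm _ _

theorem topc_mp (S : Finset Sub) :
    (mp S).card = ∑ l ∈ S, (S.filter fun b => l ≠ b ∧ meet l b).card := by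
  unfold mp
  simp only [card_filter]
  rw [sum_product]

/-- Kovari-Sos-Turan. -/
theorem kst {Z ρ : ℝ} (hZ : 1 ≤ Z) {S : Finset Sub} (hS : Dim 2 S) (h : Surf Z S)
    (hk : K3 Z S) (hρ : 1 ≤ ρ) (hc : (S.card : ℝ) ^ 2 ≤ ρ ^ 3) :
    ((mp S).card : ℝ) ≤ (2 + 2 * Z) * ρ * S.card := by
  rw [topc_mp]
  push_cast
  have hn0 : (0 : ℝ) ≤ S.card := Nat.cast_nonneg _
  have hρ0 : 0 < ρ := by linarith
  by_cases h4 : ρ ≤ 4
  · have k1 : (S.card : ℝ) ≤ 2 * ρ := by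
      refine (abs_le_of_sq_le_sq' (hc.trans ?_) (by positivity)).2
      nlinarith [sq_nonneg ρ]
    have k2 := sum_le_card_nsmul S (fun l => ((S.filter fun b => l ≠ b ∧ meet l b).card : ℝ))
      ((2 + 2 * Z) * ρ) (fun l _ => by
        have : ((S.filter fun b => l ≠ b ∧ meet l b).card : ℝ) ≤ S.card :=
          Nat.cast_le.2 (card_filter_le _ _)
        nlinarith)
    rw [nsmul_eq_mul] at k2
    linarith
  push Not at h4
  have hw : 0 < Z * ρ := by positivity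
  have k1 : ∀ l ∈ S, ((S.filter fun b => l ≠ b ∧ meet l b).card : ℝ) ≤ (4 * Z + Z * ρ)
      + ((topcTr (S.filter fun b => l ≠ b ∧ meet l b)).card : ℝ) / (Z * ρ) ^ 2 := by
    intro l hl
    by_cases hd : 4 * Z + Z * ρ ≤ (S.filter fun b => l ≠ b ∧ meet l b).card
    · have := topc_tr (by linarith) hw.le _ (fun a ha => topc_meet hS h hl (mem_filter.1 ha).1
        (mem_filter.1 ha).2.1 (mem_filter.1 ha).2.2 _ (filter_subset _ _)
        (fun b hb => (mem_filter.1 hb).2.2)) hd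
      rw [← le_div_iff₀ (by positivity)] at this
      have h0 : 0 ≤ 4 * Z + Z * ρ := by positivity
      linarith
    · have h0 : 0 ≤ ((topcTr (S.filter fun b => l ≠ b ∧ meet l b)).card : ℝ) / (Z * ρ) ^ 2 := by
        positivity
      linarith
  have k2 := sum_le_sum k1
  rw [sum_add_distrib, sum_const, nsmul_eq_mul, ← sum_div] at k2
  have k3 := topc_sum (by linarith) hk
  have k4 : (∑ l ∈ S, ((topcTr (S.filter fun b => l ≠ b ∧ meet l b)).card : ℝ)) / (Z * ρ) ^ 2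
      ≤ ρ * S.card := by
    rw [div_le_iff₀ (by positivity)]
    calc _ ≤ Z * (S.card : ℝ) ^ 3 := k3
      _ = Z * S.card * (S.card : ℝ) ^ 2 := by ring
      _ ≤ Z ^ 2 * S.card * ρ ^ 3 := by
        gcongr
        nlinarith
      _ = _ := by ring
  have k5 : 4 * Z + Z * ρ + ρ ≤ (2 + 2 * Z) * ρ := by nlinarith
  have k6 : (4 * Z + Z * ρ + ρ) * S.card ≤ (2 + 2 * Z) * ρ * S.card := by gcongr
  nlinarith

/-- Hint: `VF` with `rm u`, `rm_span`, `hl_rm`, `sphere`. -/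
theorem surf_card (P : Finset V3) (v : V6) {Z : ℝ} (hZ : 0 ≤ Z) {S : Finset Sub}
    (hS : S ⊆ lv P v) (h : VF Z S) : (S.card : ℝ) ≤ (Z + 2) * P.card := by
  set Sp : V3 → Finset Sub := fun p => S.filter fun l => l.map (rm (p - v.1)) ≤ l with hSp
  set H : Finset V3 := P.filter fun p => p ≠ v.1 ∧ Z < ((Sp p).card : ℝ) with hH
  have hcol : Col H := by
    rcases H.eq_empty_or_nonempty with e | ⟨p₀, hp₀⟩
    · exact ⟨0, 0, by simp [e]⟩
    refine col_of_span (p := v.1) (v := p₀ - v.1) fun q hq => ?_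
    obtain ⟨-, a1, a2⟩ := mem_filter.1 hp₀
    obtain ⟨-, -, a3⟩ := mem_filter.1 hq
    obtain ⟨x, hx, hne⟩ := h _ _ a2 a3
    have hli : ¬ LinearIndependent ℝ ![p₀ - v.1, q - v.1] := fun hl => hne (rm_span hl hx)
    rw [LinearIndependent.pair_iff' (sub_ne_zero.2 a1)] at hli
    push Not at hli
    obtain ⟨r, hr⟩ := hli
    exact Submodule.mem_span_singleton.2 ⟨r, hr⟩
  set T : V3 → Finset V3 := fun q => H.filter fun p =>
    (p - v.1) ⬝ᵥ (p - v.1) = (q - v.2) ⬝ᵥ (q - v.2) with hT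
  have hT2 : ∀ q, (T q).card ≤ 2 := fun q =>
    sphere (hcol.mono (filter_subset _ _)) v.1 _ (fun p hp => (mem_filter.1 hp).2)
  have hsub : S ⊆ ((P.filter fun p => ¬ Z < ((Sp p).card : ℝ)).biUnion Sp)
      ∪ P.biUnion fun q => (T q).image fun p => hl ((p, q) - v) := by
    intro l hl'
    obtain ⟨y, hy, rfl⟩ := mem_lv.1 (hS hl')
    obtain ⟨a1, a2, a3, a4⟩ := mem_nb.1 hy
    by_cases hz : Z < ((Sp y.1).card : ℝ)
    · refine mem_union_right _ (mem_biUnion.2 ⟨y.2, a2, mem_image.2 ⟨y.1, ?_, rfl⟩⟩)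
      refine mem_filter.2 ⟨mem_filter.2 ⟨a1, ?_, hz⟩, ?_⟩
      · exact sub_ne_zero.1 (fst_ne_zero (sub_ne_zero.2 a3) a4)
      · exact sub_eq_zero.1 a4
    · exact mem_union_left _ (mem_biUnion.2 ⟨y.1, mem_filter.2 ⟨a1, hz⟩,
        mem_filter.2 ⟨hl', hl_rm (y - v) a4⟩⟩)
  have k1 : (((P.filter fun p => ¬ Z < ((Sp p).card : ℝ)).biUnion Sp).card : ℝ)
      ≤ P.card * Z := by
    have a1 : (((P.filter fun p => ¬ Z < ((Sp p).card : ℝ)).biUnion Sp).card : ℝ)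
        ≤ ∑ p ∈ P.filter (fun p => ¬ Z < ((Sp p).card : ℝ)), ((Sp p).card : ℝ) := by
      exact_mod_cast card_biUnion_le
    have a2 := sum_le_card_nsmul (P.filter fun p => ¬ Z < ((Sp p).card : ℝ))
      (fun p => ((Sp p).card : ℝ)) Z (fun p hp => not_lt.1 (mem_filter.1 hp).2)
    rw [nsmul_eq_mul] at a2
    have a3 : ((P.filter fun p => ¬ Z < ((Sp p).card : ℝ)).card : ℝ) ≤ P.card :=
      Nat.cast_le.2 (card_filter_le _ _)
    exact a1.trans (a2.trans (mul_le_mul_of_nonneg_right a3 hZ))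
  have k2 : (P.biUnion fun q => (T q).image fun p => hl ((p, q) - v)).card ≤ P.card * 2 :=
    card_biUnion_le_card_mul _ _ _ fun q _ => card_image_le.trans (hT2 q)
  have k3 : ((P.biUnion fun q => (T q).image fun p => hl ((p, q) - v)).card : ℝ)
      ≤ P.card * 2 := by exact_mod_cast k2
  have k4 : (S.card : ℝ) ≤ ((P.filter fun p => ¬ Z < ((Sp p).card : ℝ)).biUnion Sp).card
      + ((P.biUnion fun q => (T q).image fun p => hl ((p, q) - v)).card : ℝ) := by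
    exact_mod_cast (card_le_card hsub).trans (card_union_le _ _)
  linarith

theorem uk_le (P : Finset V3) (v : V6) {Z R : ℝ} (hZ : 10 ≤ Z) (hR : 1 ≤ R)
    (hn : (P.card : ℝ) ^ 2 ≤ R ^ 3) (FF : Finset (Finset Sub)) (sf : Sub → Finset Sub)
    (h1 : ∀ S ∈ FF, S ⊆ lv P v ∧ Surf Z S) (h2 : ∑ S ∈ FF, S.card ≤ 2 * (lv P v).card)
    (h3 : ∀ l, sf l = ∅ ∨ (sf l ∈ FF ∧ l ∈ sf l)) :
    (((mp (lv P v)).filter fun q => q.2 ∈ sf q.1 ∧ ¬ Reg (sf q.1)).card : ℝ)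
      ≤ 6 * Z ^ 2 * R * (lv P v).card := by
  have hsub : ((mp (lv P v)).filter fun q => q.2 ∈ sf q.1 ∧ ¬ Reg (sf q.1))
      ⊆ (FF.filter fun S => ¬ Reg S).biUnion mp := by
    intro q hq
    obtain ⟨a1, a2, a3⟩ := mem_filter.1 hq
    obtain ⟨-, -, b3, b4⟩ := mem_mp.1 a1
    rcases h3 q.1 with e | ⟨e1, e2⟩
    · rw [e] at a2; exact absurd a2 (notMem_empty _)
    · exact mem_biUnion.2 ⟨sf q.1, mem_filter.2 ⟨e1, a3⟩, mem_mp.2 ⟨e2, a2, b3, b4⟩⟩
  have k1 : (((mp (lv P v)).filter fun q => q.2 ∈ sf q.1 ∧ ¬ Reg (sf q.1)).card : ℝ)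
      ≤ ∑ S ∈ FF.filter (fun S => ¬ Reg S), ((mp S).card : ℝ) := by
    exact_mod_cast (card_le_card hsub).trans card_biUnion_le
  have hP0 : (0 : ℝ) ≤ P.card := Nat.cast_nonneg _
  have k2 : ∀ S ∈ FF.filter (fun S => ¬ Reg S),
      ((mp S).card : ℝ) ≤ (2 + 2 * Z) * (Z * R) * S.card := by
    intro S hS
    obtain ⟨a1, a2⟩ := mem_filter.1 hS
    obtain ⟨b1, b2⟩ := h1 S a1
    refine kst (by linarith) ((dim_lv P v).mono b1) b2 (b2.rk.resolve_left a2) (by nlinarith) ?_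
    have c1 := surf_card P v (by linarith) b1 b2.vf
    calc (S.card : ℝ) ^ 2 ≤ ((Z + 2) * P.card) ^ 2 := by gcongr
      _ = (Z + 2) ^ 2 * (P.card : ℝ) ^ 2 := by ring
      _ ≤ Z ^ 3 * R ^ 3 := by
        gcongr
        nlinarith [mul_nonneg (sub_nonneg.2 hZ) (sq_nonneg Z)]
      _ = _ := by ring
  have k3 : ∑ S ∈ FF.filter (fun S => ¬ Reg S), (S.card : ℝ) ≤ 2 * (lv P v).card := by
    exact_mod_cast (sum_le_sum_of_subset (filter_subset _ _)).trans h2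
  have k4 := sum_le_sum k2
  rw [← mul_sum] at k4
  have hL0 : (0 : ℝ) ≤ (lv P v).card := Nat.cast_nonneg _
  have hZR : 0 ≤ Z * R := by positivity
  calc _ ≤ (2 + 2 * Z) * (Z * R) * ∑ S ∈ FF.filter (fun S => ¬ Reg S), (S.card : ℝ) :=
        k1.trans k4
    _ ≤ (3 * Z) * (Z * R) * (2 * (lv P v).card) := by
        gcongr
        linarith
    _ = _ := by ring

theorem topc_aux (P B : Finset V3) (σ : V3 → V3) {Z N Θ ζ R c : ℝ} (h : RB Θ P.card ζ)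
    (hlog : LogB Z N) (hN : (P.card : ℝ) ≤ N) (hR : 1 ≤ R) (hn : (P.card : ℝ) ^ 2 ≤ R ^ 3)
    (hc : ∀ T ⊆ P, Copl T → (T.card : ℝ) ≤ c) (hζ : 0 ≤ ζ) (hcR : ζ * c ≤ R)
    (hB : (B.card : ℝ) ≤ P.card) (F : V6 → Finset (Sub × Sub))
    (hF : ∀ v ∈ P ×ˢ P, ∀ q ∈ F v, ∃ g : V3 → V3, Mot g ∧ g v.1 ∈ B ∧ σ (g v.1) = v.2 ∧
      ∃ L : Finset Sub, R ≤ L.card ∧ q.1 ∈ L ∧ q.2 ∈ L ∧
        ∀ l ∈ L, ∃ p ∈ P, g p ∈ B ∧ hl ((p, σ (g p)) - v) = l) :
    ∑ v ∈ P ×ˢ P, ((F v).card : ℝ) ≤ 8 * Z * Θ := by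
  set Y : (V3 → V3) → Finset V3 := fun g => P.filter fun p => g p ∈ B with hY
  set Φ : (V3 → V3) → V3 × V3 × V3 → (Σ _ : V6, Sub × Sub) := fun g z =>
    ⟨(z.1, σ (g z.1)), hl ((z.2.1, σ (g z.2.1)) - (z.1, σ (g z.1))),
      hl ((z.2.2, σ (g z.2.2)) - (z.1, σ (g z.1)))⟩ with hΦ
  have hex : ∀ z : (Σ _ : V6, Sub × Sub), ∃ g : V3 → V3, z ∈ (P ×ˢ P).sigma F →
      Mot g ∧ R ≤ (Y g).card ∧ z ∈ (Y g ×ˢ Y g ×ˢ Y g).image (Φ g) := by
    rintro ⟨v, q⟩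
    by_cases hz : (⟨v, q⟩ : Σ _ : V6, Sub × Sub) ∈ (P ×ˢ P).sigma F
    swap
    · exact ⟨id, fun h => absurd h hz⟩
    obtain ⟨a1, a2⟩ := mem_sigma.1 hz
    obtain ⟨g, g1, g2, g3, L, l1, l2, l3, l4⟩ := hF v a1 q a2
    refine ⟨g, fun _ => ⟨g1, l1.trans (Nat.cast_le.2 ?_), ?_⟩⟩
    · have : L ⊆ (Y g).image fun p => hl ((p, σ (g p)) - v) := by
        intro l hl'
        obtain ⟨p, p1, p2, p3⟩ := l4 l hl'
        exact mem_image.2 ⟨p, mem_filter.2 ⟨p1, p2⟩, p3⟩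
      exact (card_le_card this).trans card_image_le
    · obtain ⟨p, p1, p2, p3⟩ := l4 _ l2
      obtain ⟨r, r1, r2, r3⟩ := l4 _ l3
      refine mem_image.2 ⟨(v.1, p, r), mem_product.2 ⟨mem_filter.2 ⟨(mem_product.1 a1).1, g2⟩,
        mem_product.2 ⟨mem_filter.2 ⟨p1, p2⟩, mem_filter.2 ⟨r1, r2⟩⟩⟩, ?_⟩
      simp only [hΦ, g3, Prod.mk.eta, p3, r3]
  choose γ hγ using hex
  set G := ((P ×ˢ P).sigma F).image γ with hG
  have hsub : (P ×ˢ P).sigma F ⊆ G.biUnion fun g => (Y g ×ˢ Y g ×ˢ Y g).image (Φ g) :=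
    fun z hz => mem_biUnion.2 ⟨γ z, mem_image_of_mem _ hz, (hγ z hz).2.2⟩
  have k1 : ∑ v ∈ P ×ˢ P, (F v).card ≤ ∑ g ∈ G, (Y g).card ^ 3 := by
    rw [← card_sigma]
    refine (card_le_card hsub).trans (card_biUnion_le.trans (sum_le_sum fun g _ => ?_))
    refine card_image_le.trans (le_of_eq ?_)
    rw [card_product, card_product]; ring
  have k2 : ∑ v ∈ P ×ˢ P, ((F v).card : ℝ) ≤ ∑ g ∈ G, ((Y g).card : ℝ) ^ 3 := by
    exact_mod_cast k1
  refine k2.trans (richSum3 h hlog hN le_rfl hB hR hn fun g hg => ?_)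
  obtain ⟨z, hz, rfl⟩ := mem_image.1 hg
  obtain ⟨a1, a2, -⟩ := hγ z hz
  refine ⟨a1, filter_subset _ _, fun p hp => (mem_filter.1 hp).2, fun T hT hcol => ?_, a2⟩
  have := hc T (hT.trans (filter_subset _ _)) hcol.copl
  exact (mul_le_mul_of_nonneg_left this hζ).trans (hcR.trans a2)

/-- Hint: `thru_mot`, `inpl_mot` (with `B = -P`), `richSum3`. -/
theorem big_le (P : Finset V3) {Z N Θ ζ R c : ℝ} (h : RB Θ P.card ζ) (hlog : LogB Z N)
    (hN : (P.card : ℝ) ≤ N) (hR : 1 ≤ R) (hn : (P.card : ℝ) ^ 2 ≤ R ^ 3)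
    (hc : ∀ T ⊆ P, Copl T → (T.card : ℝ) ≤ c) (hζ : 0 ≤ ζ) (hcR : ζ * c ≤ R) :
    ∑ v ∈ P ×ˢ P, (((mp (lv P v)).filter fun q => R ≤ thru (lv P v) (q.1 ⊓ q.2) ∨
      R ≤ inpl (lv P v) (q.1 ⊔ q.2)).card : ℝ) ≤ 16 * Z * Θ := by
  have k1 := topc_aux P P id h hlog hN hR hn hc hζ hcR le_rfl
    (fun v => (mp (lv P v)).filter fun q => R ≤ thru (lv P v) (q.1 ⊓ q.2)) (fun v hv q hq => by
      obtain ⟨a1, a2⟩ := mem_filter.1 hq
      obtain ⟨b1, b2, b3, b4⟩ := mem_mp.1 a1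
      obtain ⟨g, g1, g2, g3⟩ := thru_mot v (inf_one (dim_lv P v _ b1) (dim_lv P v _ b2) b3 b4)
      refine ⟨g, g1, g2 ▸ (mem_product.1 hv).2, g2, (lv P v).filter fun l => q.1 ⊓ q.2 ≤ l, a2,
        mem_filter.2 ⟨b1, inf_le_left⟩, mem_filter.2 ⟨b2, inf_le_right⟩, fun l hl' => ?_⟩
      obtain ⟨c1, c2⟩ := mem_filter.1 hl'
      obtain ⟨y, hy, rfl⟩ := mem_lv.1 c1
      obtain ⟨d1, d2, -, -⟩ := mem_nb.1 hy
      have e := g3 y c2
      exact ⟨y.1, d1, e ▸ d2, by rw [e]; rfl⟩)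
  have k2 := topc_aux P (P.image fun p => -p) (fun p => -p) h hlog hN hR hn hc hζ hcR
    (Nat.cast_le.2 card_image_le)
    (fun v => (mp (lv P v)).filter fun q => R ≤ inpl (lv P v) (q.1 ⊔ q.2)) (fun v hv q hq => by
      obtain ⟨a1, a2⟩ := mem_filter.1 hq
      obtain ⟨b1, b2, b3, b4⟩ := mem_mp.1 a1
      obtain ⟨g, g1, g2, g3⟩ := inpl_mot v (sup_three (dim_lv P v _ b1) (dim_lv P v _ b2) b3 b4)
      refine ⟨g, g1, mem_image.2 ⟨v.2, (mem_product.1 hv).2, g2.symm⟩, by rw [g2, neg_neg],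
        (lv P v).filter fun l => l ≤ q.1 ⊔ q.2, a2,
        mem_filter.2 ⟨b1, le_sup_left⟩, mem_filter.2 ⟨b2, le_sup_right⟩, fun l hl' => ?_⟩
      obtain ⟨c1, c2⟩ := mem_filter.1 hl'
      obtain ⟨y, hy, rfl⟩ := mem_lv.1 c1
      obtain ⟨d1, d2, d3, d4⟩ := mem_nb.1 hy
      have e := g3 y d3 d4 c2
      exact ⟨y.1, d1, mem_image.2 ⟨y.2, d2, e.symm⟩, by rw [e, neg_neg]⟩)
  have k3 : ∀ v ∈ P ×ˢ P, (((mp (lv P v)).filter fun q => R ≤ thru (lv P v) (q.1 ⊓ q.2) ∨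
      R ≤ inpl (lv P v) (q.1 ⊔ q.2)).card : ℝ)
      ≤ (((mp (lv P v)).filter fun q => R ≤ thru (lv P v) (q.1 ⊓ q.2)).card : ℝ)
        + (((mp (lv P v)).filter fun q => R ≤ inpl (lv P v) (q.1 ⊔ q.2)).card : ℝ) := by
    intro v _
    rw [filter_or]
    exact_mod_cast card_union_le _ _
  have k4 := sum_le_sum k3
  rw [sum_add_distrib] at k4
  linarith

end Vale.Agent.P054
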