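import Vale.Agent.P054.TopA
import Vale.Agent.P054.TopB
import Vale.Agent.P054.TopC

/-!
The count of triangles.
-/

namespace Vale.Agent.P054

open Finset Module
open scoped Classical

theorem top_sqrt {a θ : ℝ} (ha : 0 ≤ a) (hθ : 0 < θ) : √a ≤ a / θ + θ := by
  have h1 := Real.sq_sqrt ha
  have h2 := Real.sqrt_nonneg a
  rw [div_add' _ _ _ hθ.ne', le_div_iff₀ hθ]
  nlinarith [sq_nonneg (√a - θ)]

theorem top_num {Z n K S E T U U' R c : ℝ} (hZ : 10 ^ 20 ≤ Z) (hn : 2 ≤ n) (hK : 1 ≤ K)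
    (hE0 : 0 ≤ E) (hU0 : 0 ≤ U) (hU0' : 0 ≤ U') (hR : R ^ 3 = n ^ 2)
    (hKR : Z ^ 71 * K ≤ R) (hc0 : 0 ≤ c) (hc : Z ^ 5 * c ≤ R)
    (h1 : S ≤ (K + 1) * T) (h2 : n ^ 2 * (n - 1) ^ 4 ≤ K ^ 2 * S) (h3 : E ^ 2 ≤ n ^ 2 * S)
    (h4 : T ≤ c * E + (2 * Z ^ 6 * (U + U') + 2 * c * E) + 8 * Z ^ 2 * U)
    (h5 : U ≤ Z ^ 2 * (S / (Z ^ 12 * K)) + Z ^ 2 * (Z ^ 12 * K) * E + Z * R * E
      + 16 * Z * (Z ^ 201 * n ^ 4))
    (h6 : U' ≤ 6 * Z ^ 2 * R * E) : False := by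
  have hZ1 : 1 ≤ Z := le_trans (by norm_num) hZ
  have hZ0 : 0 < Z := by linarith
  have hK0 : 0 < K := by linarith
  have hn0 : 0 < n := by linarith
  have hR0 : 0 < R := lt_of_lt_of_le (by positivity) hKR
  have a1 : n ^ 6 ≤ 16 * (K ^ 2 * S) := by
    have : n ^ 4 ≤ (2 * (n - 1)) ^ 4 := by gcongr; linarith
    have b : n ^ 2 * n ^ 4 ≤ n ^ 2 * (2 * (n - 1)) ^ 4 := by gcongr
    linarith
  have hS0 : 0 < S := by
    have : 0 < K ^ 2 * S := by linarith [pow_pos hn0 6]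
    exact pos_of_mul_pos_right this (by positivity)
  have a2 : c ≤ R := le_trans (le_mul_of_one_le_left hc0 (one_le_pow₀ hZ1)) hc
  have a3 : Z ^ 14 * K ≤ R := le_trans (by gcongr; norm_num) hKR
  have a4 : Z ^ 10 * K * (R * E) ≤ S := by
    refine (pow_le_pow_iff_left₀ (by positivity) hS0.le two_ne_zero).1 ?_
    have b1 : (Z ^ 11 * K) ^ 4 ≤ R ^ 4 := by
      gcongr; exact le_trans (by gcongr; norm_num) hKR
    have b2 : 16 * Z ^ 20 ≤ Z ^ 44 := by
      rw [show Z ^ 44 = Z ^ 24 * Z ^ 20 by ring]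
      gcongr
      exact le_trans (by linarith) (le_self_pow₀ hZ1 (by norm_num))
    have b3 : 16 * Z ^ 20 * K ^ 4 ≤ R ^ 4 := by
      refine le_trans ?_ b1
      rw [show (Z ^ 11 * K) ^ 4 = Z ^ 44 * K ^ 4 by ring]
      gcongr
    have b4 : 16 * K ^ 2 * (Z ^ 20 * K ^ 2 * R ^ 2 * n ^ 2) ≤ 16 * K ^ 2 * S := by
      calc _ = 16 * Z ^ 20 * K ^ 4 * (R ^ 2 * n ^ 2) := by ring
        _ ≤ R ^ 4 * (R ^ 2 * n ^ 2) := by gcongr
        _ = (R ^ 3) ^ 2 * n ^ 2 := by ring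
        _ = n ^ 6 := by rw [hR]; ring
        _ ≤ _ := by linarith
    have b5 := le_of_mul_le_mul_left b4 (by positivity)
    calc _ = Z ^ 20 * K ^ 2 * R ^ 2 * E ^ 2 := by ring
      _ ≤ Z ^ 20 * K ^ 2 * R ^ 2 * (n ^ 2 * S) := by gcongr
      _ = Z ^ 20 * K ^ 2 * R ^ 2 * n ^ 2 * S := by ring
      _ ≤ S * S := by gcongr
      _ = _ := by ring
  have a5 : Z ^ 212 * K * n ^ 4 ≤ S := by
    have b1 : (Z ^ 71 * K) ^ 3 ≤ R ^ 3 := by gcongr
    have b2 : 16 * K ^ 2 * (Z ^ 212 * K * n ^ 4) ≤ 16 * K ^ 2 * S := by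
      calc _ = 16 * (Z ^ 212 * K ^ 3 * n ^ 4) := by ring
        _ ≤ Z * (Z ^ 212 * K ^ 3 * n ^ 4) := by gcongr; linarith
        _ = (Z ^ 71 * K) ^ 3 * n ^ 4 := by ring
        _ ≤ R ^ 3 * n ^ 4 := by gcongr
        _ = n ^ 6 := by rw [hR]; ring
        _ ≤ _ := by linarith
    exact le_of_mul_le_mul_left b2 (by positivity)
  have hRE : 0 ≤ R * E := by positivity
  have a6 : Z ^ 8 * K * U ≤ 19 * S := by
    have b1 : Z ^ 8 * K * (Z ^ 2 * (S / (Z ^ 12 * K))) ≤ S := by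
      rw [show Z ^ 8 * K * (Z ^ 2 * (S / (Z ^ 12 * K))) = S / Z ^ 2 by field_simp]
      exact div_le_self hS0.le (one_le_pow₀ hZ1)
    have b2 : Z ^ 8 * K * (Z ^ 2 * (Z ^ 12 * K) * E) ≤ S := by
      calc _ = Z ^ 8 * K * (Z ^ 14 * K * E) := by ring
        _ ≤ Z ^ 10 * K * (R * E) := by gcongr; norm_num
        _ ≤ _ := a4
    have b3 : Z ^ 8 * K * (Z * R * E) ≤ S := by
      calc _ = Z ^ 9 * K * (R * E) := by ring
        _ ≤ Z ^ 10 * K * (R * E) := by gcongr; norm_num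
        _ ≤ _ := a4
    have b4 : Z ^ 8 * K * (16 * Z * (Z ^ 201 * n ^ 4)) ≤ 16 * S := by
      calc _ = 16 * (Z ^ 210 * K * n ^ 4) := by ring
        _ ≤ 16 * (Z ^ 212 * K * n ^ 4) := by gcongr; norm_num
        _ ≤ _ := by linarith
    have b5 := mul_le_mul_of_nonneg_left h5 (by positivity : 0 ≤ Z ^ 8 * K)
    linarith
  have a7 : Z ^ 8 * K * U' ≤ 6 * S := by
    have b5 := mul_le_mul_of_nonneg_left h6 (by positivity : 0 ≤ Z ^ 8 * K)
    linarith
  have a8 : Z ^ 2 * K * (c * E) ≤ S := by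
    calc _ ≤ Z ^ 10 * K * (R * E) := by gcongr; norm_num
      _ ≤ _ := a4
  have a9 : Z ^ 4 * K * U ≤ Z ^ 8 * K * U := by gcongr; norm_num
  have hT : Z ^ 2 * K * T ≤ 205 * S := by
    have b5 := mul_le_mul_of_nonneg_left h4 (by positivity : 0 ≤ Z ^ 2 * K)
    linarith
  have hT0 : 0 ≤ T := by
    have : 0 < (K + 1) * T := by linarith
    exact (pos_of_mul_pos_right this (by linarith)).le
  have b1 : S ≤ 2 * K * T := h1.trans (by gcongr; linarith)
  have b2 := mul_le_mul_of_nonneg_left b1 (by positivity : 0 ≤ Z ^ 2)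
  have b3 : 1000 ≤ Z ^ 2 := le_trans (by linarith) (le_self_pow₀ hZ1 (by norm_num))
  have b4 := mul_le_mul_of_nonneg_right b3 hS0.le
  linarith

/-- Hint: `τ v = Z √|lv P v| + R`; `√L ≤ L / θ + θ` with `θ = Z ^ 12 * nd P`. -/
theorem top (P : Finset V3) {Z N ζ R c : ℝ} (hZ : 10 ^ 20 ≤ Z) (hG : GProp Z N)
    (hlog : LogB Z N) (hN : (P.card : ℝ) ^ 2 ≤ N) (hP : 2 ≤ P.card)
    (h : RB (Z ^ 201 * (P.card : ℝ) ^ 4) P.card ζ) (hζ : 0 ≤ ζ) (hζ' : ζ ≤ Z ^ 5) (hR0 : 0 ≤ R)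
    (hR : R ^ 3 = (P.card : ℝ) ^ 2) (hc : ∀ T ⊆ P, Copl T → (T.card : ℝ) ≤ c)
    (hcR : Z ^ 5 * c ≤ R) : R < Z ^ 71 * nd P := by
  by_contra hcon
  push Not at hcon
  have hZ1 : 1 ≤ Z := le_trans (by norm_num) hZ
  have hZ0 : 0 < Z := by linarith
  have hn : (2 : ℝ) ≤ P.card := by exact_mod_cast hP
  have s2 : (P.card : ℝ) ^ 2 * ((P.card : ℝ) - 1) ^ 4 ≤ (nd P : ℝ) ^ 2 * SS P := by
    have := ss_lower P
    have e : ((P.card - 1 : ℕ) : ℝ) = (P.card : ℝ) - 1 := by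
      rw [Nat.cast_sub (by omega)]; simp
    rw [← e]
    exact_mod_cast this
  have hK : (1 : ℝ) ≤ nd P := by
    have := ss_lower P
    rcases Nat.eq_zero_or_pos (nd P) with h0 | h0
    · rw [h0] at this
      have b : 0 < P.card ^ 2 * (P.card - 1) ^ 4 := by
        have : 0 < P.card - 1 := by omega
        positivity
      simp only [ne_eq, OfNat.ofNat_ne_zero, not_false_eq_true, zero_pow, zero_mul] at this
      omega
    · exact_mod_cast h0
  have hR1 : 1 ≤ R := le_trans (one_le_mul_of_one_le_of_one_le (one_le_pow₀ hZ1) hK) hcon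
  have hc0 : 0 ≤ c := by
    have := hc ∅ (empty_subset _) ⟨0, 0, 0, by simp⟩
    simpa using this
  have hlv : ∀ v, (lv P v).card ≤ (nb P P v).card := fun v => card_image_le
  have hnb : ∀ v, ((nb P P v).card : ℝ) ≤ N := by
    intro v
    have : (nb P P v).card ≤ (P ×ˢ P).card := card_le_card (filter_subset _ _)
    rw [card_product] at this
    refine le_trans ?_ hN
    rw [sq]; exact_mod_cast this
  have hG' := fun v => hG (lv P v) (dim_lv P v)
    (le_trans (by exact_mod_cast hlv v) (hnb v)) (Z * √((lv P v).card : ℝ) + R) (by linarith)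
  choose FF sf g1 g2 g3 g4 using hG'
  have hsf : SfOK Z P sf := by
    intro v _ l
    rcases g3 v l with h | h
    · exact Or.inl h
    · exact Or.inr ⟨(g1 v _ h.1).2, (g1 v _ h.1).1, h.2⟩
  have t1 : (SS P : ℝ) ≤ (nd P + 1) * (tri P).card := by exact_mod_cast tri_lower P
  have t3 : (EE P : ℝ) ^ 2 ≤ (P.card : ℝ) ^ 2 * SS P := by exact_mod_cast ee_sq P
  have t4 : ((tri P).card : ℝ) ≤ c * EE P + (2 * Z ^ 6 * (UU P sf + UK P sf) + 2 * c * EE P)
      + 8 * Z ^ 2 * UU P sf := by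
    have b1 := tri_col P hc
    have b2 := tri_small P hZ1 hc hsf
    have b3 := tri_large P hZ hsf
    have b4 : (tri P).card ≤ ((tri P).filter fun t => finrank ℝ (tw t) ≠ 2).card
        + ((tri P).filter fun t => finrank ℝ (tw t) = 2 ∧
          ((fl P t.1 (tw t)).card : ℝ) ≤ Z ^ 3).card
        + ((tri P).filter fun t => finrank ℝ (tw t) = 2 ∧
          Z ^ 3 < (fl P t.1 (tw t)).card).card := by
      refine le_trans (card_le_card ?_) ((card_union_le _ _).trans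
        (Nat.add_le_add_right (card_union_le _ _) _))
      intro t ht
      simp only [mem_union, mem_filter]
      by_cases h1 : finrank ℝ (tw t) = 2
      · rcases le_or_gt ((fl P t.1 (tw t)).card : ℝ) (Z ^ 3) with h2 | h2
        · exact Or.inl (Or.inr ⟨ht, h1, h2⟩)
        · exact Or.inr ⟨ht, h1, h2⟩
      · exact Or.inl (Or.inl ⟨ht, h1⟩)
    have b5 : ((tri P).card : ℝ) ≤ _ := Nat.cast_le.2 b4
    push_cast at b5
    linarith
  have eE : (EE P : ℝ) = ∑ v ∈ P ×ˢ P, ((nb P P v).card : ℝ) := by unfold EE; push_cast; rfl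
  have eS : (SS P : ℝ) = ∑ v ∈ P ×ˢ P, ((nb P P v).card : ℝ) ^ 2 := by unfold SS; push_cast; rfl
  have t6 : (UK P sf : ℝ) ≤ 6 * Z ^ 2 * R * EE P := by
    rw [eE, mul_sum]
    unfold UK
    push_cast
    refine sum_le_sum fun v _ => ?_
    refine (uk_le P v (by linarith) hR1 hR.ge (FF v) (sf v) (g1 v) (g2 v) (g3 v)).trans ?_
    gcongr
    exact hlv v
  have t5 : (UU P sf : ℝ) ≤ Z ^ 2 * (SS P / (Z ^ 12 * nd P)) + Z ^ 2 * (Z ^ 12 * nd P) * EE P
      + Z * R * EE P + 16 * Z * (Z ^ 201 * (P.card : ℝ) ^ 4) := by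
    have b1 := big_le P h hlog (le_trans (le_self_pow₀ (by linarith) two_ne_zero) hN) hR1 hR.ge
      hc hζ (le_trans (by gcongr) hcR)
    refine le_trans ?_ (add_le_add_right b1 _)
    rw [eE, eS, sum_div, mul_sum, mul_sum, mul_sum, ← sum_add_distrib, ← sum_add_distrib,
      ← sum_add_distrib]
    unfold UU
    push_cast
    refine sum_le_sum fun v _ => ?_
    have c1 : ((mp (lv P v)).filter fun q => q.2 ∉ sf v q.1).card ≤
        ((mp (lv P v)).filter fun q =>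
          (thru (lv P v) (q.1 ⊓ q.2) : ℝ) < Z * √((lv P v).card : ℝ) + R ∧
          (inpl (lv P v) (q.1 ⊔ q.2) : ℝ) < Z * √((lv P v).card : ℝ) + R ∧
          q.2 ∉ sf v q.1).card +
        ((mp (lv P v)).filter fun q => R ≤ thru (lv P v) (q.1 ⊓ q.2) ∨
          R ≤ inpl (lv P v) (q.1 ⊔ q.2)).card := by
      refine le_trans (card_le_card ?_) (card_union_le _ _)
      intro q hq
      obtain ⟨h1, h2⟩ := mem_filter.1 hq
      have c0 : 0 ≤ Z * √((lv P v).card : ℝ) := by positivity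
      simp only [mem_union, mem_filter]
      by_cases h3 : R ≤ thru (lv P v) (q.1 ⊓ q.2) ∨ R ≤ inpl (lv P v) (q.1 ⊔ q.2)
      · exact Or.inr ⟨h1, h3⟩
      · push Not at h3
        exact Or.inl ⟨h1, by linarith [h3.1], by linarith [h3.2], h2⟩
    have c2 : (_ : ℝ) ≤ _ := Nat.cast_le.2 c1
    push_cast at c2
    refine c2.trans (add_le_add_left ((g4 v).trans ?_) _)
    have c3 : ((lv P v).card : ℝ) ≤ (nb P P v).card := by exact_mod_cast hlv v
    have c4 := top_sqrt (a := ((nb P P v).card : ℝ)) (θ := Z ^ 12 * nd P) (Nat.cast_nonneg _)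
      (by positivity)
    have c5 : √((lv P v).card : ℝ) ≤ _ := (Real.sqrt_le_sqrt c3).trans c4
    calc _ ≤ Z * (Z * ((nb P P v).card / (Z ^ 12 * nd P) + Z ^ 12 * nd P) + R)
          * (nb P P v).card := by gcongr
      _ = _ := by ring
  exact top_num hZ hn hK (Nat.cast_nonneg _) (Nat.cast_nonneg _) (Nat.cast_nonneg _) hR hcon hc0
    hcR t1 s2 t3 t4 t5 t6

end Vale.Agent.P054
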