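import Vale.Agent.P054.Quat

/-!
Lower bound for triangles, degenerate triangles, and small flats.
-/

namespace Vale.Agent.P054

open Finset Module
open scoped Classical

theorem topA_fib {α β : Type*} (S : Finset α) (D : Finset β) (f : α → β) (hf : ∀ a ∈ S, f a ∈ D)
    {K : ℝ} (h : ∀ b ∈ D, ∀ T : Finset α, (∀ a ∈ T, a ∈ S ∧ f a = b) → (T.card : ℝ) ≤ K) :
    (S.card : ℝ) ≤ K * D.card := by
  rw [card_eq_sum_card_fiberwise (f := f) (t := D) hf, Nat.cast_sum, mul_comm, ← nsmul_eq_mul]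
  exact sum_le_card_nsmul _ _ _ fun b hb => h b hb _ fun a ha => mem_filter.1 ha

theorem topA_count (P : Finset V3) {S : Finset (V6 × V6 × V6)} (hS : S ⊆ tri P) {K : ℝ}
    (h : ∀ v y, ∀ T : Finset V6, (∀ y' ∈ T, (v, y, y') ∈ S) → (T.card : ℝ) ≤ K) :
    (S.card : ℝ) ≤ K * EE P := by
  rw [EE, ← card_sigma]
  refine topA_fib S _ (fun t => (⟨t.1, t.2.1⟩ : Σ _ : V6, V6)) (fun t ht => ?_) fun b _ T hT => ?_
  · have := mem_tri.1 (hS ht)
    exact mem_sigma.2 ⟨mem_product.2 ⟨this.1, this.2.1⟩, this.2.2.1⟩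
  · have key : ∀ t ∈ T, t = (b.1, b.2, t.2.2) := fun t ht => by rw [← (hT t ht).2]
    rw [← card_image_of_injOn (f := fun t : V6 × V6 × V6 => t.2.2) fun t ht t' ht' e => by
      rw [key t ht, key t' ht']
      exact congrArg (fun z => (b.1, b.2, z)) e]
    refine h b.1 b.2 _ fun y' hy' => ?_
    obtain ⟨t, ht, rfl⟩ := mem_image.1 hy'
    rw [← key t ht]
    exact (hT t ht).1

/-- triples with two distinguished distances -/
noncomputable def topX (P : Finset V3) : Finset (V3 × V3 × V3) :=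
  (P ×ˢ P ×ˢ P).filter fun x => x.2.1 ≠ x.1 ∧ x.2.2 ≠ x.1

/-- the two distances -/
def topF (x : V3 × V3 × V3) : ℝ × ℝ :=
  ((x.2.1 - x.1) ⬝ᵥ (x.2.1 - x.1), (x.2.2 - x.1) ⬝ᵥ (x.2.2 - x.1))

theorem topA_nb {P : Finset V3} {v y : V6} : y ∈ nb P P v ↔ y.1 ∈ P ∧ y.2 ∈ P ∧ y.1 ≠ v.1 ∧
    y.2 ≠ v.2 ∧ (y.1 - v.1) ⬝ᵥ (y.1 - v.1) = (y.2 - v.2) ⬝ᵥ (y.2 - v.2) := by
  rw [mem_nb]
  refine ⟨fun ⟨h1, h2, h3, h4⟩ => ⟨h1, h2, sub_ne_zero.1 (fst_ne_zero (sub_ne_zero.2 h3) h4),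
    sub_ne_zero.1 (snd_ne_zero (sub_ne_zero.2 h3) h4), sub_eq_zero.1 h4⟩,
    fun ⟨h1, h2, h3, _, h5⟩ => ⟨h1, h2, fun e => h3 (congrArg Prod.fst e), sub_eq_zero.2 h5⟩⟩

theorem topA_mem {P : Finset V3} {v y y' : V6} :
    (((v.1, y.1, y'.1), (v.2, y.2, y'.2)) ∈ topX P ×ˢ topX P ∧
      topF (v.1, y.1, y'.1) = topF (v.2, y.2, y'.2)) ↔
      v ∈ P ×ˢ P ∧ y ∈ nb P P v ∧ y' ∈ nb P P v := by
  simp only [topX, topF, mem_product, mem_filter, topA_nb, Prod.mk.injEq]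
  tauto

theorem topA_SS (P : Finset V3) :
    SS P = ((topX P ×ˢ topX P).filter fun q => topF q.1 = topF q.2).card := by
  have e : SS P = ((P ×ˢ P).sigma fun v => nb P P v ×ˢ nb P P v).card := by
    simp only [SS, card_sigma, card_product, sq]
  rw [e]
  refine card_nbij' (fun t => ((t.1.1, t.2.1.1, t.2.2.1), (t.1.2, t.2.1.2, t.2.2.2)))
    (fun q => ⟨(q.1.1, q.2.1), (q.1.2.1, q.2.2.1), (q.1.2.2, q.2.2.2)⟩) (fun t ht => ?_)
    (fun q hq => ?_) (fun _ _ => rfl) fun _ _ => rfl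
  · have h := mem_sigma.1 ht
    exact mem_filter.2 (topA_mem.2 ⟨h.1, mem_product.1 h.2⟩)
  · have h := (topA_mem (v := (q.1.1, q.2.1)) (y := (q.1.2.1, q.2.2.1))
      (y' := (q.1.2.2, q.2.2.2))).1 (mem_filter.1 hq)
    exact mem_sigma.2 ⟨h.1, mem_product.2 h.2⟩

theorem tri_lower (P : Finset V3) : SS P ≤ (nd P + 1) * (tri P).card := by
  rw [topA_SS]
  refine (coll_le (topX P) topF fun x => (x.2.2 - x.2.1) ⬝ᵥ (x.2.2 - x.2.1)).trans
    (Nat.mul_le_mul (le_trans (card_le_card fun r hr => ?_) (card_insert_le 0 _)) ?_)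
  · obtain ⟨x, hx, rfl⟩ := mem_image.1 hr
    have h := mem_product.1 (mem_product.1 (mem_filter.1 hx).1).2
    by_cases e : x.2.2 = x.2.1
    · simp [e]
    · exact mem_insert_of_mem (mem_image.2 ⟨(x.2.2, x.2.1), mem_offDiag.2 ⟨h.2, h.1, e⟩, rfl⟩)
  · refine card_le_card_of_injOn
      (fun q => ((q.1.1, q.2.1), (q.1.2.1, q.2.2.1), (q.1.2.2, q.2.2.2))) (fun q hq => ?_)
      fun q _ q' _ e => ?_
    · obtain ⟨h1, h2, h3⟩ := mem_filter.1 hq
      have h := (topA_mem (v := (q.1.1, q.2.1)) (y := (q.1.2.1, q.2.2.1))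
        (y' := (q.1.2.2, q.2.2.2))).1 ⟨h1, h2⟩
      exact mem_tri.2 ⟨(mem_product.1 h.1).1, (mem_product.1 h.1).2, h.2.1, h.2.2, sub_eq_zero.2 h3⟩
    · simp only [Prod.ext_iff] at e ⊢
      tauto

theorem ss_lower (P : Finset V3) : P.card ^ 2 * (P.card - 1) ^ 4 ≤ nd P ^ 2 * SS P := by
  have h1 := coll_le (topX P) (fun _ => ()) topF
  have h2 : (topX P).card = P.card * (P.card - 1) ^ 2 := by
    have : (topX P).card = (P.sigma fun p => P.erase p ×ˢ P.erase p).card :=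
      card_nbij' (fun x => ⟨x.1, x.2⟩) (fun x => (x.1, x.2))
        (fun x hx => by simp [topX] at hx ⊢; tauto) (fun x hx => by simp [topX] at hx ⊢; tauto)
        (fun _ _ => rfl) fun _ _ => rfl
    rw [this, card_sigma, sum_congr rfl fun p hp => by rw [card_product, card_erase_of_mem hp],
      sum_const, smul_eq_mul, sq]
  have h3 : ((topX P).image topF).card ≤ nd P ^ 2 := by
    rw [sq, nd, ← card_product]
    refine card_le_card fun r hr => ?_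
    obtain ⟨x, hx, rfl⟩ := mem_image.1 hr
    simp only [topX, mem_filter, mem_product] at hx
    exact mem_product.2 ⟨mem_image.2 ⟨(x.2.1, x.1), mem_offDiag.2 ⟨hx.1.2.1, hx.1.1, hx.2.1⟩, rfl⟩,
      mem_image.2 ⟨(x.2.2, x.1), mem_offDiag.2 ⟨hx.1.2.2, hx.1.1, hx.2.2⟩, rfl⟩⟩
  simp only [filter_true, true_and, card_product, h2, ← topA_SS] at h1
  calc _ = _ := by ring
    _ ≤ _ := h1
    _ ≤ _ := Nat.mul_le_mul_right _ h3

theorem ee_sq (P : Finset V3) : EE P ^ 2 ≤ P.card ^ 2 * SS P := by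
  rw [sq P.card, ← card_product]
  exact sq_sum_le_card_mul_sum_sq

theorem topA_one {F : Type*} [AddCommGroup F] [Module ℝ F] [FiniteDimensional ℝ F]
    {W : Submodule ℝ F} (h : finrank ℝ W ≤ 1) : ∃ v, W ≤ Submodule.span ℝ {v} := by
  obtain ⟨v, hv⟩ := finrank_le_one_iff.1 h
  refine ⟨v, fun w hw => ?_⟩
  obtain ⟨c, hc⟩ := hv ⟨w, hw⟩
  exact Submodule.mem_span_singleton.2 ⟨c, congrArg Subtype.val hc⟩

theorem topA_copl {T : Finset V3} {W : Submodule ℝ V3} (hW : finrank ℝ W ≤ 2) (p : V3)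
    (h : ∀ q ∈ T, q - p ∈ W) : Copl T := by
  rcases hW.eq_or_lt with h2 | h2
  · obtain ⟨a, b, -, rfl⟩ := exists_pair h2
    refine ⟨p, a, b, fun q hq => ?_⟩
    obtain ⟨r, s, e⟩ := Submodule.mem_span_pair.1 (h q hq)
    exact ⟨r, s, by rw [add_assoc, e, add_sub_cancel]⟩
  · obtain ⟨v, hv⟩ := topA_one (Nat.le_of_lt_succ h2)
    exact (col_of_span fun q hq => hv (h q hq)).copl

theorem topA_span_le (a b : V6) : finrank ℝ (Submodule.span ℝ ({a, b} : Set V6)) ≤ 2 := by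
  have := finrank_span_finset_le_card (R := ℝ) ({a, b} : Finset V6)
  rw [Set.finrank, coe_pair] at this
  exact this.trans card_le_two

theorem tri_col (P : Finset V3) {c : ℝ} (hc : ∀ T ⊆ P, Copl T → (T.card : ℝ) ≤ c) :
    (((tri P).filter fun t => finrank ℝ (tw t) ≠ 2).card : ℝ) ≤ c * EE P := by
  refine topA_count P (filter_subset _ _) fun v y T hT => ?_
  have key : ∀ y' ∈ T, y'.1 ∈ P ∧ (y - v).1 ≠ 0 ∧ ∃ r : ℝ, r • (y - v) = y' - v := fun y' hy' => by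
    obtain ⟨h1, h2⟩ := mem_filter.1 (hT y' hy')
    obtain ⟨-, -, h3, h4, -⟩ := mem_tri.1 h1
    rw [mem_nb] at h3 h4
    have a := sub_ne_zero.2 h3.2.2.1
    refine ⟨h4.1, fst_ne_zero a h3.2.2.2, Submodule.mem_span_singleton.1 ?_⟩
    have e : Submodule.span ℝ {y - v} = tw (v, y, y') := Submodule.eq_of_le_of_finrank_le
      (Submodule.span_mono (by simp)) (by
        rw [finrank_span_singleton a]
        exact Nat.le_of_lt_succ (lt_of_le_of_ne (topA_span_le _ _) h2))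
    exact e.ge (Submodule.subset_span (by simp))
  rw [← card_image_of_injOn (f := Prod.fst) fun a ha b hb e => by
    obtain ⟨-, h0, r, hr⟩ := key a ha
    obtain ⟨-, -, s, hs⟩ := key b hb
    have : r • (y - v).1 = s • (y - v).1 :=
      (congrArg Prod.fst hr).trans ((congrArg (· - v.1) e).trans (congrArg Prod.fst hs).symm)
    rw [smul_left_injective ℝ h0 this, hs] at hr
    exact (sub_left_injective hr).symm]
  refine hc _ (image_subset_iff.2 fun a ha => (key a ha).1)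
    (col_of_span (p := v.1) (v := (y - v).1) fun q hq => ?_).copl
  obtain ⟨a, ha, rfl⟩ := mem_image.1 hq
  obtain ⟨-, -, r, hr⟩ := key a ha
  exact Submodule.mem_span_singleton.2 ⟨r, congrArg Prod.fst hr⟩

/-- The orthogonal complement of three pairwise skew null vectors has dimension three. -/
theorem perp_three {a b c : V6} (ha : Bf a a = 0) (hb : Bf b b = 0) (hc : Bf c c = 0)
    (hab : Bf a b ≠ 0) (hac : Bf a c ≠ 0) (hbc : Bf b c ≠ 0) :
    ∃ U : Submodule ℝ V6, finrank ℝ U = 3 ∧ ∀ y, y ∈ U ↔ Bf y a = 0 ∧ Bf y b = 0 ∧ Bf y c = 0 := by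
  let φ : V6 →ₗ[ℝ] V3 :=
    { toFun := fun y => ![Bf y a, Bf y b, Bf y c]
      map_add' := fun x y => by simp [Bf_add_left]
      map_smul' := fun r x => by simp [Bf_smul_left] }
  have hs : Function.Surjective φ := fun x => by
    refine ⟨((x 1 * Bf a c + x 2 * Bf a b - x 0 * Bf b c) / (2 * Bf a b * Bf a c)) • a +
      ((x 0 * Bf b c + x 2 * Bf a b - x 1 * Bf a c) / (2 * Bf a b * Bf b c)) • b +
      ((x 0 * Bf b c + x 1 * Bf a c - x 2 * Bf a b) / (2 * Bf a c * Bf b c)) • c, funext fun i => ?_⟩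
    fin_cases i <;>
      simp [φ, Bf_add_left, Bf_smul_left, ha, hb, hc, Bf_comm b a, Bf_comm c a, Bf_comm c b] <;>
      field_simp <;> ring
  have h := φ.finrank_range_add_finrank_ker
  rw [LinearMap.range_eq_top.2 hs] at h
  simp at h
  exact ⟨LinearMap.ker φ, by omega, fun y => by simp [φ]⟩

/-- Neighbours of a vertex in a two dimensional flat. -/
theorem flat_two (P : Finset V3) {c : ℝ} (hc : ∀ T ⊆ P, Copl T → (T.card : ℝ) ≤ c) (v : V6)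
    (T : Finset V6) (hT : T ⊆ nb P P v) (U : Submodule ℝ V6) (hU : finrank ℝ U ≤ 2)
    (h : ∀ y ∈ T, ∀ y' ∈ T, y - y' ∈ U) : (T.card : ℝ) ≤ 2 * c := by
  have c0 : 0 ≤ c := by simpa using hc ∅ (empty_subset _) ⟨0, 0, 0, by simp⟩
  rcases T.eq_empty_or_nonempty with rfl | ⟨y0, h0⟩
  · simpa using c0
  have cop : ∀ f : V6 →ₗ[ℝ] V3, (∀ y ∈ T, f y ∈ P) → ((T.image f).card : ℝ) ≤ c := fun f hf =>
    hc _ (image_subset_iff.2 hf) (topA_copl ((Submodule.finrank_map_le f U).trans hU) (f y0)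
      fun q hq => by
        obtain ⟨y, hy, rfl⟩ := mem_image.1 hq
        exact ⟨_, h y hy y0 h0, map_sub f y y0⟩)
  by_cases hu : U ≤ LinearMap.ker (LinearMap.fst ℝ V3 V3)
  · rw [← card_image_of_injOn (f := LinearMap.snd ℝ V3 V3) fun a ha b hb e =>
      Prod.ext (sub_eq_zero.1 (hu (h a ha b hb))) e]
    linarith [cop (LinearMap.snd ℝ V3 V3) fun y hy => (mem_nb.1 (hT hy)).2.1]
  · obtain ⟨u, hu'⟩ := topA_one (W := U ⊓ LinearMap.ker (LinearMap.fst ℝ V3 V3)) (by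
      have := Submodule.finrank_lt_finrank_of_lt (inf_lt_left.2 hu)
      omega)
    refine (topA_fib T (T.image (LinearMap.fst ℝ V3 V3)) _ (fun a ha => mem_image_of_mem _ ha)
      (K := 2) fun b hb T' hT' => ?_).trans (mul_le_mul_of_nonneg_left
        (cop _ fun y hy => (mem_nb.1 (hT hy)).1) zero_le_two)
    obtain ⟨y, hy, rfl⟩ := mem_image.1 hb
    rw [← card_image_of_injOn (f := Prod.snd) fun a ha b hb e =>
      Prod.ext ((hT' a ha).2.trans (hT' b hb).2.symm) e]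
    refine Nat.cast_le_ofNat.2 (sphere (col_of_span (p := y.2) (v := u.2) fun q hq => ?_) v.2
      ((y.1 - v.1) ⬝ᵥ (y.1 - v.1)) fun q hq => ?_)
    · obtain ⟨a, ha, rfl⟩ := mem_image.1 hq
      obtain ⟨r, hr⟩ := Submodule.mem_span_singleton.1 (hu' (x := a - y)
        ⟨h a (hT' a ha).1 y hy, sub_eq_zero.2 (hT' a ha).2⟩)
      exact Submodule.mem_span_singleton.2 ⟨r, congrArg Prod.snd hr⟩
    · obtain ⟨a, ha, rfl⟩ := mem_image.1 hq
      rw [← (topA_nb.1 (hT (hT' a ha).1)).2.2.2.2, show a.1 = y.1 from (hT' a ha).2]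

/-- exchange of the first two vertices -/
def topSw (t : V6 × V6 × V6) : V6 × V6 × V6 := (t.2.1, t.1, t.2.2)

theorem topA_tw (t : V6 × V6 × V6) : tw (topSw t) = tw t := by
  have key : ∀ t : V6 × V6 × V6, tw (topSw t) ≤ tw t := fun t => by
    have h1 : t.2.1 - t.1 ∈ tw t := Submodule.subset_span (by simp)
    have h2 : t.2.2 - t.1 ∈ tw t := Submodule.subset_span (by simp)
    refine Submodule.span_le.2 (Set.pair_subset ?_ ?_)
    · simpa [topSw] using (tw t).neg_mem h1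
    · simpa [topSw] using (tw t).sub_mem h2 h1
  exact le_antisymm (key t) (key (topSw t))

theorem topA_ne {t : V6 × V6 × V6} (h0 : t.2.1 ≠ t.1) (h : finrank ℝ (tw t) = 2) :
    t.2.2 - t.1 ∉ Submodule.span ℝ {t.2.1 - t.1} := fun k => by
  have : tw t ≤ Submodule.span ℝ {t.2.1 - t.1} :=
    Submodule.span_le.2 (Set.pair_subset (Submodule.mem_span_singleton_self _) k)
  have := Submodule.finrank_mono this
  rw [finrank_span_singleton (sub_ne_zero.2 h0)] at this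
  omega

theorem topA_sw {P : Finset V3} {t : V6 × V6 × V6} (ht : t ∈ tri P) (h : finrank ℝ (tw t) = 2) :
    topSw t ∈ tri P := by
  obtain ⟨h1, h2, h3, h4, h5⟩ := mem_tri.1 ht
  rw [mem_nb] at h3 h4
  refine mem_tri.2 ⟨h3.1, h3.2.1, mem_nb.2 ⟨h1, h2, h3.2.2.1.symm, ?_⟩,
    mem_nb.2 ⟨h4.1, h4.2.1, fun e => topA_ne h3.2.2.1 h ?_, h5⟩, h4.2.2.2⟩
  · rw [← Bf_neg_neg, neg_sub]
    exact h3.2.2.2
  · rw [show t.2.2 = t.2.1 from e]
    exact Submodule.mem_span_singleton_self _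

theorem topA_mp {P : Finset V3} {t : V6 × V6 × V6} (ht : t ∈ tri P) (h : finrank ℝ (tw t) = 2) :
    (hl (t.2.1 - t.1), hl (t.2.2 - t.1)) ∈ mp (lv P t.1) := by
  obtain ⟨-, -, h3, h4, h5⟩ := mem_tri.1 ht
  have k3 := mem_nb.1 h3
  have k4 := mem_nb.1 h4
  have a3 := sub_ne_zero.2 k3.2.2.1
  have a4 := sub_ne_zero.2 k4.2.2.1
  refine mem_mp.2 ⟨mem_lv.2 ⟨_, h3, rfl⟩, mem_lv.2 ⟨_, h4, rfl⟩, fun e => topA_ne k3.2.2.1 h ?_,
    (hl_meet_iff a3 k3.2.2.2 a4 k4.2.2.2).2 ?_⟩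
  · rw [(hl_eq_iff a3 k3.2.2.2 a4 k4.2.2.2).1 e]
    exact Submodule.mem_span_singleton_self _
  · have := Bf_sub_self (t.2.2 - t.1) (t.2.1 - t.1)
    rw [sub_sub_sub_cancel_right, h5, k3.2.2.2, k4.2.2.2, Bf_comm] at this
    linarith

theorem topA_reg {P : Finset V3} {v y : V6} (hy : y ∈ nb P P v) {S : Finset Sub} (hS : S ⊆ lv P v)
    (hl' : hl (y - v) ∈ S) (hR : Reg S) : ∃ U : Submodule ℝ V6, finrank ℝ U = 3 ∧ y - v ∉ U ∧
      ∀ y' ∈ nb P P v, hl (y' - v) ∈ S → hl (y - v) ≠ hl (y' - v) →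
        meet (hl (y - v)) (hl (y' - v)) → y' - v ∈ U := by
  obtain ⟨a, ha, b, hb, c, hc, h1, h2, h3, h4, h5⟩ := hR _ hl'
  obtain ⟨a, ha', rfl⟩ := mem_lv.1 (hS ha)
  obtain ⟨b, hb', rfl⟩ := mem_lv.1 (hS hb)
  obtain ⟨c, hc', rfl⟩ := mem_lv.1 (hS hc)
  have key : ∀ x ∈ nb P P v, ∀ x' ∈ nb P P v,
      meet (hl (x - v)) (hl (x' - v)) ↔ Bf (x - v) (x' - v) = 0 := fun x hx x' hx' =>
    hl_meet_iff (sub_ne_zero.2 (mem_nb.1 hx).2.2.1) (mem_nb.1 hx).2.2.2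
      (sub_ne_zero.2 (mem_nb.1 hx').2.2.1) (mem_nb.1 hx').2.2.2
  rw [key _ ha' _ hb'] at h1
  rw [key _ ha' _ hc'] at h2
  rw [key _ hb' _ hc'] at h3
  rw [key _ hy _ ha', key _ hy _ hb', key _ hy _ hc'] at h4
  obtain ⟨U, hU, hm⟩ := perp_three (mem_nb.1 ha').2.2.2 (mem_nb.1 hb').2.2.2 (mem_nb.1 hc').2.2.2
    h1 h2 h3
  refine ⟨U, hU, fun k => h4 ((hm _).1 k), fun y' hy' k1 k2 k3 => (hm _).2 ?_⟩
  rw [← key _ hy' _ ha', ← key _ hy' _ hb', ← key _ hy' _ hc']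
  exact h5 _ k1 k2.symm k3

theorem topA_sf {P : Finset V3} {Z : ℝ} {sf : V6 → Sub → Finset Sub} (hsf : SfOK Z P sf)
    {t : V6 × V6 × V6} (ht : t ∈ tri P) {l l' : Sub} (h : l' ∈ sf t.1 l) :
    sf t.1 l ⊆ lv P t.1 ∧ l ∈ sf t.1 l :=
  ((hsf t.1 (mem_product.2 ⟨(mem_tri.1 ht).1, (mem_tri.1 ht).2.1⟩) l).resolve_left
    (ne_empty_of_mem h)).2

/-- The two pin trick. -/
theorem two_pin (P : Finset V3) {Z c : ℝ} (hc : ∀ T ⊆ P, Copl T → (T.card : ℝ) ≤ c)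
    {sf : V6 → Sub → Finset Sub} (hsf : SfOK Z P sf) :
    (((tri P).filter fun t => finrank ℝ (tw t) = 2 ∧
      (hl (t.2.2 - t.1) ∈ sf t.1 (hl (t.2.1 - t.1)) ∧ Reg (sf t.1 (hl (t.2.1 - t.1)))) ∧
      (hl (t.2.2 - t.2.1) ∈ sf t.2.1 (hl (t.1 - t.2.1)) ∧
        Reg (sf t.2.1 (hl (t.1 - t.2.1))))).card : ℝ) ≤ 2 * c * EE P := by
  refine topA_count P (filter_subset _ _) fun v y T hT => ?_
  rcases T.eq_empty_or_nonempty with rfl | ⟨y0, h0⟩
  · simpa using hc ∅ (empty_subset _) ⟨0, 0, 0, by simp⟩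
  obtain ⟨a1, a2, a3, a4⟩ := mem_filter.1 (hT y0 h0)
  have b1 := topA_sw a1 a2
  obtain ⟨U, u1, -, u3⟩ := topA_reg (mem_tri.1 a1).2.2.1 (topA_sf hsf a1 a3.1).1
    (topA_sf hsf a1 a3.1).2 a3.2
  obtain ⟨U', -, w2, w3⟩ := topA_reg (mem_tri.1 b1).2.2.1 (topA_sf hsf b1 a4.1).1
    (topA_sf hsf b1 a4.1).2 a4.2
  have key : ∀ y' ∈ T, y' - v ∈ U ∧ y' - y ∈ U' := fun y' hy' => by
    obtain ⟨k1, k2, k3, k4⟩ := mem_filter.1 (hT y' hy')
    have k5 := topA_sw k1 k2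
    have m1 := mem_mp.1 (topA_mp k1 k2)
    have m2 := mem_mp.1 (topA_mp k5 (by rwa [topA_tw]))
    exact ⟨u3 y' (mem_tri.1 k1).2.2.2.1 k3.1 m1.2.2.1 m1.2.2.2,
      w3 y' (mem_tri.1 k5).2.2.2.1 k4.1 m2.2.2.1 m2.2.2.2⟩
  refine flat_two P hc v T (fun y' hy' => (mem_tri.1 (mem_filter.1 (hT y' hy')).1).2.2.2.1)
    (U ⊓ U') ?_ fun a ha b hb => ⟨?_, ?_⟩
  · have := Submodule.finrank_lt_finrank_of_lt (inf_lt_left.2 fun k : U ≤ U' => w2 (by
      simpa [topSw] using U'.sub_mem (key y0 h0).2 (k (key y0 h0).1)))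
    omega
  · simpa using U.sub_mem (key a ha).1 (key b hb).1
  · simpa using U'.sub_mem (key a ha).2 (key b hb).2

theorem topA_nreg (P : Finset V3) {Z : ℝ} (hZ : 1 ≤ Z) (sf : V6 → Sub → Finset Sub) :
    (((tri P).filter fun t => finrank ℝ (tw t) = 2 ∧ ((fl P t.1 (tw t)).card : ℝ) ≤ Z ^ 3 ∧
      ¬(hl (t.2.2 - t.1) ∈ sf t.1 (hl (t.2.1 - t.1)) ∧ Reg (sf t.1 (hl (t.2.1 - t.1))))).card : ℝ)
      ≤ Z ^ 6 * (UU P sf + UK P sf) := by
  refine (topA_fib _ ((P ×ˢ P).sigma fun v => (mp (lv P v)).filter fun q =>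
    ¬(q.2 ∈ sf v q.1 ∧ Reg (sf v q.1)))
    (fun t => (⟨t.1, hl (t.2.1 - t.1), hl (t.2.2 - t.1)⟩ : Σ _ : V6, Sub × Sub))
    (fun t ht => ?_) (K := Z ^ 6) fun b _ T hT => ?_).trans
      (mul_le_mul_of_nonneg_left ?_ (by positivity))
  · obtain ⟨h1, h2, -, h4⟩ := mem_filter.1 ht
    exact mem_sigma.2 ⟨mem_product.2 ⟨(mem_tri.1 h1).1, (mem_tri.1 h1).2.1⟩,
      mem_filter.2 ⟨topA_mp h1 h2, h4⟩⟩
  · rcases T.eq_empty_or_nonempty with rfl | ⟨t0, h0⟩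
    · rw [card_empty, Nat.cast_zero]
      positivity
    have key : ∀ t ∈ tri P, (⟨t.1, hl (t.2.1 - t.1), hl (t.2.2 - t.1)⟩ : Σ _ : V6, Sub × Sub) = b →
        t.1 = b.1 ∧ tw t = wof b.2.1 b.2.2 ∧
          t.2 ∈ fl P b.1 (wof b.2.1 b.2.2) ×ˢ fl P b.1 (wof b.2.1 b.2.2) := by
      rintro t ht rfl
      obtain ⟨-, -, h3, h4, -⟩ := mem_tri.1 ht
      rw [mem_nb] at h3 h4
      have e := wof_hl (sub_ne_zero.2 h3.2.2.1) h3.2.2.2 (sub_ne_zero.2 h4.2.2.1) h4.2.2.2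
      refine ⟨rfl, e.symm, mem_product.2 ⟨mem_fl.2 ⟨h3.1, h3.2.1, ?_⟩, mem_fl.2 ⟨h4.1, h4.2.1, ?_⟩⟩⟩
      · exact e.ge (Submodule.subset_span (by simp))
      · exact e.ge (Submodule.subset_span (by simp))
    obtain ⟨h1, h2⟩ := hT t0 h0
    obtain ⟨h3, -, h4, -⟩ := mem_filter.1 h1
    obtain ⟨k1, k2, -⟩ := key t0 h3 h2
    rw [k1, k2] at h4
    refine le_trans (Nat.cast_le.2 (card_le_card_of_injOn Prod.snd
      (fun t ht => (key t (mem_filter.1 (hT t ht).1).1 (hT t ht).2).2.2)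
      fun t ht t' ht' e => Prod.ext
        ((key t (mem_filter.1 (hT t ht).1).1 (hT t ht).2).1.trans
          (key t' (mem_filter.1 (hT t' ht').1).1 (hT t' ht').2).1.symm) e)) ?_
    rw [card_product, Nat.cast_mul, show Z ^ 6 = Z ^ 3 * Z ^ 3 by ring]
    exact mul_le_mul h4 h4 (Nat.cast_nonneg _) (pow_nonneg (zero_le_one.trans hZ) _)
  · rw [card_sigma, UU, UK, ← Nat.cast_add, ← sum_add_distrib]
    refine Nat.cast_le.2 (sum_le_sum fun v _ => le_trans (card_le_card fun q hq => ?_)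
      (card_union_le _ _))
    simp only [mem_union, mem_filter] at hq ⊢
    tauto

/-- Hint: a triangle that is not of regulus type at `t.1` maps to `(t.1, l', l'')`, with fibres
of size at most `Z⁶` (`wof_hl`); swap the first two vertices for the other case. -/
theorem tri_small (P : Finset V3) {Z c : ℝ} (hZ : 1 ≤ Z)
    (hc : ∀ T ⊆ P, Copl T → (T.card : ℝ) ≤ c) {sf : V6 → Sub → Finset Sub} (hsf : SfOK Z P sf) :
    (((tri P).filter fun t => finrank ℝ (tw t) = 2 ∧ ((fl P t.1 (tw t)).card : ℝ) ≤ Z ^ 3).card : ℝ)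
      ≤ 2 * Z ^ 6 * (UU P sf + UK P sf) + 2 * c * EE P := by
  have h1 := topA_nreg P hZ sf
  have h2 := two_pin P hc hsf
  set A := (tri P).filter fun t => finrank ℝ (tw t) = 2 ∧ ((fl P t.1 (tw t)).card : ℝ) ≤ Z ^ 3 ∧
    ¬(hl (t.2.2 - t.1) ∈ sf t.1 (hl (t.2.1 - t.1)) ∧ Reg (sf t.1 (hl (t.2.1 - t.1)))) with hA
  have key : ∀ {S B : Finset (V6 × V6 × V6)}, S ⊆ A ∪ A.image topSw ∪ B →
      (S.card : ℝ) ≤ A.card + A.card + B.card := fun h => by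
    exact_mod_cast (card_le_card h).trans ((card_union_le _ _).trans (Nat.add_le_add_right
      ((card_union_le _ _).trans (Nat.add_le_add_left card_image_le _)) _))
  refine (key fun t ht => ?_).trans ((add_le_add (add_le_add h1 h1) h2).trans (le_of_eq (by ring)))
  obtain ⟨k1, k2, k3⟩ := mem_filter.1 ht
  by_cases a : hl (t.2.2 - t.1) ∈ sf t.1 (hl (t.2.1 - t.1)) ∧ Reg (sf t.1 (hl (t.2.1 - t.1)))
  · by_cases b : hl (t.2.2 - t.2.1) ∈ sf t.2.1 (hl (t.1 - t.2.1)) ∧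
      Reg (sf t.2.1 (hl (t.1 - t.2.1)))
    · exact mem_union_right _ (mem_filter.2 ⟨k1, k2, a, b⟩)
    · refine mem_union_left _ (mem_union_right _ (mem_image.2 ⟨topSw t, mem_filter.2
        ⟨topA_sw k1 k2, by rwa [topA_tw], le_trans (Nat.cast_le.2 (card_le_card fun y hy => ?_)) k3,
          b⟩, rfl⟩))
      rw [topA_tw, mem_fl] at hy
      have : t.2.1 - t.1 ∈ tw t := Submodule.subset_span (by simp)
      exact mem_fl.2 ⟨hy.1, hy.2.1, by simpa [topSw] using (tw t).add_mem hy.2.2 this⟩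
  · exact mem_union_left _ (mem_union_left _ (mem_filter.2 ⟨k1, k2, k3, a⟩))

end Vale.Agent.P054
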